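import Mathlib.RingTheory.PowerSeries.Basic
import Mathlib.RingTheory.PowerSeries.Trunc
import Mathlib.RingTheory.PowerSeries.Inverse
import Mathlib.LinearAlgebra.Span.Basic
import Mathlib.Algebra.Algebra.Basic
import Mathlib.Data.Nat.Prime.Factorial
import Mathlib.Tactic

/-!
# P251, part Q: the algebraic core of Quillen's argument

`U` is the (total) even cohomology of a fixed space `X`, `V k` that of `X ⊗ B_k` (`B_k` the lens
space of dimension `2 k + 1`), `v k` multiplication by the Euler class, `pull k : U → V k`,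
`pt k : V k → U` the restriction to the base point of `B_k`, `res k : V (k+1) → V k`.
`C` is the coefficient ring (Lazard's ring), power series over `C` act on `V k` because `v k` is
nilpotent.
-/

open Finset

namespace Vale.Agent.P251.Q

/-- The action of a power series in the nilpotent operator `v` (`v ^ (k+1) = 0`). -/
noncomputable def act {C : Type*} [CommRing C] {W : Type*} [AddCommGroup W] [Module C W]
    (k : ℕ) (v : W →ₗ[C] W) (f : PowerSeries C) : W →ₗ[C] W :=
  ∑ l ∈ range (k + 1), PowerSeries.coeff l f • v ^ l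

section act

variable {C : Type*} [CommRing C] {W : Type*} [AddCommGroup W] [Module C W]
  (k : ℕ) (v : W →ₗ[C] W)

theorem act_apply (f : PowerSeries C) (z : W) :
    act k v f z = ∑ l ∈ range (k + 1), PowerSeries.coeff l f • (v ^ l) z := by
  simp [act, LinearMap.sum_apply]

theorem act_eq_aeval (f : PowerSeries C) :
    act k v f = Polynomial.aeval v (PowerSeries.trunc (k + 1) f) := by
  unfold act
  rw [Polynomial.aeval_eq_sum_range' (n := k + 1)]
  · refine sum_congr rfl fun l hl => ?_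
    rw [PowerSeries.coeff_trunc, if_pos (mem_range.1 hl)]
  · exact PowerSeries.natDegree_trunc_lt f k

theorem act_one : act k v 1 = 1 := by
  rw [act_eq_aeval, PowerSeries.trunc_one, map_one]

theorem act_add (f g : PowerSeries C) : act k v (f + g) = act k v f + act k v g := by
  simp only [act_eq_aeval, map_add]

theorem pow_eq_zero_of_le' {k : ℕ} {v : W →ₗ[C] W} (hv : v ^ (k + 1) = 0) {l : ℕ}
    (hl : k + 1 ≤ l) : v ^ l = 0 := by
  obtain ⟨m, rfl⟩ := Nat.exists_eq_add_of_le hl
  rw [pow_add, hv, zero_mul]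

theorem act_mul (hv : v ^ (k + 1) = 0) (f g : PowerSeries C) :
    act k v (f * g) = act k v f * act k v g := by
  unfold act
  rw [sum_mul_sum]
  have h1 : ∀ l ∈ range (k + 1), PowerSeries.coeff l (f * g) • v ^ l =
      ∑ q ∈ antidiagonal l, (PowerSeries.coeff q.1 f • v ^ q.1) *
        (PowerSeries.coeff q.2 g • v ^ q.2) := by
    intro l _
    rw [PowerSeries.coeff_mul, sum_smul]
    refine sum_congr rfl fun q hq => ?_
    rw [mem_antidiagonal] at hq
    rw [smul_mul_smul_comm, ← pow_add, hq]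
  rw [sum_congr rfl h1]
  rw [← sum_product' (range (k+1)) (range (k+1))
    (fun i j => (PowerSeries.coeff i f • v ^ i) * (PowerSeries.coeff j g • v ^ j))]
  rw [sum_sigma']
  refine sum_bij_ne_zero (fun q _ _ => q.2) ?_ ?_ ?_ ?_
  · rintro ⟨l, q⟩ hq _
    simp only [mem_sigma, mem_range, mem_antidiagonal, mem_product] at hq ⊢
    omega
  · rintro ⟨l, q⟩ hq _ ⟨l', q'⟩ hq' _ h
    simp only [mem_sigma, mem_range, mem_antidiagonal] at hq hq'
    simp only at h
    subst h
    have : l = l' := by omega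
    subst this
    rfl
  · rintro ⟨i, j⟩ hij hne
    simp only [mem_product, mem_range] at hij
    have hlt : i + j < k + 1 := by
      by_contra hcon
      apply hne
      rw [smul_mul_smul_comm, ← pow_add, pow_eq_zero_of_le' hv (by omega), smul_zero]
    refine ⟨⟨i + j, (i, j)⟩, ?_, ?_, rfl⟩
    · simp only [mem_sigma, mem_range, mem_antidiagonal, and_true]
      exact hlt
    · simpa using hne
  · rintro ⟨l, q⟩ hq _
    rfl

theorem act_X (hk : 1 ≤ k) : act k v PowerSeries.X = v := by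
  unfold act
  rw [sum_eq_single 1]
  · simp
  · intro l _ hl
    rw [PowerSeries.coeff_X, if_neg hl, zero_smul]
  · intro h
    exact absurd (mem_range.2 (by omega)) h

theorem act_comm (f : PowerSeries C) (z : W) : act k v f (v z) = v (act k v f z) := by
  simp only [act_apply, map_sum, map_smul]
  refine sum_congr rfl fun l _ => ?_
  congr 1
  rw [← Module.End.mul_apply, ← pow_succ, pow_succ', Module.End.mul_apply]

theorem act_pow_comm (f : PowerSeries C) (n : ℕ) (z : W) :
    act k v f ((v ^ n) z) = (v ^ n) (act k v f z) := by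
  induction n generalizing z with
  | zero => simp
  | succ n ih => rw [pow_succ, Module.End.mul_apply, Module.End.mul_apply, ih, act_comm]

end act

/-- The formal properties of the tower `V k = h(X ⊗ B_k)` over `U = h(X)`. `h` is the total even
cohomology theory, `gU i`, `gV k i` are the elements of (complex) degree `i`. -/
structure LensTower (p : ℕ) (C : Type*) [CommRing C] (U : Type*) [AddCommGroup U] [Module C U]
    (V : ℕ → Type*) [∀ k, AddCommGroup (V k)] [∀ k, Module C (V k)] where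
  /-- elements of degree `i` of the coefficient ring -/
  gC : ℤ → AddSubgroup C
  /-- elements of degree `i` of `U` -/
  gU : ℤ → AddSubgroup U
  /-- elements of degree `i` of `V k` -/
  gV : ∀ k, ℤ → AddSubgroup (V k)
  /-- multiplication with the Euler class -/
  v : ∀ k, V k →ₗ[C] V k
  /-- pull back along the projection -/
  pull : ∀ k, U →ₗ[C] V k
  /-- restriction to the base point -/
  pt : ∀ k, V k →ₗ[C] U
  /-- restriction `V (k+1) → V k` -/
  res : ∀ k, V (k + 1) →ₗ[C] V k
  /-- the series `[p](v) / v` -/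
  pser : PowerSeries C
  pser_zero : PowerSeries.coeff 0 pser = (p : C)
  pser_deg : ∀ l : ℕ, PowerSeries.coeff l pser ∈ gC (-(l : ℤ))
  one_deg : (1 : C) ∈ gC 0
  mul_deg : ∀ i j c c', c ∈ gC i → c' ∈ gC j → c * c' ∈ gC (i + j)
  smul_deg : ∀ i j c u, c ∈ gC i → u ∈ gU j → c • u ∈ gU (i + j)
  smul_deg' : ∀ k i j c u, c ∈ gC i → u ∈ gV k j → c • u ∈ gV k (i + j)
  v_pow : ∀ k, v k ^ (k + 1) = 0
  v_deg : ∀ k i z, z ∈ gV k i → v k z ∈ gV k (i + 1)
  pull_deg : ∀ k i u, u ∈ gU i → pull k u ∈ gV k i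
  res_deg : ∀ k i z, z ∈ gV (k + 1) i → res k z ∈ gV k i
  pt_pull : ∀ k u, pt k (pull k u) = u
  pt_v : ∀ k z, pt k (v k z) = 0
  pt_res : ∀ k z, pt k (res k z) = pt (k + 1) z
  res_v : ∀ k z, res k (v (k + 1) z) = v k (res k z)
  res_pull : ∀ k u, res k (pull (k + 1) u) = pull k u
  /-- lens lemma: a class killed by `v` becomes a multiple of `[p](v) / v` on `B_{k-2}` -/
  lens : ∀ k i (z : V (k + 2)), z ∈ gV (k + 2) i → v (k + 2) z = 0 →
    ∃ y ∈ gU i, res k (res (k + 1) z) = act k (v k) pser (pull k y)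

namespace LensTower

variable {p : ℕ} {C : Type*} [CommRing C] {U : Type*} [AddCommGroup U] [Module C U]
    {V : ℕ → Type*} [∀ k, AddCommGroup (V k)] [∀ k, Module C (V k)]
    (T : LensTower p C U V)

/-- The `C`-submodule generated by the elements of degree `> d`. -/
def R (d : ℤ) : Submodule C U := Submodule.span C (⋃ i : {i : ℤ // d < i}, (T.gU i : Set U))

theorem mem_R_of_mem {d i : ℤ} (h : d < i) {u : U} (hu : u ∈ T.gU i) : u ∈ T.R d :=
  Submodule.subset_span (Set.mem_iUnion.2 ⟨⟨i, h⟩, hu⟩)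

theorem R_le {d : ℤ} {N : Submodule C U} (h : ∀ i, d < i → ∀ u ∈ T.gU i, u ∈ N) : T.R d ≤ N := by
  unfold R
  rw [Submodule.span_le]
  intro u hu
  obtain ⟨⟨i, hi⟩, hu⟩ := Set.mem_iUnion.1 hu
  exact h i hi u hu

/-- `z` is a homogeneous polynomial in `v` of degree `d` with coefficients in `N ⊆ U`. -/
def IsPoly (N : Submodule C U) (k : ℕ) (d : ℤ) (z : V k) : Prop :=
  ∃ r : ℕ → U, (∀ l : ℕ, r l ∈ T.gU (d - l)) ∧ (∀ l, r l ∈ N) ∧
    z = ∑ l ∈ range (k + 1), (T.v k ^ l) (T.pull k (r l))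

/-- a homogeneous series of degree `d` (the variable has degree `1`) -/
def IsHom (d : ℤ) (f : PowerSeries C) : Prop := ∀ l : ℕ, PowerSeries.coeff l f ∈ T.gC (d - l)

variable {T}

theorem IsPoly.add {N : Submodule C U} {k : ℕ} {d : ℤ} {z z' : V k}
    (h : T.IsPoly N k d z) (h' : T.IsPoly N k d z') : T.IsPoly N k d (z + z') := by
  obtain ⟨r, h1, h2, rfl⟩ := h
  obtain ⟨r', h1', h2', rfl⟩ := h'
  refine ⟨fun l => r l + r' l, fun l => add_mem (h1 l) (h1' l), fun l => add_mem (h2 l) (h2' l), ?_⟩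
  rw [← sum_add_distrib]
  exact sum_congr rfl fun l _ => by rw [map_add, map_add]

theorem IsPoly.zero {N : Submodule C U} {k : ℕ} {d : ℤ} : T.IsPoly N k d (0 : V k) :=
  ⟨fun _ => 0, fun _ => zero_mem _, fun _ => zero_mem _, by simp⟩

theorem IsPoly.sum {N : Submodule C U} {k : ℕ} {d : ℤ} {ι : Type*} (s : Finset ι) (z : ι → V k)
    (h : ∀ i ∈ s, T.IsPoly N k d (z i)) : T.IsPoly N k d (∑ i ∈ s, z i) := by
  classical
  induction s using Finset.induction_on with
  | empty => simpa using IsPoly.zero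
  | insert a s ha ih =>
    rw [sum_insert ha]
    exact (h a (mem_insert_self a s)).add (ih fun i hi => h i (mem_insert_of_mem hi))

theorem v_pow_deg (k l : ℕ) (z : V k) (i : ℤ) (hz : z ∈ T.gV k i) :
    (T.v k ^ l) z ∈ T.gV k (i + l) := by
  induction l with
  | zero => simpa using hz
  | succ l ih =>
    rw [pow_succ', Module.End.mul_apply]
    have := T.v_deg k _ _ ih
    have e : i + ((l + 1 : ℕ) : ℤ) = i + l + 1 := by push_cast; ring
    rw [e]
    exact this

theorem act_deg {k : ℕ} {d i : ℤ} {f : PowerSeries C} (hf : T.IsHom d f) {z : V k}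
    (hz : z ∈ T.gV k i) : act k (T.v k) f z ∈ T.gV k (d + i) := by
  rw [act_apply]
  refine sum_mem fun l _ => ?_
  have h1 := T.smul_deg' k _ _ _ _ (hf l) (v_pow_deg k l z i hz)
  have e : d + i = d - l + (i + l) := by ring
  rw [e]
  exact h1

theorem IsHom.one : T.IsHom 0 1 := by
  intro l
  rw [PowerSeries.coeff_one]
  split_ifs with h
  · subst h; simpa using T.one_deg
  · exact zero_mem _

theorem IsHom.mul {d d' : ℤ} {f g : PowerSeries C} (hf : T.IsHom d f) (hg : T.IsHom d' g) :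
    T.IsHom (d + d') (f * g) := by
  intro l
  rw [PowerSeries.coeff_mul]
  refine sum_mem fun q hq => ?_
  rw [mem_antidiagonal] at hq
  have := T.mul_deg _ _ _ _ (hf q.1) (hg q.2)
  have e : d + d' - (l : ℤ) = d - q.1 + (d' - q.2) := by rw [← hq]; push_cast; ring
  rw [e]; exact this

theorem IsHom.pow {d : ℤ} {f : PowerSeries C} (hf : T.IsHom d f) (n : ℕ) :
    T.IsHom (n * d) (f ^ n) := by
  induction n with
  | zero => simpa using IsHom.one
  | succ n ih =>
    rw [pow_succ]
    have := ih.mul hf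
    have e : ((n + 1 : ℕ) : ℤ) * d = n * d + d := by push_cast; ring
    rw [e]; exact this

/-- A homogeneous polynomial in `v` multiplied by a pulled back class is a polynomial. -/
theorem IsPoly.act_pull {N : Submodule C U} {k : ℕ} {d i : ℤ} {f : PowerSeries C}
    (hf : T.IsHom d f) {u : U} (hu : u ∈ T.gU i) (huN : u ∈ N) :
    T.IsPoly N k (d + i) (act k (T.v k) f (T.pull k u)) := by
  refine ⟨fun l => PowerSeries.coeff l f • u, fun l => ?_,
      fun l => Submodule.smul_mem _ _ huN, ?_⟩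
  · have := T.smul_deg _ _ _ _ (hf l) hu
    have e : d + i - (l : ℤ) = d - l + i := by ring
    rw [e]; exact this
  · rw [act_apply]
    exact sum_congr rfl fun l _ => by rw [map_smul, map_smul]

theorem res_v_pow (k l : ℕ) (u : V (k + 1)) :
    T.res k ((T.v (k + 1) ^ l) u) = (T.v k ^ l) (T.res k u) := by
  induction l generalizing u with
  | zero => simp
  | succ l ih =>
    rw [pow_succ, Module.End.mul_apply, ih, T.res_v, pow_succ, Module.End.mul_apply]

theorem pt_v_pow (k : ℕ) {l : ℕ} (z : V k) (hl : l ≠ 0) : T.pt k ((T.v k ^ l) z) = 0 := by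
  obtain ⟨l, rfl⟩ := Nat.exists_eq_succ_of_ne_zero hl
  rw [pow_succ', Module.End.mul_apply, T.pt_v]

theorem pt_poly (k : ℕ) (r : ℕ → U) :
    T.pt k (∑ l ∈ range (k + 1), (T.v k ^ l) (T.pull k (r l))) = r 0 := by
  rw [map_sum, sum_range_succ']
  rw [sum_eq_zero, zero_add, pow_zero, Module.End.one_apply, T.pt_pull]
  intro l _
  exact pt_v_pow k _ (Nat.succ_ne_zero l)

theorem pt_act (k : ℕ) (f : PowerSeries C) (z : V k) :
    T.pt k (act k (T.v k) f z) = PowerSeries.coeff 0 f • T.pt k z := by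
  rw [act_apply, map_sum, sum_range_succ', sum_eq_zero, zero_add, pow_zero, map_smul,
    Module.End.one_apply]
  intro l _
  rw [map_smul, pt_v_pow k _ (Nat.succ_ne_zero l), smul_zero]

/-- One step of the descent: division by `v`. -/
theorem descent_step {N : Submodule C U} {k m : ℕ} {d : ℤ} {y : V (k + 2)}
    (hdeg : y ∈ T.gV (k + 2) d)
    (hm : T.IsPoly N (k + 2) (d + (m + 1 : ℕ)) ((T.v (k + 2) ^ (m + 1)) y)) :
    ∃ z u, T.IsPoly N k (d + m) z ∧ u ∈ T.gU (d + m) ∧
      (T.v k ^ m) (T.res k (T.res (k + 1) y)) = z + act k (T.v k) T.pser (T.pull k u) := by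
  obtain ⟨r, h1, h2, h3⟩ := hm
  have hr0 : r 0 = 0 := by
    have := congrArg (T.pt (k + 2)) h3
    rw [pt_poly, pt_v_pow _ _ (Nat.succ_ne_zero m)] at this
    exact this.symm
  -- the class killed by `v`
  set s : V (k + 2) := ∑ l ∈ range (k + 2 + 1), (T.v (k + 2) ^ l) (T.pull (k + 2) (r (l + 1)))
    with hs
  have hzdeg : (T.v (k + 2) ^ m) y - s ∈ T.gV (k + 2) (d + m) := by
    refine sub_mem (v_pow_deg (k + 2) m _ _ hdeg) ?_
    rw [hs]
    refine sum_mem fun l _ => ?_
    have h4 := v_pow_deg (k + 2) l _ _ (T.pull_deg (k + 2) _ _ (h1 (l + 1)))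
    have e : d + (m : ℤ) = d + ((m + 1 : ℕ) : ℤ) - ((l + 1 : ℕ) : ℤ) + l := by push_cast; ring
    rw [e]; exact h4
  have hzv : T.v (k + 2) ((T.v (k + 2) ^ m) y - s) = 0 := by
    have h0 : T.v (k + 2) ((T.v (k + 2) ^ (k + 2)) (T.pull (k + 2) (r (k + 2 + 1)))) = 0 := by
      rw [← Module.End.mul_apply, ← pow_succ', T.v_pow]; rfl
    have e1 : T.v (k + 2) s = ∑ l ∈ range (k + 2), (T.v (k + 2) ^ (l + 1))
        (T.pull (k + 2) (r (l + 1))) := by
      rw [hs, map_sum, sum_range_succ, h0, add_zero]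
      exact sum_congr rfl fun l _ => by rw [pow_succ', Module.End.mul_apply]
    rw [map_sub, sub_eq_zero, ← Module.End.mul_apply, ← pow_succ', h3, e1,
      sum_range_succ', hr0, map_zero, map_zero, add_zero]
  obtain ⟨u, hu, hu'⟩ := T.lens k _ _ hzdeg hzv
  have hpoly : T.res k (T.res (k + 1) s) =
      ∑ l ∈ range (k + 1), (T.v k ^ l) (T.pull k (r (l + 1))) := by
    rw [hs, map_sum, map_sum, sum_range_succ, sum_range_succ]
    have e1 : ∀ l, T.res k (T.res (k + 1) ((T.v (k + 2) ^ l) (T.pull (k + 2) (r (l + 1))))) =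
        (T.v k ^ l) (T.pull k (r (l + 1))) := by
      intro l
      rw [res_v_pow, res_v_pow, T.res_pull, T.res_pull]
    simp only [e1]
    have e2 : (T.v k ^ (k + 1)) (T.pull k (r (k + 1 + 1))) = 0 := by rw [T.v_pow]; rfl
    have e3 : (T.v k ^ (k + 2)) (T.pull k (r (k + 2 + 1))) = 0 := by
      rw [pow_eq_zero_of_le' (T.v_pow k) (by omega)]; rfl
    rw [e2, e3, add_zero, add_zero]
  refine ⟨_, u, ⟨fun l => r (l + 1), ?_, fun l => h2 _, rfl⟩, hu, ?_⟩
  · intro l
    have := h1 (l + 1)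
    have e : d + (m : ℤ) - l = d + ((m + 1 : ℕ) : ℤ) - ((l + 1 : ℕ) : ℤ) := by push_cast; ring
    rw [e]; exact this
  · rw [map_sub, map_sub, res_v_pow, res_v_pow, hpoly, sub_eq_iff_eq_add] at hu'
    rw [hu', add_comm]

/-- The descent: if `v ^ m y` is a polynomial in `v` with coefficients in `R`, then the value of `y`
at the base point is in `R + p U`. -/
theorem descent {q : ℕ} (IH : ∀ i : ℤ, -(q : ℤ) < i → ∀ u ∈ T.gU i, u ∈ T.R 0) (m : ℕ) :
    ∀ (k : ℕ) (_ : 2 * m ≤ k) (y : V k) (_ : y ∈ T.gV k (-(q : ℤ)))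
      (_ : T.IsPoly (T.R 0) k (-(q : ℤ) + m) ((T.v k ^ m) y)),
      ∃ r ∈ T.R 0, ∃ u ∈ T.gU (-(q : ℤ)), T.pt k y = r + (p : C) • u := by
  induction m with
  | zero =>
    intro k _ y _ hm
    obtain ⟨r, h1, h2, h3⟩ := hm
    refine ⟨r 0, h2 0, 0, zero_mem _, ?_⟩
    rw [pow_zero, Module.End.one_apply] at h3
    rw [h3, pt_poly, smul_zero, add_zero]
  | succ m ih =>
    intro k hk y hy hm
    obtain ⟨k, rfl⟩ : ∃ k', k = k' + 2 := ⟨k - 2, by omega⟩
    obtain ⟨z, u, hz, hu, h3⟩ := descent_step hy hm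
    have hpt : T.pt k (T.res k (T.res (k + 1) y)) = T.pt (k + 2) y := by
      rw [T.pt_res, T.pt_res]
    have hpdeg : T.IsHom 0 T.pser := fun l => by simpa using T.pser_deg l
    rcases m with _ | m
    · rw [pow_zero, Module.End.one_apply] at h3
      obtain ⟨r, h1, h2, h4⟩ := hz
      refine ⟨r 0, h2 0, u, by simpa using hu, ?_⟩
      rw [← hpt, h3, map_add, h4, pt_poly, pt_act, T.pt_pull, T.pser_zero]
    · rw [← hpt]
      refine ih k (by omega) _ (T.res_deg _ _ _ (T.res_deg _ _ _ hy)) ?_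
      rw [h3]
      refine hz.add ?_
      have h5 := IsPoly.act_pull (k := k) (N := T.R 0) hpdeg hu (IH _ (by push_cast; omega) u hu)
      rwa [zero_add] at h5

/-- **Theorem Q** (Quillen). Let `w = v ^ (p-1) f`, `f = (p-1)! + ...` and let `x` be a class of degree
`-q ≤ 0`. Suppose that there is a class `P` with `w ^ (n+q) P - w ^ n x` a polynomial in `v` with
coefficients in the submodule generated by the classes of degree `> -q` (and with `P` zero at the base
point if `q = 0`). If all classes of degree `> -q` are in `R`, then `x ∈ R + p U`. -/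
theorem quillen (hp : p.Prime) {f : PowerSeries C} (hf : T.IsHom 0 f)
    (hf0 : PowerSeries.coeff 0 f = ((p - 1).factorial : C)) {q : ℕ}
    (IH : ∀ i : ℤ, -(q : ℤ) < i → ∀ u ∈ T.gU i, u ∈ T.R 0) {x : U} (hx : x ∈ T.gU (-(q : ℤ)))
    {n k : ℕ} (hk : 2 * ((p - 1) * n) ≤ k) {P : V k} (hPdeg : P ∈ T.gV k (-(p * q : ℤ)))
    (hP0 : q = 0 → T.pt k P = 0)
    (hP : T.IsPoly (T.R (-(q : ℤ))) k (-(q : ℤ) + ((p - 1) * n : ℕ))
      (act k (T.v k) ((PowerSeries.X ^ (p - 1) * f) ^ (n + q)) P -
        act k (T.v k) ((PowerSeries.X ^ (p - 1) * f) ^ n) (T.pull k x))) :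
    ∃ r ∈ T.R 0, ∃ u ∈ T.gU (-(q : ℤ)), x = r + (p : C) • u := by
  have hp1 : 1 ≤ p - 1 := by have := hp.two_le; omega
  have hX : T.IsHom 1 (PowerSeries.X : PowerSeries C) := by
    intro l
    rw [PowerSeries.coeff_X]
    split_ifs with h
    · subst h; simpa using T.one_deg
    · exact zero_mem _
  have hw : T.IsHom ((p - 1 : ℕ) : ℤ) (PowerSeries.X ^ (p - 1) * f) := by
    have := (hX.pow (p - 1)).mul hf
    simpa using this
  -- the class `z`
  set y : V k := act k (T.v k) (f ^ n)
    (act k (T.v k) ((PowerSeries.X ^ (p - 1) * f) ^ q) P - T.pull k x) with hy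
  have hydeg : y ∈ T.gV k (-(q : ℤ)) := by
    have h1 : act k (T.v k) ((PowerSeries.X ^ (p - 1) * f) ^ q) P ∈ T.gV k (-(q : ℤ)) := by
      have h2 := act_deg (hw.pow q) hPdeg
      have e : (q : ℤ) * ((p - 1 : ℕ) : ℤ) + -(p * q : ℤ) = -(q : ℤ) := by
        rw [Nat.cast_sub hp.one_lt.le]; push_cast; ring
      rwa [e] at h2
    have h3 := act_deg (hf.pow n) (sub_mem h1 (T.pull_deg k _ _ hx))
    rw [mul_zero, zero_add] at h3
    exact h3
  have hXact : ∀ (g : PowerSeries C) (i : ℕ) (z : V k),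
      act k (T.v k) (PowerSeries.X ^ i * g) z = (T.v k ^ i) (act k (T.v k) g z) := by
    intro g i z
    rcases k with _ | k
    · -- `v = 0`
      have hv0 : T.v 0 = 0 := by simpa using T.v_pow 0
      rw [act_mul _ _ (T.v_pow 0), Module.End.mul_apply]
      rcases i with _ | i
      · rw [pow_zero, act_one, pow_zero]
      · have : act 0 (T.v 0) (PowerSeries.X ^ (i + 1) : PowerSeries C) = 0 := by
          unfold act
          simp [PowerSeries.coeff_X_pow]
        rw [this, hv0, pow_succ, mul_zero]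
    · rw [act_mul _ _ (T.v_pow (k + 1)), Module.End.mul_apply]
      congr 1
      induction i with
      | zero => rw [pow_zero, act_one, pow_zero]
      | succ i ih => rw [pow_succ, act_mul _ _ (T.v_pow (k + 1)), ih, act_X _ _ (by omega), pow_succ]
  have hm : T.IsPoly (T.R 0) k (-(q : ℤ) + ((p - 1) * n : ℕ)) ((T.v k ^ ((p - 1) * n)) y) := by
    obtain ⟨r, h1, h2, h3⟩ := hP
    refine ⟨r, h1, fun l => T.R_le (fun i hi u hu => IH i hi u hu) (h2 l), ?_⟩
    rw [← h3, hy, ← hXact]
    have e : PowerSeries.X ^ ((p - 1) * n) * f ^ n = (PowerSeries.X ^ (p - 1) * f) ^ n := by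
      rw [mul_pow, ← pow_mul]
    rw [e, map_sub, ← Module.End.mul_apply, ← act_mul _ _ (T.v_pow k), ← pow_add]
  obtain ⟨r, hr, u, hu, h⟩ := descent IH ((p - 1) * n) k hk y hydeg hm
  -- the value at the base point
  have hpty : T.pt k y = -((((p - 1).factorial ^ n : ℕ) : C) • x) := by
    rw [hy, pt_act, map_sub, T.pt_pull, pt_act]
    have e1 : PowerSeries.coeff 0 (f ^ n) = (((p - 1).factorial ^ n : ℕ) : C) := by
      rw [PowerSeries.coeff_zero_eq_constantCoeff_apply] at hf0 ⊢
      rw [map_pow, hf0]; push_cast; rfl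
    have e2 : PowerSeries.coeff 0 ((PowerSeries.X ^ (p - 1) * f) ^ q) • T.pt k P = 0 := by
      rcases Nat.eq_zero_or_pos q with h0 | h0
      · rw [hP0 h0, smul_zero]
      · rw [PowerSeries.coeff_zero_eq_constantCoeff_apply, map_pow, map_mul, map_pow,
          PowerSeries.constantCoeff_X, zero_pow (by omega), zero_mul, zero_pow (by omega), zero_smul]
    rw [e1, e2, zero_sub, smul_neg]
  have hcop : IsCoprime (((p - 1).factorial ^ n : ℕ) : ℤ) (p : ℤ) := by
    rw [Nat.isCoprime_iff_coprime]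
    exact (Nat.Coprime.pow_left n ((Nat.coprime_comm.1 ((Nat.Prime.coprime_iff_not_dvd hp).2
      (fun h => by have := hp.dvd_factorial.1 h; omega)))))
  obtain ⟨a, b, hab⟩ := hcop
  refine ⟨-((a : C) • r), neg_mem (Submodule.smul_mem _ _ hr), b • x - a • u,
    sub_mem (zsmul_mem hx b) (zsmul_mem hu a), ?_⟩
  have h1 : (((p - 1).factorial ^ n : ℕ) : C) • x = -r - (p : C) • u := by
    rw [hpty] at h
    rw [← neg_neg ((((p - 1).factorial ^ n : ℕ) : C) • x), h]
    abel
  have h2 : ((a : C) * (((p - 1).factorial ^ n : ℕ) : C) + (b : C) * (p : C)) = 1 := by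
    exact_mod_cast congrArg (Int.cast : ℤ → C) hab
  calc x = (1 : C) • x := (one_smul _ _).symm
    _ = (a : C) • ((((p - 1).factorial ^ n : ℕ) : C) • x) + ((b : C) * (p : C)) • x := by
        rw [← h2, add_smul, mul_smul]
    _ = _ := by
        rw [h1, ← Int.cast_smul_eq_zsmul C b x, ← Int.cast_smul_eq_zsmul C a u, smul_sub, smul_sub,
          smul_neg, mul_comm (b : C), mul_smul, smul_comm (a : C) (p : C) u]
        abel

end LensTower

end Vale.Agent.P251.Q
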