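import Vale.Agent.P251.F.Hom
import Vale.Agent.P251.Q.Core

/-!
# P251, part Q: homogeneous formal group laws

`F` is a formal group law over a ring `C` with a family of subgroups `gC` such that the coefficient
of `X^i Y^j` has degree `1 - i - j` (the variables have degree `1`).  Then `[m](T) = T g_m(T)` with
`g_m(T)` homogeneous of degree `0` and with constant term `m`.
-/

open Finset

namespace Vale.Agent.P251.Q

open MvPowerSeries Vale.Agent.P217 Vale.Agent.P251.F

section HomPS

variable {C : Type*} [CommRing C] {σ τ : Type*}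

/-- homogeneous power series of degree `d` (the variables have degree `1`) -/
def HomPS (gC : ℤ → AddSubgroup C) (d : ℤ) (f : MvPowerSeries σ C) : Prop :=
  ∀ m : σ →₀ ℕ, coeff m f ∈ gC (d - (m.degree : ℤ))

/-- `gC` is multiplicative -/
structure IsMulGr (gC : ℤ → AddSubgroup C) : Prop where
  one_mem : (1 : C) ∈ gC 0
  mul_mem : ∀ i j c c', c ∈ gC i → c' ∈ gC j → c * c' ∈ gC (i + j)

variable {gC : ℤ → AddSubgroup C}

theorem IsMulGr.natCast_mem (h : IsMulGr gC) (n : ℕ) : (n : C) ∈ gC 0 := by
  rw [← nsmul_one]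
  exact nsmul_mem h.one_mem n

theorem HomPS.zero {d : ℤ} : HomPS gC d (0 : MvPowerSeries σ C) := fun m => by
  rw [coeff_zero]; exact zero_mem _

theorem HomPS.add {d : ℤ} {f g : MvPowerSeries σ C} (hf : HomPS gC d f) (hg : HomPS gC d g) :
    HomPS gC d (f + g) := fun m => by
  rw [map_add]; exact add_mem (hf m) (hg m)

theorem HomPS.one (hC : IsMulGr gC) : HomPS gC 0 (1 : MvPowerSeries σ C) := fun m => by
  classical
  rw [coeff_one]
  split_ifs with h
  · subst h; simpa using hC.one_mem
  · exact zero_mem _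

theorem HomPS.X (hC : IsMulGr gC) (s : σ) : HomPS gC 1 (X s : MvPowerSeries σ C) := fun m => by
  classical
  rw [coeff_X]
  split_ifs with h
  · subst h; simpa using hC.one_mem
  · exact zero_mem _

theorem HomPS.mul (hC : IsMulGr gC) {d d' : ℤ} {f g : MvPowerSeries σ C} (hf : HomPS gC d f)
    (hg : HomPS gC d' g) : HomPS gC (d + d') (f * g) := fun m => by
  classical
  rw [coeff_mul]
  refine sum_mem fun q hq => ?_
  rw [HasAntidiagonal.mem_antidiagonal] at hq
  have := hC.mul_mem _ _ _ _ (hf q.1) (hg q.2)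
  have e : d + d' - (m.degree : ℤ) = d - (q.1.degree : ℤ) + (d' - (q.2.degree : ℤ)) := by
    rw [← hq, map_add]; push_cast; ring
  rw [e]; exact this

theorem HomPS.pow (hC : IsMulGr gC) {d : ℤ} {f : MvPowerSeries σ C} (hf : HomPS gC d f) (n : ℕ) :
    HomPS gC (n * d) (f ^ n) := by
  induction n with
  | zero => simpa using HomPS.one hC
  | succ n ih =>
    rw [pow_succ]
    have := HomPS.mul hC ih hf
    have e : ((n + 1 : ℕ) : ℤ) * d = n * d + d := by push_cast; ring
    rw [e]; exact this

theorem HomPS.prod (hC : IsMulGr gC) {ι : Type*} (s : Finset ι) (d : ι → ℤ)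
    (f : ι → MvPowerSeries σ C) (hf : ∀ i ∈ s, HomPS gC (d i) (f i)) :
    HomPS gC (∑ i ∈ s, d i) (∏ i ∈ s, f i) := by
  classical
  induction s using Finset.induction_on with
  | empty => simpa using HomPS.one hC
  | insert a s ha ih =>
    rw [prod_insert ha, sum_insert ha]
    exact HomPS.mul hC (hf a (mem_insert_self a s)) (ih fun i hi => hf i (mem_insert_of_mem hi))

theorem HomPS.subst (hC : IsMulGr gC) {d : ℤ} {f : MvPowerSeries σ C} (hf : HomPS gC d f)
    {a : σ → MvPowerSeries τ C} (ha : HasSubst a) (ha1 : ∀ s, HomPS gC 1 (a s)) :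
    HomPS gC d (subst a f) := fun m => by
  rw [coeff_subst ha]
  refine finsum_induction (· ∈ gC (d - (m.degree : ℤ))) (zero_mem _) (fun _ _ h h' => add_mem h h') ?_
  intro e
  have h1 : HomPS gC (e.degree : ℤ) (e.prod fun s n => (a s) ^ n) := by
    have := HomPS.prod hC e.support (fun s => ((e s : ℕ) : ℤ) * 1) (fun s => (a s) ^ (e s))
      (fun s _ => HomPS.pow hC (ha1 s) _)
    have e1 : ∑ s ∈ e.support, ((e s : ℕ) : ℤ) * 1 = (e.degree : ℤ) := by
      rw [Finsupp.degree_apply]
      push_cast
      simp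
    rw [e1] at this
    exact this
  have h2 := hC.mul_mem _ _ _ _ (hf e) (h1 m)
  have e2 : d - (e.degree : ℤ) + ((e.degree : ℤ) - (m.degree : ℤ)) = d - (m.degree : ℤ) := by ring
  rw [e2] at h2
  rw [smul_eq_mul]
  exact h2

end HomPS

section FG

variable {C : Type*} [CommRing C] {gC : ℤ → AddSubgroup C}

theorem homPS_multSeries (hC : IsMulGr gC) {F : FormalGroup C} (hF : HomPS gC 1 F.toPowerSeries)
    (m : ℕ) : HomPS gC 1 (multSeries F m) := by
  induction m with
  | zero =>
    have : multSeries F 0 = 0 := rfl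
    rw [this]
    exact HomPS.zero
  | succ m ih =>
    rw [multSeries_succ]
    refine HomPS.subst hC hF ?_ ?_
    · refine hasSubst_of_constantCoeff_zero fun i => ?_
      fin_cases i
      · exact constantCoeff_multSeries F m
      · exact PowerSeries.constantCoeff_X
    · intro i
      fin_cases i
      · exact ih
      · exact HomPS.X hC ()

theorem coeff_multSeries_mem (hC : IsMulGr gC) {F : FormalGroup C}
    (hF : HomPS gC 1 F.toPowerSeries) (m l : ℕ) :
    PowerSeries.coeff l (multSeries F m) ∈ gC (1 - (l : ℤ)) := by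
  have := homPS_multSeries hC hF m (Finsupp.single () l)
  simpa using this

/-- the series `[m](T) / T` -/
noncomputable def divSeries (F : FormalGroup C) (m : ℕ) : PowerSeries C :=
  PowerSeries.mk fun l => PowerSeries.coeff (l + 1) (multSeries F m)

theorem X_mul_divSeries (F : FormalGroup C) (m : ℕ) :
    PowerSeries.X * divSeries F m = multSeries F m := by
  ext l
  rcases l with _ | l
  · rw [PowerSeries.coeff_zero_X_mul, PowerSeries.coeff_zero_eq_constantCoeff_apply,
      constantCoeff_multSeries]
  · rw [PowerSeries.coeff_succ_X_mul, divSeries, PowerSeries.coeff_mk]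

theorem coeff_zero_divSeries (F : FormalGroup C) (m : ℕ) :
    PowerSeries.coeff 0 (divSeries F m) = m := by
  rw [divSeries, PowerSeries.coeff_mk, zero_add, coeff_one_multSeries]

theorem coeff_divSeries_mem (hC : IsMulGr gC) {F : FormalGroup C}
    (hF : HomPS gC 1 F.toPowerSeries) (m l : ℕ) :
    PowerSeries.coeff l (divSeries F m) ∈ gC (-(l : ℤ)) := by
  rw [divSeries, PowerSeries.coeff_mk]
  have := coeff_multSeries_mem hC hF m (l + 1)
  have e : (1 : ℤ) - ((l + 1 : ℕ) : ℤ) = -(l : ℤ) := by push_cast; ring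
  rwa [e] at this

/-- the Euler class of the reduced regular representation as a series: `∏_{0<i<p} [i](T)` -/
noncomputable def wSeries (F : FormalGroup C) (p : ℕ) : PowerSeries C :=
  ∏ i ∈ range (p - 1), multSeries F (i + 1)

/-- `∏_{0<i<p} [i](T) / T` -/
noncomputable def fSeries (F : FormalGroup C) (p : ℕ) : PowerSeries C :=
  ∏ i ∈ range (p - 1), divSeries F (i + 1)

theorem wSeries_eq (F : FormalGroup C) (p : ℕ) :
    wSeries F p = PowerSeries.X ^ (p - 1) * fSeries F p := by
  unfold wSeries fSeries
  rw [← prod_congr rfl fun i _ => X_mul_divSeries F (i + 1), prod_mul_distrib, prod_const,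
    card_range]

theorem coeff_zero_fSeries (F : FormalGroup C) (p : ℕ) :
    PowerSeries.coeff 0 (fSeries F p) = ((p - 1).factorial : C) := by
  rw [fSeries, PowerSeries.coeff_zero_eq_constantCoeff_apply, map_prod]
  simp_rw [← PowerSeries.coeff_zero_eq_constantCoeff_apply, coeff_zero_divSeries]
  rw [← Finset.prod_range_add_one_eq_factorial]
  push_cast
  rfl

theorem coeff_fSeries_mem (hC : IsMulGr gC) {F : FormalGroup C}
    (hF : HomPS gC 1 F.toPowerSeries) (p l : ℕ) :
    PowerSeries.coeff l (fSeries F p) ∈ gC (0 - (l : ℤ)) := by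
  have h1 : ∀ i ∈ range (p - 1), HomPS gC 0 (divSeries F (i + 1)) := by
    intro i _ m
    have h2 := coeff_divSeries_mem hC hF (i + 1) (m ())
    have e : m = Finsupp.single () (m ()) := by ext; simp
    rw [e]
    simpa [PowerSeries.coeff, zero_sub] using h2
  have := HomPS.prod hC (range (p - 1)) (fun _ => 0) (fun i => divSeries F (i + 1)) h1
    (Finsupp.single () l)
  rw [fSeries]
  simpa using this

end FG

end Vale.Agent.P251.Q
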