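import Vale.Agent.P251.F.Grade
import Vale.Agent.P251.Q.HomSeries

/-!
# P251, part Q: weights on the Lazard ring

The coefficient `a_{ij}` of the universal law has weight `i + j - 1`; elements of weight `w` of `Laz`
are the images of the weighted homogeneous polynomials of weight `w`; a homogeneous law over a
graded ring induces a graded homomorphism from `Laz`.
-/

namespace Vale.Agent.P251.Q

open MvPowerSeries Vale.Agent.P217 Vale.Agent.P251.F

/-- Scaling multiplies the coefficient of `X^i Y^j` by `u^{i+j-1}`. -/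
theorem coeff_scale_law {B : Type} [CommRing B] (u : Bˣ) (F : Law B) (d : Fin 2 →₀ ℕ) :
    (u : B) * coeff d ((InvSeries.lin u)⁻¹ • F).ps = (u : B) ^ d.degree * coeff d F.ps := by
  have h := (InvSeries.isHom_smul (InvSeries.lin u) ((InvSeries.lin u)⁻¹ • F)).2
  rw [smul_inv_smul] at h
  set G := (InvSeries.lin u)⁻¹ • F with hG
  have hsub : PowerSeries.HasSubst G.ps := hasSubst_of_cc G.toFG.zero_constantCoeff
  have hl : (PowerSeries.subst G.toFG.toPowerSeries (InvSeries.lin u).val :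
      MvPowerSeries (Fin 2) B) = C (u : B) * G.ps := by
    rw [InvSeries.lin_val, PowerSeries.subst_mul hsub, PowerSeries.subst_X hsub,
      PowerSeries.subst_C]
  have hr : ∀ i : Fin 2, (PowerSeries.subst (X i : MvPowerSeries (Fin 2) B)
      (InvSeries.lin u).val : MvPowerSeries (Fin 2) B) = C (u : B) * X i := by
    intro i
    have hX : PowerSeries.HasSubst (X i : MvPowerSeries (Fin 2) B) := hasSubst_of_cc (by simp)
    rw [InvSeries.lin_val, PowerSeries.subst_mul hX, PowerSeries.subst_X hX,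
      PowerSeries.subst_C]
  rw [hl, hr, hr] at h
  have hres : (MvPowerSeries.subst ![C (u : B) * X 0, C (u : B) * X 1] F.toFG.toPowerSeries :
      MvPowerSeries (Fin 2) B) = rescale (fun _ => (u : B)) F.ps := by
    rw [rescale_eq_subst]
    congr 1
    funext i
    fin_cases i <;> simp [smul_eq_C_mul]
  rw [hres] at h
  have h2 := congrArg (coeff d) h
  rw [coeff_C_mul, coeff_rescale] at h2
  rw [h2]
  congr 1
  rw [Finsupp.prod, Finset.prod_pow_eq_pow_sum, Finsupp.degree_apply]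

/-- the weight of a monomial in the `a_{ij}` -/
def wtd (d : (ℕ × ℕ) →₀ ℕ) : ℕ := d.sum fun ij e => e * (ij.1 + ij.2 + 1)

theorem isWt_a (i j : ℕ) : Cob.IsWt ((i + j + 1 : ℕ) : ℤ) (MvPolynomial.C (Laz.a i j) : Cob Laz 0) := by
  intro B _ c u
  rw [Cob.ev_C, Cob.ev_C]
  change LawRing.act (InvSeries.lin u)⁻¹ c.pt (Laz.a i j) = _
  rw [Laz.act_eq, Laz.lift_a]
  have h := coeff_scale_law u (Laz.univ.map c.pt)
    (Finsupp.single 0 (i + 1) + Finsupp.single 1 (j + 1))
  have h2 : coeff (Finsupp.single 0 (i + 1) + Finsupp.single 1 (j + 1)) (Laz.univ.map c.pt).ps =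
      c.pt (Laz.a i j) := by
    rw [Law.map_ps, coeff_map, Laz.coeff_univ]
  rw [h2] at h
  have h3 : (Finsupp.single (0 : Fin 2) (i + 1) + Finsupp.single 1 (j + 1)).degree =
      (i + j + 1) + 1 := by
    rw [map_add, Finsupp.degree_single, Finsupp.degree_single]; ring
  rw [h3, pow_succ] at h
  have h4 := congrArg (fun t => ((u⁻¹ : Bˣ) : B) * t) h
  beta_reduce at h4
  rw [← mul_assoc, Units.inv_mul, one_mul] at h4
  rw [h4, zpow_natCast, Units.val_pow_eq_pow_val]
  calc ((u⁻¹ : Bˣ) : B) * ((u : B) ^ (i + j + 1) * (u : B) * c.pt (Laz.a i j)) =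
      (((u⁻¹ : Bˣ) : B) * (u : B)) * ((u : B) ^ (i + j + 1) * c.pt (Laz.a i j)) := by ring
    _ = (u : B) ^ (i + j + 1) * c.pt (Laz.a i j) := by rw [Units.inv_mul, one_mul]

theorem isWt_prod {N : Type} [CommRing N] [LawRing N] {n : ℕ} {ι : Type*} (s : Finset ι)
    (w : ι → ℤ) (x : ι → Cob N n) (h : ∀ i ∈ s, Cob.IsWt (w i) (x i)) :
    Cob.IsWt (∑ i ∈ s, w i) (∏ i ∈ s, x i) := by
  classical
  induction s using Finset.induction_on with
  | empty => simpa using Cob.isWt_one
  | insert a s ha ih =>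
    rw [Finset.prod_insert ha, Finset.sum_insert ha]
    exact (h a (Finset.mem_insert_self a s)).mul (ih fun i hi => h i (Finset.mem_insert_of_mem hi))

theorem isWt_mk_monomial (d : (ℕ × ℕ) →₀ ℕ) (a : ℤ) :
    Cob.IsWt (wtd d : ℤ) (MvPolynomial.C (Laz.mk (MvPolynomial.monomial d a)) : Cob Laz 0) := by
  have h1 : (MvPolynomial.C (Laz.mk (MvPolynomial.monomial d a)) : Cob Laz 0) =
      a • ∏ ij ∈ d.support, (MvPolynomial.C (Laz.a ij.1 ij.2) : Cob Laz 0) ^ d ij := by
    rw [MvPolynomial.monomial_eq, map_mul, Finsupp.prod, map_prod, map_mul, map_prod,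
      zsmul_eq_mul]
    congr 1
    refine Finset.prod_congr rfl fun ij _ => ?_
    rw [map_pow, map_pow]
    rfl
  rw [h1]
  refine Cob.IsWt.zsmul ?_ a
  have h2 := isWt_prod (N := Laz) (n := 0) d.support
    (fun ij => ((d ij : ℕ) : ℤ) * ((ij.1 + ij.2 + 1 : ℕ) : ℤ))
    (fun ij => (MvPolynomial.C (Laz.a ij.1 ij.2) : Cob Laz 0) ^ d ij)
    (fun ij _ => (isWt_a ij.1 ij.2).pow (d ij))
  have h3 : (wtd d : ℤ) = ∑ ij ∈ d.support, ((d ij : ℕ) : ℤ) * ((ij.1 + ij.2 + 1 : ℕ) : ℤ) := by
    rw [wtd, Finsupp.sum]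
    push_cast
    rfl
  rw [h3]
  exact h2

/-- Elements of weight `w` are images of weighted homogeneous polynomials. -/
theorem exists_mk_of_isWt {c : Laz} {w : ℤ} (h : Cob.IsWt w (MvPolynomial.C c : Cob Laz 0)) :
    ∃ P : MvPolynomial (ℕ × ℕ) ℤ, (∀ d ∈ P.support, (wtd d : ℤ) = w) ∧ Laz.mk P = c := by
  classical
  obtain ⟨P, rfl⟩ := Laz.mk_surjective c
  set S := P.support.filter fun d => (wtd d : ℤ) = w with hS
  refine ⟨∑ d ∈ S, MvPolynomial.monomial d (MvPolynomial.coeff d P), ?_, ?_⟩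
  · intro d hd
    obtain ⟨d', hd', hdd'⟩ := Finset.mem_biUnion.1 (MvPolynomial.support_sum hd)
    rw [hS, Finset.mem_filter] at hd'
    have : d ∈ ({d'} : Finset _) := MvPolynomial.support_monomial_subset hdd'
    rw [Finset.mem_singleton] at this
    rw [this]
    exact hd'.2
  · apply MvPolynomial.C_injective (Fin 0 × ℕ) Laz
    have h1 := Cob.proj_of_isWt h w
    rw [if_pos rfl] at h1
    rw [← h1]
    conv_rhs => rw [P.as_sum]
    rw [map_sum, map_sum, map_sum, map_sum]
    have h2 := _root_.map_sum (Cob.projHom Laz 0 w) (fun d => (MvPolynomial.C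
      (Laz.mk (MvPolynomial.monomial d (MvPolynomial.coeff d P))) : Cob Laz 0)) P.support
    rw [Cob.projHom_apply] at h2
    rw [h2, hS, Finset.sum_filter]
    refine Finset.sum_congr rfl fun d _ => ?_
    rw [Cob.projHom_apply, Cob.proj_of_isWt (isWt_mk_monomial d _)]

/-- The classifying map of a homogeneous law over a graded ring is graded. -/
theorem lift_mem_of_isWt {A : Type*} [CommRing A] {gA : ℤ → AddSubgroup A} (hA : IsMulGr gA)
    {F : Law A} (hF : HomPS gA 1 F.ps) {c : Laz} {w : ℤ}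
    (h : Cob.IsWt w (MvPolynomial.C c : Cob Laz 0)) : Laz.lift F c ∈ gA (-w) := by
  obtain ⟨P, hP, rfl⟩ := exists_mk_of_isWt h
  rw [Laz.lift_mk, P.as_sum, map_sum]
  refine sum_mem fun d hd => ?_
  rw [← hP d hd]
  have h1 : ∀ (s : Finset (ℕ × ℕ)), ∏ ij ∈ s, (coeff (Finsupp.single 0 (ij.1 + 1) +
      Finsupp.single 1 (ij.2 + 1)) F.ps) ^ d ij ∈ gA (-(∑ ij ∈ s, (d ij : ℤ) * (ij.1 + ij.2 + 1))) := by
    intro s
    induction s using Finset.induction_on with
    | empty => simpa using hA.one_mem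
    | insert a s ha ih =>
      rw [Finset.prod_insert ha, Finset.sum_insert ha, neg_add]
      refine hA.mul_mem _ _ _ _ ?_ ih
      have h2 : coeff (Finsupp.single 0 (a.1 + 1) + Finsupp.single 1 (a.2 + 1)) F.ps ∈
          gA (-((a.1 : ℤ) + a.2 + 1)) := by
        have := hF (Finsupp.single 0 (a.1 + 1) + Finsupp.single 1 (a.2 + 1))
        rw [map_add, Finsupp.degree_single, Finsupp.degree_single] at this
        convert this using 2
        push_cast; ring
      have h3 : ∀ e : ℕ, (coeff (Finsupp.single 0 (a.1 + 1) + Finsupp.single 1 (a.2 + 1)) F.ps) ^ e ∈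
          gA (-((e : ℤ) * (a.1 + a.2 + 1))) := by
        intro e
        induction e with
        | zero => simpa using hA.one_mem
        | succ e ihe =>
          rw [pow_succ]
          have := hA.mul_mem _ _ _ _ ihe h2
          convert this using 2
          push_cast; ring
      exact h3 _
  have h4 : Laz.liftPoly F (MvPolynomial.monomial d (MvPolynomial.coeff d P)) =
      MvPolynomial.coeff d P • ∏ ij ∈ d.support, (coeff (Finsupp.single 0 (ij.1 + 1) +
      Finsupp.single 1 (ij.2 + 1)) F.ps) ^ d ij := by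
    rw [Laz.liftPoly, MvPolynomial.coe_eval₂Hom, MvPolynomial.eval₂_monomial, Finsupp.prod,
      zsmul_eq_mul]
    rfl
  rw [h4]
  refine zsmul_mem ?_ _
  have h5 := h1 d.support
  have h6 : (wtd d : ℤ) = ∑ ij ∈ d.support, (d ij : ℤ) * (ij.1 + ij.2 + 1) := by
    rw [wtd, Finsupp.sum]; push_cast; rfl
  rw [h6]
  exact h5

/-- the elements of degree `k` (weight `-k`) of the Lazard ring -/
noncomputable def lazDeg (k : ℤ) : AddSubgroup Laz :=
  (Cob.wt Laz 0 (-k)).comap (MvPolynomial.C : Laz →+* Cob Laz 0).toAddMonoidHom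

theorem mem_lazDeg {k : ℤ} {c : Laz} :
    c ∈ lazDeg k ↔ Cob.IsWt (-k) (MvPolynomial.C c : Cob Laz 0) := Iff.rfl

theorem isMulGr_lazDeg : IsMulGr lazDeg where
  one_mem := by
    rw [mem_lazDeg, map_one, neg_zero]
    exact Cob.isWt_one
  mul_mem i j c c' hc hc' := by
    rw [mem_lazDeg] at *
    rw [map_mul, neg_add]
    exact hc.mul hc'

theorem lazDeg_total (c : Laz) : c ∈ ⨆ i, lazDeg i := by
  obtain ⟨P, rfl⟩ := Laz.mk_surjective c
  rw [P.as_sum, map_sum]
  refine sum_mem fun d _ => ?_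
  have h : Laz.mk (MvPolynomial.monomial d (MvPolynomial.coeff d P)) ∈ lazDeg (-(wtd d : ℤ)) := by
    rw [mem_lazDeg, neg_neg]
    exact isWt_mk_monomial d _
  exact (le_iSup lazDeg (-(wtd d : ℤ))) h

theorem homPS_univ : HomPS lazDeg 1 Laz.univ.ps := by
  intro d
  rw [mem_lazDeg, Laz.univ_ps, coeff_map, coeff_apply, genPS]
  have hdeg : d.degree = d 0 + d 1 := by
    rw [Finsupp.degree_eq_sum, Fin.sum_univ_two]
  rw [hdeg]
  have hz : (MvPolynomial.C (Laz.mk 0) : Cob Laz 0) = 0 := by simp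
  have ho : (MvPolynomial.C (Laz.mk 1) : Cob Laz 0) = 1 := by simp
  split_ifs with h0 h1 h1 h2
  · rw [h0, h1, ho]
    simpa using Cob.isWt_one
  · rw [hz]; exact Cob.isWt_zero _
  · rw [h1, h2, ho]
    simpa using Cob.isWt_one
  · rw [hz]; exact Cob.isWt_zero _
  · have := isWt_a (d 0 - 1) (d 1 - 1)
    have e : -(1 - ((d 0 + d 1 : ℕ) : ℤ)) = ((d 0 - 1 + (d 1 - 1) + 1 : ℕ) : ℤ) := by omega
    rw [e]
    exact this

end Vale.Agent.P251.Q
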