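import Vale.Agent.P251.G.Gr
import Vale.Agent.P251.G.FC
import Mathlib.Algebra.DirectSum.Decomposition
import Mathlib.Analysis.Complex.Basic
import Mathlib.Analysis.Normed.Module.FiniteDimension

/-!
# P251, part Q: multiplicative theories on `LC`, orientations, Thom theories (FROZEN)

* `MultTheory` : an even multiplicative cohomology theory on `LC`; total (ungraded) groups `U X` with
  homogeneous subgroups `deg X k` (degree `k` is the topological degree `2 k`).  All axioms are only
  required for the objects satisfying `good` (`good = FC` for theories coming from the stable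
  category, `good = True` for theories defined on all of `LC`).
* `Orientation` : Thom classes of the tautological bundles `Th n I`.
* `ThomTheory` : a theory with an orientation which is represented by the spaces `Th n I` and
  connective.
-/

open CategoryTheory MonoidalCategory OnePoint Matrix
open Vale.Agent.P251.G Vale.Agent.P251.G.LC

universe v

namespace Vale.Agent.P251.Q

/-- An even multiplicative cohomology theory on `LC`. -/
structure MultTheory where
  /-- the objects for which the axioms hold -/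
  good : LC → Prop
  good_empty : good (LC.of Empty)
  good_sph : ∀ n, good (Sph n)
  good_tensor' : ∀ {X Y : LC}, good X → good Y → good (X ⊗ Y)
  good_hequiv : ∀ {X Y : LC}, good X → HEquiv X Y → good Y
  good_ext : ∀ {A B : LC} {i : A ⟶ B}, Cofib i → good A → good (cof i) → good B
  good_cof : ∀ {A B : LC} {i : A ⟶ B}, Cofib i → good A → good B → good (cof i)
  /-- the total cohomology group -/
  U : LC → Type v
  [grp : ∀ X, AddCommGroup (U X)]
  /-- the homogeneous elements of degree `k` -/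
  deg : ∀ X : LC, ℤ → AddSubgroup (U X)
  internal' : ∀ X, good X → DirectSum.IsInternal (deg X)
  /-- pull back -/
  map : ∀ {X Y : LC}, (X ⟶ Y) → (U Y →+ U X)
  map_id' : ∀ {X : LC}, good X → ∀ x : U X, map (𝟙 X) x = x
  map_comp' : ∀ {X Y Z : LC}, good X → good Y → good Z → ∀ (f : X ⟶ Y) (g : Y ⟶ Z) (z : U Z),
    map (f ≫ g) z = map f (map g z)
  map_homotopic' : ∀ {X Y : LC}, good X → good Y → ∀ {f g : X ⟶ Y}, Homotopic f g →
    ∀ y, map f y = map g y
  map_deg' : ∀ {X Y : LC}, good X → good Y → ∀ (f : X ⟶ Y) {k : ℤ} {y : U Y}, y ∈ deg Y k →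
    map f y ∈ deg X k
  /-- the cohomology of the empty space vanishes -/
  empty' : ∀ x : U (LC.of Empty), x = 0
  /-- the external product -/
  cross : ∀ {X Y : LC}, U X →+ U Y →+ U (X ⊗ Y)
  cross_deg' : ∀ {X Y : LC}, good X → good Y → ∀ {k l : ℤ} {x : U X} {y : U Y},
    x ∈ deg X k → y ∈ deg Y l → cross x y ∈ deg (X ⊗ Y) (k + l)
  cross_map' : ∀ {X X' Y Y' : LC}, good X → good X' → good Y → good Y' →
    ∀ (f : X ⟶ X') (g : Y ⟶ Y') (x : U X') (y : U Y'),
      cross (map f x) (map g y) = map (f ⊗ₘ g) (cross x y)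
  cross_assoc' : ∀ {X Y Z : LC}, good X → good Y → good Z → ∀ (x : U X) (y : U Y) (z : U Z),
    map (α_ X Y Z).hom (cross x (cross y z)) = cross (cross x y) z
  cross_comm' : ∀ {X Y : LC}, good X → good Y → ∀ (x : U X) (y : U Y),
    map (β_ X Y).hom (cross y x) = cross x y
  /-- the unit class -/
  one : U (𝟙_ LC)
  one_deg : one ∈ deg (𝟙_ LC) 0
  one_cross' : ∀ {X : LC}, good X → ∀ x : U X, cross one x = map (λ_ X).hom x
  /-- the suspension class -/
  sg : U (LC.of ℂ)
  sg_deg : sg ∈ deg (LC.of ℂ) 1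
  sg_bijective' : ∀ {X : LC}, good X → Function.Bijective fun x : U X => cross x sg
  /-- exactness for cofibrations -/
  exact' : ∀ {A B : LC} (i : A ⟶ B), Cofib i → good A → good B → ∀ y : U B, map i y = 0 →
    ∃ o : U (cof i), map (cofMap i) o = y

namespace MultTheory

attribute [instance] MultTheory.grp

variable (E : MultTheory.{v})

/-- The good objects, as a class. -/
class Good (X : LC) : Prop where
  out : E.good X

theorem good_of_FC {X : LC} (h : FC X) : E.good X := by
  induction h with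
  | empty => exact E.good_empty
  | sph n => exact E.good_sph n
  | hequiv _ h ih => exact E.good_hequiv ih h
  | ext hi _ _ ihA ihC => exact E.good_ext hi ihA ihC

theorem Good.of_FC {X : LC} (h : FC X) : E.Good X := ⟨E.good_of_FC h⟩

theorem Good.of_hEquiv {X Y : LC} [hX : E.Good X] (h : HEquiv X Y) : E.Good Y :=
  ⟨E.good_hequiv hX.out h⟩

theorem Good.of_iso {X Y : LC} [hX : E.Good X] (e : X ≅ Y) : E.Good Y :=
  Good.of_hEquiv E ⟨e.hom, e.inv, Homotopic.of_eq e.hom_inv_id, Homotopic.of_eq e.inv_hom_id⟩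

theorem Good.of_homeo {X Y : LC} [hX : E.Good X] (e : X ≃ₜ Y) : E.Good Y :=
  Good.of_iso E (ofHomeo e)

theorem Good.of_contr {X : LC} (h : Contr X) : E.Good X := Good.of_FC E (FC.of_contr h)

theorem Good.cof {X Y : LC} [hX : E.Good X] [hY : E.Good Y] {i : X ⟶ Y} (hi : Cofib i) :
    E.Good (cof i) := ⟨E.good_cof hi hX.out hY.out⟩

theorem Good.ext {X Y : LC} [hX : E.Good X] {i : X ⟶ Y} (hi : Cofib i) [hC : E.Good (LC.cof i)] :
    E.Good Y := ⟨E.good_ext hi hX.out hC.out⟩

instance : E.Good (𝟙_ LC) := Good.of_FC E FC.unit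
instance : E.Good (LC.of Unit) := Good.of_FC E FC.unit
instance : E.Good (LC.of Empty) := ⟨E.good_empty⟩

instance (n : ℕ) : E.Good (Sph n) := ⟨E.good_sph n⟩

/-- the line is a finite cell space -/
theorem _root_.Vale.Agent.P251.Q.fc_RR : FC (LC.of ℝ) :=
  (FC.sph 1).of_homeo (Y := LC.of ℝ) (Homeomorph.funUnique (Fin 1) ℝ)

/-- `ℂ` is a finite cell space -/
theorem _root_.Vale.Agent.P251.Q.fc_CC : FC (LC.of ℂ) :=
  (FC.sph 2).of_homeo (Y := LC.of ℂ)
    ((Homeomorph.finTwoArrow (X := ℝ)).trans Complex.equivRealProdCLM.toHomeomorph.symm)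

instance : E.Good (LC.of ℝ) := Good.of_FC E fc_RR
instance : E.Good (LC.of ℂ) := Good.of_FC E fc_CC

instance {X Y : LC} [hX : E.Good X] [hY : E.Good Y] : E.Good (X ⊗ Y) :=
  ⟨E.good_tensor' hX.out hY.out⟩

instance {X Y : Type} [TopologicalSpace X] [LocallyCompactSpace X] [T2Space X]
    [TopologicalSpace Y] [LocallyCompactSpace Y] [T2Space Y]
    [hX : E.Good (LC.of X)] [hY : E.Good (LC.of Y)] : E.Good (LC.of (X × Y)) :=
  ⟨E.good_tensor' hX.out hY.out⟩

section basic

variable {E}
variable {X Y Z W : LC} [hX : E.Good X] [hY : E.Good Y] [hZ : E.Good Z] [hW : E.Good W]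

theorem internal (X : LC) [hX : E.Good X] : DirectSum.IsInternal (E.deg X) :=
  E.internal' X hX.out

@[simp] theorem map_id (x : E.U X) : E.map (𝟙 X) x = x := E.map_id' hX.out x

theorem map_comp (f : X ⟶ Y) (g : Y ⟶ Z) (z : E.U Z) : E.map (f ≫ g) z = E.map f (E.map g z) :=
  E.map_comp' hX.out hY.out hZ.out f g z

theorem map_homotopic {f g : X ⟶ Y} (h : Homotopic f g) (y : E.U Y) : E.map f y = E.map g y :=
  E.map_homotopic' hX.out hY.out h y

theorem map_deg (f : X ⟶ Y) {k : ℤ} {y : E.U Y} (hy : y ∈ E.deg Y k) : E.map f y ∈ E.deg X k :=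
  E.map_deg' hX.out hY.out f hy

theorem cross_deg {k l : ℤ} {x : E.U X} {y : E.U Y} (hx : x ∈ E.deg X k) (hy : y ∈ E.deg Y l) :
    E.cross x y ∈ E.deg (X ⊗ Y) (k + l) :=
  E.cross_deg' hX.out hY.out hx hy

theorem cross_map (f : X ⟶ Y) (g : Z ⟶ W) (x : E.U Y) (y : E.U W) :
    E.cross (E.map f x) (E.map g y) = E.map (f ⊗ₘ g) (E.cross x y) :=
  E.cross_map' hX.out hY.out hZ.out hW.out f g x y

theorem cross_map_left (f : X ⟶ Y) (x : E.U Y) (z : E.U Z) :
    E.cross (E.map f x) z = E.map (f ▷ Z) (E.cross x z) := by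
  have h := cross_map f (𝟙 Z) x z
  rwa [map_id, MonoidalCategory.tensorHom_id] at h

theorem cross_map_right (f : X ⟶ Y) (z : E.U Z) (x : E.U Y) :
    E.cross z (E.map f x) = E.map (Z ◁ f) (E.cross z x) := by
  have h := cross_map (𝟙 Z) f z x
  rwa [map_id, MonoidalCategory.id_tensorHom] at h

theorem cross_assoc (x : E.U X) (y : E.U Y) (z : E.U Z) :
    E.map (α_ X Y Z).hom (E.cross x (E.cross y z)) = E.cross (E.cross x y) z :=
  E.cross_assoc' hX.out hY.out hZ.out x y z

theorem cross_comm (x : E.U X) (y : E.U Y) :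
    E.map (β_ X Y).hom (E.cross y x) = E.cross x y :=
  E.cross_comm' hX.out hY.out x y

@[simp] theorem map_hom_inv (e : X ≅ Y) (x : E.U X) : E.map e.hom (E.map e.inv x) = x := by
  rw [← map_comp, Iso.hom_inv_id, map_id]

@[simp] theorem map_inv_hom (e : X ≅ Y) (y : E.U Y) : E.map e.inv (E.map e.hom y) = y := by
  rw [← map_comp, Iso.inv_hom_id, map_id]

theorem cross_assoc_inv (x : E.U X) (y : E.U Y) (z : E.U Z) :
    E.map (α_ X Y Z).inv (E.cross (E.cross x y) z) = E.cross x (E.cross y z) := by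
  rw [← cross_assoc, map_inv_hom]

theorem one_cross (x : E.U X) : E.cross E.one x = E.map (λ_ X).hom x := E.one_cross' hX.out x

theorem cross_one (x : E.U X) : E.cross x E.one = E.map (ρ_ X).hom x := by
  rw [← cross_comm, one_cross, ← map_comp]
  congr 2
  exact braiding_leftUnitor X

theorem sg_bijective (X : LC) [hX : E.Good X] :
    Function.Bijective fun x : E.U X => E.cross x E.sg :=
  E.sg_bijective' hX.out

theorem exact {A B : LC} [hA : E.Good A] [hB : E.Good B] (i : A ⟶ B) (hi : Cofib i) (y : E.U B)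
    (h : E.map i y = 0) : ∃ o : E.U (cof i), E.map (cofMap i) o = y :=
  E.exact' i hi hA.out hB.out y h

end basic

end MultTheory

/-! ### Orientations -/

section

variable {n m p : ℕ} {I J : Type} [Fintype I] [Fintype J]

/-- `f : Th n I ⟶ Th n J` is induced by the isometry `u : ℂ^I → ℂ^J`. -/
def IsIsomMap (u : Matrix J I ℂ) (f : LC.of (Th n I) ⟶ LC.of (Th n J)) : Prop :=
  ∀ x : Th n I, ∃ y : Th n J, app f (x : OnePoint (Th n I)) = (y : OnePoint (Th n J)) ∧
    y.P = u * x.P * uᴴ ∧ y.v = u *ᵥ x.v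

/-- `f : Th n I ⊗ Th m J ⟶ Th p (I ⊕ J)` is the direct sum map. -/
def IsSumMap (f : LC.of (Th n I) ⊗ LC.of (Th m J) ⟶ LC.of (Th p (I ⊕ J))) : Prop :=
  ∀ (x : Th n I) (y : Th m J), ∃ z : Th p (I ⊕ J),
    app f (smash (x : OnePoint (Th n I)) (y : OnePoint (Th m J))) = (z : OnePoint (Th p (I ⊕ J))) ∧
    z.P = fromBlocks x.P 0 0 y.P ∧ z.v = Sum.elim x.v y.v

/-- `f : X ⟶ Th n I` is given by the pair of functions `(P, v)`. -/
def IsPairMap {X : LC} (P : X → Matrix I I ℂ) (v : X → I → ℂ) (f : X ⟶ LC.of (Th n I)) : Prop :=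
  ∀ x : X, ∃ y : Th n I, app f (x : OnePoint X) = (y : OnePoint (Th n I)) ∧ y.P = P x ∧ y.v = v x

end

/-- An orientation: Thom classes of the tautological bundles. -/
structure Orientation (E : MultTheory.{v}) where
  good_Th : ∀ (n : ℕ) (I : Type) [Fintype I], E.good (LC.of (Th n I))
  /-- the Thom class -/
  tau : ∀ (n : ℕ) (I : Type) [Fintype I], E.U (LC.of (Th n I))
  tau_deg : ∀ (n : ℕ) (I : Type) [Fintype I], tau n I ∈ E.deg (LC.of (Th n I)) n
  tau_isom : ∀ {n : ℕ} {I J : Type} [Fintype I] [Fintype J] [DecidableEq I] (u : Matrix J I ℂ),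
    uᴴ * u = 1 → ∀ f : LC.of (Th n I) ⟶ LC.of (Th n J), IsIsomMap u f →
      E.map f (tau n J) = tau n I
  tau_sum : ∀ {n m p : ℕ}, n + m = p → ∀ {I J : Type} [Fintype I] [Fintype J]
    (f : LC.of (Th n I) ⊗ LC.of (Th m J) ⟶ LC.of (Th p (I ⊕ J))), IsSumMap f →
      E.map f (tau p (I ⊕ J)) = E.cross (tau n I) (tau m J)
  tau_zero : ∀ {I : Type} [Fintype I] (f : 𝟙_ LC ⟶ LC.of (Th 0 I)),
    IsPairMap (X := LC.of Unit) (fun _ => 0) (fun _ => 0) f → E.map f (tau 0 I) = E.one
  tau_one : ∀ (f : LC.of ℂ ⟶ LC.of (Th 1 Unit)), IsPairMap (fun _ => 1) (fun c _ => c) f →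
    E.map f (tau 1 Unit) = E.sg

/-- The object `ℂ^I`. -/
noncomputable abbrev Cpow (I : Type) [Fintype I] : LC := LC.of (I → ℂ)

/-- The identification `ℂ^I = Th |I| I`, `v ↦ (1, v)`. -/
noncomputable def linMap (I : Type) [Fintype I] [DecidableEq I] : Cpow I ⟶ LC.of (Th (Fintype.card I) I) :=
  Th.hom (X := Cpow I) (fun _ => 1) (fun v => v) continuous_const continuous_id
    (fun _ => IsProj.one) (fun v => one_mulVec v) (by rw [cocompact_vec]; exact Filter.tendsto_comap)

/-- The suspension class of `ℂ^I`. -/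
noncomputable def Orientation.lin {E : MultTheory.{v}} (o : Orientation E) (I : Type) [Fintype I]
    [DecidableEq I] : E.U (Cpow I) :=
  E.map (linMap I) (o.tau (Fintype.card I) I)

/-- A Thom theory: an oriented theory represented by the spaces `Th n I`, and connective. -/
structure ThomTheory extends MultTheory.{v} where
  /-- the orientation -/
  o : Orientation toMultTheory
  /-- every class is represented by a map to a Thom space, after suspension -/
  rep : ∀ {X : LC}, toMultTheory.good X → ∀ {k : ℤ} {x : toMultTheory.U X},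
    x ∈ toMultTheory.deg X k → ∃ (N M : ℕ) (I : Type) (_ : Fintype I), (M : ℤ) = N + k ∧
      ∃ f : X ⊗ Cpow (Fin N) ⟶ LC.of (Th M I),
        toMultTheory.cross x (o.lin (Fin N)) = toMultTheory.map f (o.tau M I)
  /-- `π_{<0} = 0` -/
  deg_unit_pos : ∀ k : ℤ, 0 < k → ∀ x ∈ deg (𝟙_ LC) k, x = 0
  /-- `π_0 = ℤ` -/
  deg_unit_zero : ∀ x ∈ deg (𝟙_ LC) 0, ∃ a : ℤ, x = a • one
  /-- `U^k(S^1) = 0` for `k > 0` -/
  deg_RR_pos : ∀ k : ℤ, 0 < k → ∀ x ∈ deg (LC.of ℝ) k, x = 0

end Vale.Agent.P251.Q
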