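import Vale.Agent.P251.Q.ThomIsom
import Vale.Agent.P251.G.ThMap

/-!
# P251, part Q: the Thom map and the Thom isomorphism

For an oriented theory `(E, o)`, an arbitrary (good) object `Z` of `LC` and a bundle `V` of rank `n`
over `Z`:
* `o.phi V hV : E.U Z →+ E.U V.tot`, the Thom map;
* `phi_natural`, `phi_isom`, `phi_sum`, `phi_triv`, `phi_bijective`.
-/

set_option linter.style.haveILetI false
set_option linter.unusedSectionVars false

open CategoryTheory MonoidalCategory Matrix Topology

universe v

noncomputable section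

namespace Vale.Agent.P251.Q

open Vale.Agent.P251.G Vale.Agent.P251.G.LC Vale.Agent.P251.G.Bun MultTheory

/-! ### Vector spaces -/

section Cpow

variable {I J : Type} [Fintype I] [Fintype J] (E : MultTheory.{v})

/-- change of the index type -/
def cpowIso (e : I ≃ J) : Cpow I ≅ Cpow J :=
  ofHomeo (X := Cpow I) (Y := Cpow J)
    { toFun := fun v => v ∘ e.symm
      invFun := fun v => v ∘ e
      left_inv := fun v => by ext i; simp
      right_inv := fun v => by ext i; simp
      continuous_toFun := continuous_pi fun i => continuous_apply (e.symm i)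
      continuous_invFun := continuous_pi fun i => continuous_apply (e i) }

theorem app_cpowIso_hom_coe (e : I ≃ J) (v : I → ℂ) :
    app (cpowIso e).hom (v : OnePoint (I → ℂ)) = ((v ∘ e.symm : J → ℂ) : OnePoint (J → ℂ)) := rfl

/-- `ℂ^Unit = ℂ` -/
def cpowUnit : Cpow Unit ≅ LC.of ℂ :=
  ofHomeo (X := Cpow Unit) (Y := LC.of ℂ) (Homeomorph.funUnique Unit ℂ)

/-- `ℂ^∅` is a point -/
def cpowEmpty (I : Type) [Fintype I] [IsEmpty I] : 𝟙_ LC ≅ Cpow I :=
  ofHomeo (X := LC.of Unit) (Y := Cpow I)
    { toFun := fun _ => 0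
      invFun := fun _ => ()
      left_inv := fun _ => rfl
      right_inv := fun _ => Subsingleton.elim _ _
      continuous_toFun := continuous_const
      continuous_invFun := continuous_const }

/-- `Fin n ⊕ Unit ≃ Fin (n + 1)` -/
def finSumUnit (n : ℕ) : Fin n ⊕ Unit ≃ Fin (n + 1) :=
  (Equiv.sumCongr (Equiv.refl (Fin n)) (Equiv.ofUnique Unit (Fin 1))).trans finSumFinEquiv

theorem good_Cpow (I : Type) [Fintype I] : E.Good (Cpow I) := by
  have h : ∀ n : ℕ, E.Good (Cpow (Fin n)) := by
    intro n
    induction n with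
    | zero => exact MultTheory.Good.of_iso E (cpowEmpty (Fin 0))
    | succ n ih =>
      have h1 : E.Good (Cpow Unit) := MultTheory.Good.of_iso E cpowUnit.symm
      have h2 : E.Good (Cpow (Fin n ⊕ Unit)) :=
        MultTheory.Good.of_iso E (Th.csum (Fin n) Unit)
      exact MultTheory.Good.of_iso E (cpowIso (finSumUnit n))
  have h1 := h (Fintype.card I)
  exact MultTheory.Good.of_iso E (cpowIso (Fintype.equivFin I).symm)

instance : E.Good (Cpow I) := good_Cpow E I

end Cpow

variable {E : MultTheory.{v}}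

theorem Orientation.goodTh (o : Orientation E) (n : ℕ) (I : Type) [Fintype I] :
    E.Good (LC.of (Th n I)) := ⟨o.good_Th n I⟩

section lin

variable (o : Orientation E) {I J : Type} [Fintype I] [Fintype J] [DecidableEq I] [DecidableEq J]

theorem isIsomMap_map {n : ℕ} (u : Matrix J I ℂ) (hu : uᴴ * u = 1) :
    IsIsomMap (n := n) u (Th.map u hu) := fun _ => ⟨_, rfl, rfl, rfl⟩

theorem isSumMap_sum {n m p : ℕ} (h : n + m = p) :
    IsSumMap (Th.sum (I := I) (J := J) h) := fun _ _ => ⟨_, rfl, rfl, rfl⟩

theorem tau_map (n : ℕ) (u : Matrix J I ℂ) (hu : uᴴ * u = 1) :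
    E.map (Th.map u hu) (o.tau n J) = o.tau n I :=
  o.tau_isom u hu _ (isIsomMap_map u hu)

theorem tau_sum' {n m p : ℕ} (h : n + m = p) :
    E.map (Th.sum h) (o.tau p (I ⊕ J)) = E.cross (o.tau n I) (o.tau m J) :=
  o.tau_sum h _ (isSumMap_sum h)

theorem linMap_eq : linMap I = Th.incl' (rfl : Fintype.card I = Fintype.card I) := rfl

/-- `tau` restricted to `ℂ^I`, cast free -/
theorem map_incl' {n : ℕ} (h : Fintype.card I = n) :
    E.map (Th.incl' h) (o.tau n I) = o.lin I := by
  subst h; rfl

/-- multiplicativity of the suspension classes -/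
theorem lin_sum : E.map (Th.csum I J).hom (o.lin (I ⊕ J)) = E.cross (o.lin I) (o.lin J) := by
  haveI := o.goodTh
  have h1 := Th.incl_sum (I := I) (J := J) (n := Fintype.card I) (m := Fintype.card J)
    (k := Fintype.card (I ⊕ J)) rfl rfl rfl Fintype.card_sum.symm
  rw [Orientation.lin, linMap_eq, ← map_comp, ← h1, map_comp, tau_sum', ← cross_map]
  rfl

theorem lin_map (u : Matrix J I ℂ) (hu : uᴴ * u = 1) (hu' : u * uᴴ = 1)
    (h : Fintype.card I = Fintype.card J) :
    E.map (Th.cmap u hu) (o.lin J) = o.lin I := by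
  haveI := o.goodTh
  rw [← map_incl' o rfl, ← map_comp, ← Th.incl_map h rfl u hu hu', map_comp, tau_map,
    map_incl']

theorem lin_reindex (e : I ≃ J) : E.map (cpowIso e).hom (o.lin J) = o.lin I := by
  have h1 : (cpowIso e).hom = Th.cmap (injMat e) (injMat_isom e.injective) := by
    apply LC.hom_ext
    intro v
    rw [app_cpowIso_hom_coe, Th.app_cmap_coe, injMat_equiv_mulVec]
  rw [h1]
  refine lin_map o _ _ ?_ (Fintype.card_congr e)
  have h2 := injMat_isom (I := J) (J := I) e.symm.injective
  rwa [injMat_equiv_conjTranspose, Equiv.symm_symm, ← injMat_equiv_conjTranspose] at *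

theorem lin_unit : E.map cpowUnit.inv (o.lin Unit) = E.sg := by
  haveI := o.goodTh
  rw [Orientation.lin, ← map_comp]
  refine o.tau_one _ ?_
  intro c
  exact ⟨Th.mk 1 (fun _ => c) IsProj.one (one_mulVec _), rfl, rfl, rfl⟩

theorem lin_empty [IsEmpty I] : E.map (cpowEmpty I).hom (o.lin I) = E.one := by
  haveI := o.goodTh
  have h0 : Fintype.card I = 0 := Fintype.card_eq_zero
  rw [← map_incl' o h0, ← map_comp]
  refine o.tau_zero _ ?_
  intro x
  exact ⟨Th.mk 1 0 (h0 ▸ IsProj.one) (one_mulVec _), rfl, Subsingleton.elim _ _, rfl⟩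

theorem map_iso_bijective {A B : LC} [E.Good A] [E.Good B] (e : A ≅ B) :
    Function.Bijective (E.map e.hom) :=
  ⟨fun a b hab => by rw [← map_inv_hom e a, ← map_inv_hom e b, hab],
    fun y => ⟨E.map e.inv y, map_hom_inv e y⟩⟩

/-- transport of bijectivity of the suspension along an isomorphism -/
theorem cross_bijective_of_iso {A B : LC} [E.Good A] [E.Good B] (X : LC) [E.Good X] (e : A ≅ B)
    (b : E.U B) (h : Function.Bijective fun x : E.U X => E.cross x b) :
    Function.Bijective fun x : E.U X => E.cross x (E.map e.hom b) := by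
  have h1 : (fun x : E.U X => E.cross x (E.map e.hom b)) =
      (E.map (whiskerLeftIso X e).hom) ∘ fun x : E.U X => E.cross x b := by
    funext x
    exact cross_map_right e.hom x b
  rw [h1]
  exact (map_iso_bijective (whiskerLeftIso X e)).comp h

theorem lin_bijective_fin (n : ℕ) : ∀ (X : LC) [E.Good X],
    Function.Bijective fun x : E.U X => E.cross x (o.lin (Fin n)) := by
  induction n with
  | zero =>
    intro X hX
    rw [← lin_reindex o (Equiv.refl (Fin 0)), ]
    have h1 : o.lin (Fin 0) = E.map (cpowEmpty (Fin 0)).inv E.one := by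
      rw [← lin_empty o (I := Fin 0), map_inv_hom]
    rw [h1]
    have h2 := cross_bijective_of_iso (E := E) X (cpowEmpty (Fin 0)).symm E.one ?_
    · have h3 := cross_bijective_of_iso (E := E) X (cpowIso (Equiv.refl (Fin 0))) _ h2
      exact h3
    · have h4 : (fun x : E.U X => E.cross x E.one) = fun x => E.map (ρ_ X).hom x := by
        funext x; exact cross_one x
      rw [h4]
      exact map_iso_bijective (ρ_ X)
  | succ n ih =>
    intro X hX
    rw [← lin_reindex o (finSumUnit n).symm]
    refine cross_bijective_of_iso (E := E) X (cpowIso (finSumUnit n).symm) _ ?_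
    have h1 : o.lin (Fin n ⊕ Unit) =
        E.map (Th.csum (Fin n) Unit).inv (E.cross (o.lin (Fin n)) (o.lin Unit)) := by
      rw [← lin_sum, map_inv_hom]
    rw [h1]
    refine cross_bijective_of_iso (E := E) X (Th.csum (Fin n) Unit).symm _ ?_
    have h2 : (fun x : E.U X => E.cross x (E.cross (o.lin (Fin n)) (o.lin Unit))) =
        (fun y => E.map (α_ X (Cpow (Fin n)) (Cpow Unit)).inv y) ∘
          (fun y => E.cross y (o.lin Unit)) ∘ fun x : E.U X => E.cross x (o.lin (Fin n)) := by
      funext x
      exact (cross_assoc_inv x _ _).symm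
    rw [h2]
    refine Function.Bijective.comp ?_ (Function.Bijective.comp ?_ (ih X))
    · exact map_iso_bijective (α_ X (Cpow (Fin n)) (Cpow Unit)).symm
    · have h3 : o.lin Unit = E.map cpowUnit.hom E.sg := by
        rw [← lin_unit o, map_hom_inv]
      rw [h3]
      exact cross_bijective_of_iso (E := E) _ cpowUnit _ (sg_bijective _)

/-- The suspension isomorphism for `ℂ^I`. -/
theorem lin_bijective (I : Type) [Fintype I] [DecidableEq I] (X : LC) [E.Good X] :
    Function.Bijective fun x : E.U X => E.cross x (o.lin I) := by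
  rw [← lin_reindex o (Fintype.equivFin I)]
  exact cross_bijective_of_iso (E := E) X (cpowIso (Fintype.equivFin I)) _
    (lin_bijective_fin o _ X)

end lin

/-! ### The Thom map -/

section phi

variable (o : Orientation E) {Z Z' : LC} {ι κ : Type} [Fintype ι] [Fintype κ] {n m : ℕ}

/-- The Thom map of a bundle of rank `n` over `Z`. -/
def Orientation.phi (V : Bun Z ι) (hV : V.IsRank n) : E.U Z →+ E.U V.tot :=
  (E.map (thomMor V hV)).comp ((E.cross (X := Z) (Y := ThO n ι)).flip (o.tau n ι))

theorem phi_apply (V : Bun Z ι) (hV : V.IsRank n) (u : E.U Z) :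
    o.phi V hV u = E.map (thomMor V hV) (E.cross u (o.tau n ι)) := rfl

theorem phi_deg [E.Good Z] (V : Bun Z ι) [E.Good V.tot] (hV : V.IsRank n) {k : ℤ} {u : E.U Z}
    (hu : u ∈ E.deg Z k) : o.phi V hV u ∈ E.deg V.tot (k + n) := by
  haveI := o.goodTh
  exact map_deg _ (cross_deg hu (o.tau_deg n ι))

/-- Naturality of the Thom map, for any morphism of `LC` compatible with the bundles. -/
theorem phi_natural [E.Good Z] [E.Good Z'] (f : Z ⟶ Z') {V : Bun Z ι} {V' : Bun Z' ι}
    [E.Good V.tot] [E.Good V'.tot] (h : Over f V V') (hV : V.IsRank n) (hV' : V'.IsRank n)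
    (u : E.U Z') : o.phi V hV (E.map f u) = E.map (totMap f h) (o.phi V' hV' u) := by
  haveI := o.goodTh
  rw [phi_apply, cross_map_left, ← MultTheory.map_comp, ← totMap_thomMor f h hV hV',
    MultTheory.map_comp]
  rfl

/-- Invariance of the Thom map under isometric isomorphisms. -/
theorem phi_isom [E.Good Z] {V : Bun Z ι} {V' : Bun Z κ} [E.Good V.tot] [E.Good V'.tot]
    (φ : V.Isom V') (hV : V.IsRank n) (hV' : V'.IsRank n) (u : E.U Z) :
    o.phi V hV u = E.map φ.iso.hom (o.phi V' hV' u) := by
  classical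
  haveI := o.goodTh
  have ha : (injMat (Sum.inl : ι → ι ⊕ κ))ᴴ * injMat (Sum.inl : ι → ι ⊕ κ) = 1 :=
    injMat_isom Sum.inl_injective
  have hb : (injMat (Sum.inr : κ → ι ⊕ κ))ᴴ * injMat (Sum.inr : κ → ι ⊕ κ) = 1 :=
    injMat_isom Sum.inr_injective
  have hab : (injMat (Sum.inl : ι → ι ⊕ κ))ᴴ * injMat (Sum.inr : κ → ι ⊕ κ) = 0 := by
    ext i j
    rw [Matrix.mul_apply, Matrix.zero_apply]
    refine Finset.sum_eq_zero fun k _ => ?_
    rw [conjTranspose_apply, injMat_apply, injMat_apply]
    rcases k with k | k <;> simp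
  have key := φ.homotopic hV hV' ha hb hab (isIsomMap_map (n := n) _ ha)
    (isIsomMap_map (n := n) _ hb)
  have h1 : o.phi V hV u = E.map (thomMor V hV ≫ Z ◁ Th.map _ ha)
      (E.cross u (o.tau n (ι ⊕ κ))) := by
    rw [phi_apply, MultTheory.map_comp, ← cross_map_right, tau_map]
  have h2 : E.map φ.iso.hom (o.phi V' hV' u) =
      E.map (φ.iso.hom ≫ thomMor V' hV' ≫ Z ◁ Th.map _ hb) (E.cross u (o.tau n (ι ⊕ κ))) := by
    rw [MultTheory.map_comp, MultTheory.map_comp, ← cross_map_right, tau_map, phi_apply]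
  rw [h1, h2]
  exact map_homotopic key _

/-- A vector of a direct sum as a vector of the second summand over a vector of the first. -/
def toSumPull (V : Bun Z ι) (W : Bun Z κ) (p : (V.sum W).E) :
    (W.pullback (⟨base, continuous_base⟩ : C(V.E, Z))).E :=
  mkE _ (V.mkE (base p) (vec p ∘ Sum.inl) (fromBlocks_diag_fixed.mp (P_vec p)).1)
    (vec p ∘ Sum.inr) (fromBlocks_diag_fixed.mp (P_vec p)).2

/-- The total space of a direct sum. -/
def sumIso (V : Bun Z ι) (W : Bun Z κ) :
    (V.sum W).tot ≅ (W.pullback (⟨base, continuous_base⟩ : C(V.E, Z))).tot :=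
  ofHomeo (X := (V.sum W).tot) (Y := (W.pullback (⟨base, continuous_base⟩ : C(V.E, Z))).tot)
    { toFun := toSumPull V W
      invFun := fun q => mkE _ (base (base q)) (Sum.elim (vec (base q)) (vec q)) (by
        rw [sum_P, fromBlocks_diag_mulVec_elim, P_vec]
        exact congrArg _ (P_vec q))
      left_inv := fun p => E_ext rfl (Sum.elim_comp_inl_inr (vec p))
      right_inv := fun q => E_ext (E_ext rfl (Sum.elim_comp_inl (vec (base q)) (vec q)))
        (Sum.elim_comp_inr (vec (base q)) (vec q))
      continuous_toFun := by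
        refine continuous_mkE (continuous_mkE continuous_base ?_ _) ?_ _
        · exact continuous_pi fun i => (continuous_apply (Sum.inl i)).comp continuous_vec
        · exact continuous_pi fun i => (continuous_apply (Sum.inr i)).comp continuous_vec
      continuous_invFun := by
        have h1 : Continuous fun q : (W.pullback (⟨base, continuous_base⟩ : C(V.E, Z))).E =>
            vec (base q) := continuous_vec.comp continuous_base
        have h2 : Continuous fun q : (W.pullback (⟨base, continuous_base⟩ : C(V.E, Z))).E =>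
            base (base q) := continuous_base.comp continuous_base
        exact continuous_mkE h2 (continuous_sumElim h1 continuous_vec) _ }

theorem app_sumIso_hom_coe (V : Bun Z ι) (W : Bun Z κ) (p : (V.sum W).E) :
    app (sumIso V W).hom (p : OnePoint (V.sum W).E) = (toSumPull V W p : OnePoint _) := rfl

theorem isRank_pullback_base {V : Bun Z ι} {W : Bun Z κ} (hW : W.IsRank m) :
    (W.pullback (⟨base, continuous_base⟩ : C(V.E, Z))).IsRank m := fun p => hW (base p)

theorem isRank_sum {V : Bun Z ι} {W : Bun Z κ} (hV : V.IsRank n) (hW : W.IsRank m) {p : ℕ}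
    (h : n + m = p) : (V.sum W).IsRank p := by
  intro z
  subst h
  exact (IsProj.fromBlocks (V.isProj hV z) (W.isProj hW z)).trace

theorem thomMor_sum (V : Bun Z ι) (W : Bun Z κ) (hV : V.IsRank n) (hW : W.IsRank m) {p : ℕ}
    (h : n + m = p) :
    thomMor (V.sum W) (isRank_sum hV hW h) =
      (sumIso V W).hom ≫ thomMor (Z := V.tot) _ (isRank_pullback_base hW) ≫
        (thomMor V hV ▷ ThO m κ) ≫ (α_ Z (ThO n ι) (ThO m κ)).hom ≫ (Z ◁ Th.sum h) := by
  apply LC.hom_ext
  intro q
  have h1 : (V.sum W).toTh (isRank_sum hV hW h) q =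
      Th.sumFun h (V.toTh hV (base (toSumPull V W q)))
      (Bun.toTh (Z := V.tot) (W.pullback (⟨base, continuous_base⟩ : C(V.E, Z)))
        (isRank_pullback_base hW) (toSumPull V W q)) := by
    apply Th.ext
    · rfl
    · exact (Sum.elim_comp_inl_inr (vec q)).symm
  exact congrArg (fun a : Th p (ι ⊕ κ) =>
    ((((base q : Z), a) : Z × Th p (ι ⊕ κ)) : OnePoint (Z × Th p (ι ⊕ κ)))) h1

/-- The Thom map of a direct sum. -/
theorem phi_sum [E.Good Z] (V : Bun Z ι) (W : Bun Z κ) [E.Good V.tot]
    [E.Good (V.sum W).tot] (hV : V.IsRank n) (hW : W.IsRank m) {p : ℕ}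
    (h : n + m = p) (u : E.U Z) :
    o.phi (V.sum W) (isRank_sum hV hW h) u =
      E.map (sumIso V W).hom (o.phi (Z := V.tot) _ (isRank_pullback_base hW) (o.phi V hV u)) := by
  classical
  haveI := o.goodTh
  haveI : E.Good (W.pullback (⟨base, continuous_base⟩ : C(V.E, Z))).tot :=
    MultTheory.Good.of_iso E (sumIso V W)
  rw [phi_apply, thomMor_sum V W hV hW h, MultTheory.map_comp, MultTheory.map_comp,
    MultTheory.map_comp, MultTheory.map_comp, ← cross_map_right, tau_sum', cross_assoc,
    ← cross_map_left]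
  rfl

/-- The total space of a trivial bundle. -/
def trivIso (Z : LC) (ι : Type) [Fintype ι] [DecidableEq ι] : (triv Z ι).tot ≅ Z ⊗ Cpow ι :=
  ofHomeo (X := (triv Z ι).tot) (Y := LC.of (Z × (ι → ℂ))) (trivHomeo Z ι)

theorem isRank_triv (Z : LC) (ι : Type) [Fintype ι] [DecidableEq ι] :
    (triv Z ι).IsRank (Fintype.card ι) := by
  intro z
  simp

/-- The Thom map of a trivial bundle is the suspension isomorphism. -/
theorem phi_triv [E.Good Z] [DecidableEq ι] [E.Good (triv Z ι).tot] (u : E.U Z) :
    o.phi (triv Z ι) (isRank_triv Z ι) u = E.map (trivIso Z ι).hom (E.cross u (o.lin ι)) := by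
  haveI := o.goodTh
  rw [phi_apply, Orientation.lin, cross_map_right, ← MultTheory.map_comp]
  have h1 : thomMor (triv Z ι) (isRank_triv Z ι) = (trivIso Z ι).hom ≫ Z ◁ linMap ι := by
    apply LC.hom_ext
    intro p
    rfl
  rw [h1]

theorem phi_triv_bijective [E.Good Z] [DecidableEq ι] [E.Good (triv Z ι).tot] :
    Function.Bijective (o.phi (triv Z ι) (isRank_triv Z ι)) := by
  have h1 : ⇑(o.phi (triv Z ι) (isRank_triv Z ι)) =
      E.map (trivIso Z ι).hom ∘ fun u => E.cross u (o.lin ι) := funext fun u => phi_triv o u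
  rw [h1]
  exact (map_iso_bijective _).comp (lin_bijective o ι Z)

theorem _root_.Vale.Agent.P251.G.IsProj.le_card {P : Matrix ι ι ℂ} (h : IsProj n P) :
    n ≤ Fintype.card ι := by
  have h1 : (n : ℝ) = ∑ i, nsq (P i) := by
    have h2 : ((n : ℝ) : ℂ) = ((∑ i, nsq (P i) : ℝ) : ℂ) := by
      rw [Complex.ofReal_natCast, ← h.trace, Complex.ofReal_sum]
      exact Finset.sum_congr rfl fun i _ => h.diag_eq i
    exact_mod_cast h2
  have h3 : (n : ℝ) ≤ Fintype.card ι := by
    rw [h1]
    refine (Finset.sum_le_sum fun i _ => h.nsq_row_le i).trans ?_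
    simp
  exact_mod_cast h3

theorem isRank_compl [DecidableEq ι] {V : Bun Z ι} (hV : V.IsRank n)
    (h : n + m = Fintype.card ι) : V.compl.IsRank m := by
  intro z
  rw [compl_P, trace_sub, trace_one, hV z, ← h]
  push_cast
  ring

theorem subsingleton_of_isEmpty (Z : LC) [E.Good Z] [IsEmpty Z] : Subsingleton (E.U Z) := by
  have e : Z ≅ LC.of Empty := ofHomeo (X := Z) (Y := LC.of Empty)
    { toFun := fun z => isEmptyElim z
      invFun := fun z => isEmptyElim z
      left_inv := fun z => isEmptyElim z
      right_inv := fun z => isEmptyElim z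
      continuous_toFun := continuous_of_const fun z => isEmptyElim z
      continuous_invFun := continuous_of_const fun z => isEmptyElim z }
  refine ⟨fun a b => ?_⟩
  rw [← map_hom_inv e a, ← map_hom_inv e b, E.empty' (E.map e.inv a), E.empty' (E.map e.inv b)]

/-- The composite of the Thom maps of `V` and of its complement is bijective. -/
theorem phi_compl_bijective [DecidableEq ι] (Z : LC) [E.Good Z] (V : Bun Z ι) [E.Good V.tot]
    (hV : V.IsRank n) (h : n + m = Fintype.card ι) :
    Function.Bijective fun u => o.phi (Z := V.tot)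
      (V.compl.pullback (⟨base, continuous_base⟩ : C(V.E, Z)))
      (isRank_pullback_base (isRank_compl hV h)) (o.phi V hV u) := by
  haveI h1 : E.Good (triv Z ι).tot := MultTheory.Good.of_iso E (trivIso Z ι).symm
  haveI h2 : E.Good (V.sum V.compl).tot :=
    MultTheory.Good.of_iso E (Bun.Isom.sumCompl V).iso.symm
  haveI h3 : E.Good (V.compl.pullback (⟨base, continuous_base⟩ : C(V.E, Z))).tot :=
    MultTheory.Good.of_iso E (sumIso V V.compl)
  have h4 : (fun u => o.phi (Z := V.tot)
      (V.compl.pullback (⟨base, continuous_base⟩ : C(V.E, Z)))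
      (isRank_pullback_base (isRank_compl hV h)) (o.phi V hV u)) =
      E.map (sumIso V V.compl).inv ∘ E.map (Bun.Isom.sumCompl V).iso.hom ∘
        o.phi (triv Z ι) (isRank_triv Z ι) := by
    funext u
    have h5 := phi_sum o V V.compl hV (isRank_compl hV h) h u
    have h6 := phi_isom o (Bun.Isom.sumCompl V) (isRank_sum hV (isRank_compl hV h) h)
      (isRank_triv Z ι) u
    rw [h6] at h5
    rw [Function.comp_apply, Function.comp_apply, h5]
    exact (map_inv_hom _ _).symm
  rw [h4]
  exact (map_iso_bijective (sumIso V V.compl).symm).comp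
    ((map_iso_bijective _).comp (phi_triv_bijective o))

/-- The Thom isomorphism. -/
theorem phi_bijective [E.Good Z] (V : Bun Z ι) [E.Good V.tot] (hV : V.IsRank n) :
    Function.Bijective (o.phi V hV) := by
  classical
  by_cases hZ : IsEmpty Z
  · haveI : IsEmpty V.tot := ⟨fun p => hZ.elim (base p)⟩
    haveI := subsingleton_of_isEmpty (E := E) Z
    haveI := subsingleton_of_isEmpty (E := E) V.tot
    exact ⟨fun a b _ => Subsingleton.elim a b, fun b => ⟨0, Subsingleton.elim _ _⟩⟩
  · rw [not_isEmpty_iff] at hZ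
    obtain ⟨z⟩ := hZ
    obtain ⟨m, hm⟩ := Nat.exists_eq_add_of_le (V.isProj hV z).le_card
    have hm' : n + m = Fintype.card ι := hm.symm
    have c1 := phi_compl_bijective o Z V hV hm'
    haveI h2 : E.Good (V.sum V.compl).tot :=
      haveI h1 : E.Good (triv Z ι).tot := MultTheory.Good.of_iso E (trivIso Z ι).symm
      MultTheory.Good.of_iso E (Bun.Isom.sumCompl V).iso.symm
    haveI h3 : E.Good (V.compl.pullback (⟨base, continuous_base⟩ : C(V.E, Z))).tot :=
      MultTheory.Good.of_iso E (sumIso V V.compl)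
    have c2 := phi_compl_bijective o V.tot
      (V.compl.pullback (⟨base, continuous_base⟩ : C(V.E, Z)))
      (isRank_pullback_base (isRank_compl hV hm')) (show m + n = _ by rw [add_comm]; exact hm')
    have hb : Function.Bijective (o.phi (Z := V.tot)
      (V.compl.pullback (⟨base, continuous_base⟩ : C(V.E, Z)))
      (isRank_pullback_base (isRank_compl hV hm'))) := by
      refine ⟨fun a b hab => c2.1 (congrArg _ hab), fun y => ?_⟩
      obtain ⟨u, hu⟩ := c1.2 y
      exact ⟨_, hu⟩
    exact (Function.Bijective.of_comp_iff' hb _).mp c1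

end phi

end Vale.Agent.P251.Q
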