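import Vale.Agent.P251.Q.LineCls
import Vale.Agent.P251.Q.HomSeries
import Vale.Agent.P251.F.Laz
import Vale.Agent.P251.G.TPow

/-!
# P251, part Q: the formal group law of an oriented theory

* `o.law : Law E.A`, with coefficients `o.lawCoeff i j ∈ E.degA (1 - i - j)`;
* `lc_tens : o.lc (tens f g) = nev ![o.lc f, o.lc g] o.law.ps`;
* `lc_tpow : o.lc (lineTpow m f) = nev1 (o.lc f) (multSeries o.law.toFG m)`.
-/

open CategoryTheory MonoidalCategory OnePoint Matrix Topology
open Vale.Agent.P251.G Vale.Agent.P251.G.LC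

universe v

set_option linter.unusedSectionVars false

noncomputable section

namespace Vale.Agent.P251.Q

open MultTheory Vale.Agent.P217 Vale.Agent.P251.F

/-! ### One variable -/

section one

variable {A S S' : Type*} [CommRing A] [CommRing S] [Algebra A S] [CommRing S'] [Algebra A S']

/-- the value of a power series in one variable at a nilpotent element -/
def nev1 (x : S) (f : PowerSeries A) : S := nev (fun _ : Unit => x) f

theorem nev1_X {x : S} (hx : IsNilpotent x) : nev1 x (PowerSeries.X : PowerSeries A) = x :=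
  nev_X (A := A) (fun _ => hx) ()

theorem nev1_zero {x : S} (hx : IsNilpotent x) : nev1 x (0 : PowerSeries A) = 0 :=
  nev_zero (fun _ => hx)

theorem nev1_one {x : S} (hx : IsNilpotent x) : nev1 x (1 : PowerSeries A) = 1 :=
  nev_one (fun _ => hx)

theorem nev1_add {x : S} (hx : IsNilpotent x) (f g : PowerSeries A) :
    nev1 x (f + g) = nev1 x f + nev1 x g := nev_add (fun _ => hx) f g

theorem nev1_mul {x : S} (hx : IsNilpotent x) (f g : PowerSeries A) :
    nev1 x (f * g) = nev1 x f * nev1 x g := nev_mul (fun _ => hx) f g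

theorem nev1_pow {x : S} (hx : IsNilpotent x) (f : PowerSeries A) (n : ℕ) :
    nev1 x (f ^ n) = nev1 x f ^ n := nev_pow (fun _ => hx) f n

theorem nev1_C {x : S} (hx : IsNilpotent x) (a : A) :
    nev1 x (PowerSeries.C a) = algebraMap A S a := nev_C (fun _ => hx) a

theorem map_nev1 (φ : S →ₐ[A] S') {x : S} (hx : IsNilpotent x) (f : PowerSeries A) :
    φ (nev1 x f) = nev1 (φ x) f := map_nev φ (fun _ => hx) f

theorem isNilpotent_nev1 {x : S} (hx : IsNilpotent x) {f : PowerSeries A}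
    (hf : PowerSeries.constantCoeff f = 0) : IsNilpotent (nev1 x f) :=
  isNilpotent_nev (fun _ => hx) hf

theorem nev1_subst₂ {x : S} (hx : IsNilpotent x) {f g : PowerSeries A}
    (hf : PowerSeries.constantCoeff f = 0) (hg : PowerSeries.constantCoeff g = 0)
    (F : MvPowerSeries (Fin 2) A) :
    nev1 x (MvPowerSeries.subst ![f, g] F) = nev ![nev1 x f, nev1 x g] F := by
  have hs : MvPowerSeries.HasSubst ![f, g] := by
    refine MvPowerSeries.hasSubst_of_constantCoeff_zero fun i => ?_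
    fin_cases i
    · exact hf
    · exact hg
  unfold nev1
  rw [nev_subst (fun _ => hx) hs]
  congr 1
  funext s
  fin_cases s <;> rfl

/-- the value as a finite sum -/
theorem nev1_eq_sum {x : S} {n : ℕ} (hx : x ^ n = 0) (f : PowerSeries A) :
    nev1 x f = ∑ i ∈ Finset.range n, PowerSeries.coeff i f • x ^ i := by
  unfold nev1
  rw [nev_eq_sum (fun _ => hx)]
  refine Finset.sum_bij' (fun g _ => g ()) (fun i _ => fun _ => i) ?_ ?_ ?_ ?_ ?_
  · intro g hg
    rw [Fintype.mem_piFinset] at hg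
    exact hg ()
  · intro i hi
    rw [Fintype.mem_piFinset]
    exact fun _ => hi
  · intro g _
    funext s
    rfl
  · intro i _
    rfl
  · intro g _
    rw [Fintype.prod_unique]
    congr 1
    rw [PowerSeries.coeff]
    congr 2
    ext
    simp

/-- the value of `[m + 1]` -/
theorem nev1_multSeries_succ (F : FormalGroup A) {x : S} (hx : IsNilpotent x) (m : ℕ) :
    nev1 x (multSeries F (m + 1)) = nev ![nev1 x (multSeries F m), x] F.toPowerSeries := by
  rw [multSeries_succ, nev1_subst₂ hx (constantCoeff_multSeries F m)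
    PowerSeries.constantCoeff_X, nev1_X hx]

theorem nev1_multSeries_zero (F : FormalGroup A) {x : S} (hx : IsNilpotent x) :
    nev1 x (multSeries F 0) = 0 := nev1_zero hx

end one

/-! ### The law -/

section theory

variable {E : MultTheory.{v}} (o : Orientation E)
variable {X Y : LC} [E.Good X] [E.Good Y] [CompactSpace X] [CompactSpace Y]
variable {I J K : Type} [Fintype I] [Fintype J] [Fintype K]

theorem lc_tens_nev (f : C(X, CP I)) (g : C(X, CP J)) :
    o.lc (tens f g) = nev ![o.lc f, o.lc g] (ser o.lawCoeff) := by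
  rw [lc_tens_val₂ o f g (le_max_left (Fintype.card I) (Fintype.card J)) (le_max_right _ _),
    nev_eq_val₂ (lc_pow_eq_zero o f (le_max_left _ _)) (lc_pow_eq_zero o g (le_max_right _ _))]

/-- a constant line bundle -/
def trivL (X : LC) : C(X, CP Unit) :=
  ⟨fun _ => (⟨1, IsProj.one⟩ : Gr 1 Unit), continuous_const⟩

theorem lawCoeff_zero_right (i : ℕ) : o.lawCoeff i 0 = if i = 1 then 1 else 0 := by
  have := good_gr_one o (Fin (i + 2))
  have h1 := lc_tens_val₂ o (ContinuousMap.id (CP (Fin (i + 2)))) (trivL (CP (Fin (i + 2))))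
    (n := i + 2) (by simp) (by simp)
  rw [lc_tens_unit, lc_unit, lc_id, val₂] at h1
  have h2 : ∀ k ∈ Finset.range (i + 2), ∑ l ∈ Finset.range (i + 2),
      o.lawCoeff k l • (o.z (Fin (i + 2)) ^ k * 0 ^ l) =
        o.lawCoeff k 0 • o.z (Fin (i + 2)) ^ k := by
    intro k _
    rw [Finset.sum_eq_single 0]
    · rw [pow_zero, mul_one]
    · intro l _ hl
      rw [zero_pow hl, mul_zero, smul_zero]
    · intro h
      exact absurd (Finset.mem_range.mpr (by omega)) h
  rw [Finset.sum_congr rfl h2, Finset.sum_range] at h1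
  have h3 : o.z (Fin (i + 2)) = ∑ k : Fin (i + 2), (if (k : ℕ) = 1 then (1 : E.A) else 0) •
      o.z (Fin (i + 2)) ^ (k : ℕ) := by
    rw [Finset.sum_eq_single (⟨1, by omega⟩ : Fin (i + 2))]
    · rw [if_pos rfl, one_smul, pow_one]
    · intro k _ hk
      rw [if_neg fun h => hk (Fin.ext h), zero_smul]
    · intro h
      exact absurd (Finset.mem_univ _) h
  have h4 := (freeOn_z o (i + 2) (Fin (i + 2)) (Fintype.card_fin _)).bijective_smul.1
    (a₁ := fun k => o.lawCoeff k 0) (a₂ := fun k => if (k : ℕ) = 1 then (1 : E.A) else 0)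
    (h1.symm.trans h3)
  exact congrFun h4 ⟨i, by omega⟩

theorem linearIndependent_lc (n : ℕ) (S : Type) [Fintype S] [DecidableEq S]
    [E.Good (CP (Fin n))] : LinearIndependent E.A fun g : S → Fin n =>
      ∏ s, o.lc (evL n s) ^ (g s : ℕ) := (freeOn_lc o n S).linearIndependent

theorem lc_evL_pow (n : ℕ) {S : Type} [Fintype S] [E.Good (CP (Fin n))] (s : S) :
    o.lc (evL n s) ^ n = 0 := lc_pow_eq_zero o _ (by simp)

theorem ser_comm : ser o.lawCoeff = (ser o.lawCoeff).subst
    ![(MvPowerSeries.X 1 : MvPowerSeries (Fin 2) E.A), MvPowerSeries.X 0] := by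
  ext d
  set n := d 0 + d 1 + 1 with hn
  have := good_gr_one o (Fin n)
  have ha : ∀ s : Fin 2, IsNilpotent (o.lc (evL n s)) := fun s => ⟨n, lc_evL_pow o n s⟩
  refine coeff_eq_of_nev_eq (a := fun s : Fin 2 => o.lc (evL n s)) (n := n)
    (fun s => lc_evL_pow o n s) (linearIndependent_lc o n (Fin 2)) ?_ ?_
  · have h1 := lc_tens_comm o (evL n (0 : Fin 2)) (evL n (1 : Fin 2))
    rw [lc_tens_nev, lc_tens_nev] at h1
    rw [nev_subst ha MvPowerSeries.HasSubst.X_X]
    have e1 : (fun s : Fin 2 => o.lc (evL n s)) = ![o.lc (evL n 0), o.lc (evL n 1)] := by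
      funext s; fin_cases s <;> rfl
    have e2 : (fun s : Fin 2 => nev (fun s : Fin 2 => o.lc (evL n s))
        (![(MvPowerSeries.X 1 : MvPowerSeries (Fin 2) E.A), MvPowerSeries.X 0] s)) =
        ![o.lc (evL n 1), o.lc (evL n 0)] := by
      funext s
      fin_cases s
      · exact nev_X ha 1
      · exact nev_X ha 0
    rw [e2, e1]
    exact h1
  · intro s
    fin_cases s
    · simp only [Fin.zero_eta]; omega
    · simp only [Fin.mk_one]; omega

theorem val₂_eq_sum {S : Type*} [CommRing S] [Algebra E.A S] (n : ℕ) (f : ℕ → ℕ → E.A)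
    (x : Fin 2 → S) : val₂ n f (x 0) (x 1) =
      ∑ g : Fin 2 → Fin n, f (g 0) (g 1) • ∏ s, x s ^ (g s : ℕ) := by
  rw [val₂, ← sum_fin_two n fun k l => f k l • (x 0 ^ k * x 1 ^ l)]
  exact Finset.sum_congr rfl fun g _ => by rw [Fin.prod_univ_two]

theorem lawCoeff_comm (i j : ℕ) : o.lawCoeff i j = o.lawCoeff j i := by
  have := good_gr_one o (Fin (i + j + 1))
  have h1 := lc_tens_comm o (evL (i + j + 1) (0 : Fin 2)) (evL (i + j + 1) (1 : Fin 2))
  rw [lc_tens_val₂ o _ _ (n := i + j + 1) (by simp) (by simp),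
    lc_tens_val₂ o _ _ (n := i + j + 1) (by simp) (by simp)] at h1
  have h2 : val₂ (i + j + 1) o.lawCoeff (o.lc (evL (i + j + 1) (1 : Fin 2)))
      (o.lc (evL (i + j + 1) (0 : Fin 2))) = val₂ (i + j + 1) (fun k l => o.lawCoeff l k)
      (o.lc (evL (i + j + 1) (0 : Fin 2))) (o.lc (evL (i + j + 1) (1 : Fin 2))) := by
    rw [val₂, val₂, Finset.sum_comm]
    exact Finset.sum_congr rfl fun k _ => Finset.sum_congr rfl fun l _ => by rw [mul_comm]
  rw [h2, val₂_eq_sum (i + j + 1) _ fun s : Fin 2 => o.lc (evL (i + j + 1) s),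
    val₂_eq_sum (i + j + 1) _ fun s : Fin 2 => o.lc (evL (i + j + 1) s)] at h1
  have h3 := (freeOn_lc o (i + j + 1) (Fin 2)).bijective_smul.1
    (a₁ := fun g => o.lawCoeff (g 0) (g 1)) (a₂ := fun g => o.lawCoeff (g 1) (g 0)) h1
  exact congrFun h3 ![⟨i, by omega⟩, ⟨j, by omega⟩]

theorem law_assoc_aux : (ser o.lawCoeff).subst ![(ser o.lawCoeff).subst
      ![(MvPowerSeries.X 0 : MvPowerSeries (Fin 3) E.A), MvPowerSeries.X 1], MvPowerSeries.X 2] =
    (ser o.lawCoeff).subst ![(MvPowerSeries.X 0 : MvPowerSeries (Fin 3) E.A),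
      (ser o.lawCoeff).subst ![MvPowerSeries.X 1, MvPowerSeries.X 2]] := by
  refine fg_assoc_of ((lawCoeff_zero_right o 0).trans (if_neg (by omega))) fun n => ?_
  have := good_gr_one o (Fin n)
  refine ⟨E.U (powObj (CP (Fin n)) (Fin 3)), inferInstance, inferInstance,
    fun s => o.lc (evL n s), fun s => lc_evL_pow o n s, linearIndependent_lc o n (Fin 3), ?_⟩
  have h1 := lc_tens_assoc o (evL n (0 : Fin 3)) (evL n (1 : Fin 3)) (evL n (2 : Fin 3))
  rw [lc_tens_nev, lc_tens_nev, lc_tens_nev, lc_tens_nev] at h1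
  exact h1

theorem coeff_ser_single (f : ℕ → ℕ → E.A) :
    MvPowerSeries.coeff (Finsupp.single (0 : Fin 2) 1) (ser f) = f 1 0 ∧
      MvPowerSeries.coeff (Finsupp.single (1 : Fin 2) 1) (ser f) = f 0 1 := by
  constructor
  · rw [coeff_ser]; simp
  · rw [coeff_ser]; simp

/-- The formal group law of an oriented theory. -/
def Orientation.law : Law E.A where
  toFG :=
    { toPowerSeries := ser o.lawCoeff
      zero_constantCoeff := (lawCoeff_zero_right o 0).trans (if_neg (by omega))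
      lin_coeff_X := by
        rw [(coeff_ser_single _).1, lawCoeff_zero_right, if_pos rfl]
      lin_coeff_Y := by
        rw [(coeff_ser_single _).2, lawCoeff_comm, lawCoeff_zero_right, if_pos rfl]
      assoc := law_assoc_aux o }
  comm := ⟨ser_comm o⟩

theorem law_ps : o.law.ps = ser o.lawCoeff := rfl

theorem coeff_law (i j : ℕ) : MvPowerSeries.coeff
    (Finsupp.single (0 : Fin 2) i + Finsupp.single (1 : Fin 2) j) o.law.ps =
      o.lawCoeff i j := by
  rw [law_ps, coeff_ser]
  simp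

theorem lift_law_a (i j : ℕ) : Laz.lift o.law (Laz.a i j) = o.lawCoeff (i + 1) (j + 1) := by
  rw [Laz.lift_a, coeff_law]

/-- The Euler class of a tensor product of line bundles. -/
theorem lc_tens (f : C(X, CP I)) (g : C(X, CP J)) :
    o.lc (tens f g) = nev ![o.lc f, o.lc g] o.law.ps := lc_tens_nev o f g

/-! ### Homogeneity -/

theorem proj_smul {k l m : ℤ} (h : l + m = k) (a : E.A) {x : E.U X} (hx : x ∈ E.deg X m) :
    E.proj X k (a • x) = E.toA (E.proj (𝟙_ LC) l (E.ofA a)) • x := by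
  subst h
  let φ : E.U (𝟙_ LC) →+ E.U X :=
    { toFun := fun a => E.toA a • x
      map_zero' := zero_smul E.A x
      map_add' := fun a b => add_smul (E.toA a) (E.toA b) x }
  exact map_proj_of_deg (f := φ) (m := m) (fun k a ha => smul_deg ha hx) l (E.ofA a)

theorem pow_deg {x : E.U X} {k : ℤ} (hx : x ∈ E.deg X k) (n : ℕ) : x ^ n ∈ E.deg X (n * k) := by
  induction n with
  | zero =>
    rw [pow_zero, Nat.cast_zero, zero_mul]
    exact oneU_deg X
  | succ n ih =>
    rw [pow_succ]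
    have := mul_deg ih hx
    have e : ((n + 1 : ℕ) : ℤ) * k = n * k + k := by push_cast; ring
    rw [e]
    exact this

/-- The coefficients of the law are homogeneous. -/
theorem lawCoeff_deg (i j : ℕ) : o.lawCoeff i j ∈ E.degA (1 - (i : ℤ) - (j : ℤ)) := by
  have := good_gr_one o (Fin (i + j + 1))
  have h1 := lc_tens_val₂ o (evL (i + j + 1) (0 : Fin 2)) (evL (i + j + 1) (1 : Fin 2))
    (n := i + j + 1) (by simp) (by simp)
  rw [val₂_eq_sum (i + j + 1) _ fun s : Fin 2 => o.lc (evL (i + j + 1) s)] at h1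
  have hdeg : ∀ g : Fin 2 → Fin (i + j + 1), (∏ s, o.lc (evL (i + j + 1) s) ^ (g s : ℕ)) ∈
      E.deg (powObj (CP (Fin (i + j + 1))) (Fin 2)) (((g 0 : ℕ) : ℤ) + ((g 1 : ℕ) : ℤ)) := by
    intro g
    rw [Fin.prod_univ_two]
    have a0 := pow_deg (lc_deg o (evL (i + j + 1) (0 : Fin 2))) (g 0)
    have a1 := pow_deg (lc_deg o (evL (i + j + 1) (1 : Fin 2))) (g 1)
    rw [mul_one] at a0 a1
    exact mul_deg a0 a1
  have h2 := congrArg (E.proj _ 1) h1
  rw [proj_of_mem (lc_deg o _), map_sum] at h2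
  have h3 : ∀ g : Fin 2 → Fin (i + j + 1),
      E.proj (powObj (CP (Fin (i + j + 1))) (Fin 2)) 1
        (o.lawCoeff (g 0) (g 1) • ∏ s, o.lc (evL (i + j + 1) s) ^ (g s : ℕ)) =
      E.toA (E.proj (𝟙_ LC) (1 - ((g 0 : ℕ) : ℤ) - ((g 1 : ℕ) : ℤ))
        (E.ofA (o.lawCoeff (g 0) (g 1)))) • ∏ s, o.lc (evL (i + j + 1) s) ^ (g s : ℕ) := by
    intro g
    exact proj_smul (by ring) _ (hdeg g)
  rw [Finset.sum_congr rfl fun g _ => h3 g, h1] at h2
  have h4 := (freeOn_lc o (i + j + 1) (Fin 2)).bijective_smul.1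
    (a₁ := fun g => o.lawCoeff (g 0) (g 1))
    (a₂ := fun g => E.toA (E.proj (𝟙_ LC) (1 - ((g 0 : ℕ) : ℤ) - ((g 1 : ℕ) : ℤ))
        (E.ofA (o.lawCoeff (g 0) (g 1))))) h2
  have h5 : o.lawCoeff i j = E.toA (E.proj (𝟙_ LC) (1 - (i : ℤ) - (j : ℤ))
        (E.ofA (o.lawCoeff i j))) := congrFun h4 ![⟨i, by omega⟩, ⟨j, by omega⟩]
  rw [h5]
  exact proj_mem _ _

/-! ### Tensor powers -/

theorem isProj_tpow_one (m : ℕ) (Q : Gr 1 I) : IsProj 1 (tpow m Q.P) := by
  have := Q.isProj.tpow m
  rwa [one_pow] at this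

/-- tensor powers of lines -/
def tpowC (m : ℕ) (I : Type) [Fintype I] : C(CP I, CP (Fin m → I)) where
  toFun := fun Q : Gr 1 I => (⟨tpow m Q.P, isProj_tpow_one m Q⟩ : Gr 1 (Fin m → I))
  continuous_toFun := Continuous.subtype_mk ((continuous_tpow m).comp Gr.continuous_P) _

/-- tensor powers of line bundles -/
def lineTpow {X : LC} (m : ℕ) (f : C(X, CP I)) : C(X, CP (Fin m → I)) := (tpowC m I).comp f

theorem lineTpow_P (m : ℕ) (f : C(X, CP I)) (x : X) :
    Gr.P (lineTpow m f x : Gr 1 (Fin m → I)) = tpow m (Gr.P (f x : Gr 1 I)) := rfl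

/-- appending a coordinate -/
def snocEquiv' (m : ℕ) (I : Type) : (Fin m → I) × I ≃ (Fin (m + 1) → I) where
  toFun q := Fin.snoc (α := fun _ => I) q.1 q.2
  invFun s := (Fin.init s, s (Fin.last m))
  left_inv q := by simp
  right_inv s := by simp

theorem lineTpow_succ [DecidableEq I] (m : ℕ) (f : C(X, CP I)) :
    (grMapC 1 (injMat (snocEquiv' m I)) (injMat_isom (Equiv.injective _))).comp
      (tens (lineTpow m f) f) = lineTpow (m + 1) f := by
  refine line_ext fun x => ?_
  change injMat (snocEquiv' m I) * kroneckerMap (· * ·) (tpow m (Gr.P (f x : Gr 1 I)))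
    (Gr.P (f x : Gr 1 I)) * (injMat (snocEquiv' m I))ᴴ = tpow (m + 1) (Gr.P (f x : Gr 1 I))
  rw [injMat_equiv_conj]
  ext a b
  rw [tpow_apply, Fin.prod_univ_castSucc]
  rfl

theorem lc_tpow (m : ℕ) (f : C(X, CP I)) :
    o.lc (lineTpow m f) = nev1 (o.lc f) (multSeries o.law.toFG m) := by
  classical
  induction m with
  | zero =>
    rw [nev1_multSeries_zero _ (isNilpotent_lc o f)]
    have := lc_pow_eq_zero o (lineTpow 0 f) (N := 1) (by simp)
    rwa [pow_one] at this
  | succ m ih =>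
    rw [← lineTpow_succ, lc_grMapC, lc_tens, nev1_multSeries_succ _ (isNilpotent_lc o f), ih]

end theory

end Vale.Agent.P251.Q
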