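import Vale.Agent.P251.Q.Defs
import Mathlib.Algebra.Algebra.Hom
import Mathlib.Topology.ContinuousMap.Basic

/-!
# P251, part Q: products in a multiplicative theory

* `graph f : Z ⟶ Y ⊗ Z` for a continuous map `f : Z → Y`;
* `E.act f y z` : the product of `z : U Z` with the pull back of `y : U Y` along `f : Z → Y`
  (`Y` need not be compact);
* `E.A` : the coefficient ring, `U X` is a module over it;
* `U X` is a (non unital) commutative ring, unital for compact `X`.
-/

open CategoryTheory MonoidalCategory OnePoint Topology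
open Vale.Agent.P251.G Vale.Agent.P251.G.LC

universe v

namespace Vale.Agent.P251.Q

/-! ### Graphs -/

section graph

variable {X Y Z W : LC}

/-- The graph of a continuous map, as a morphism of `LC`. -/
def graph (f : C(Z, Y)) : Z ⟶ Y ⊗ Z :=
  ofClosed (Y := LC.of (Y × Z)) (fun z => (f z, z))
    (Function.LeftInverse.isClosedEmbedding (f := Prod.snd) (fun _ => rfl) continuous_snd
      (f.continuous.prodMk continuous_id))

theorem app_graph (f : C(Z, Y)) (z : Z) :
    app (graph f) (z : OnePoint Z) = smash (f z : OnePoint Y) (z : OnePoint Z) := rfl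

/-- the diagonal -/
def diag (X : LC) : X ⟶ X ⊗ X := graph (ContinuousMap.id X)

theorem app_diag (x : X) :
    app (diag X) (x : OnePoint X) = smash (x : OnePoint X) (x : OnePoint X) := rfl

theorem app_diag' (x : OnePoint X) : app (diag X) x = smash x x := by
  induction x using OnePoint.rec with
  | infty => exact app_infty _
  | coe x => rfl

/-- general naturality of graphs -/
theorem comp_graph (g : W ⟶ Z) (f : C(Z, Y)) (f' : C(W, Y))
    (h : ∀ (w : W) (z : Z), app g (w : OnePoint W) = z → f z = f' w) :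
    g ≫ graph f = graph f' ≫ (Y ◁ g) := by
  apply hom_ext
  intro w
  rw [app_comp, app_comp, app_graph, app_whiskerLeft_smash]
  cases hw : app g (w : OnePoint W) using OnePoint.rec with
  | infty => rw [smash_infty_right]; exact app_infty _
  | coe z => rw [app_graph, h w z hw]

theorem graph_comp (f : C(Z, Y)) (h : Y ⟶ X) (f' : C(Z, X))
    (hf : ∀ z : Z, app h (f z : OnePoint Y) = (f' z : OnePoint X)) :
    graph f ≫ (h ▷ Z) = graph f' := by
  apply hom_ext
  intro z
  rw [app_comp, app_graph, app_graph, app_whiskerRight_smash, hf]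

/-- the first projection as a continuous map -/
def fstC (X Y : LC) : C((X ⊗ Y : LC), X) := ⟨fun p : X × Y => p.1, continuous_fst⟩
/-- the second projection as a continuous map -/
def sndC (X Y : LC) : C((X ⊗ Y : LC), Y) := ⟨fun p : X × Y => p.2, continuous_snd⟩
/-- the pairing of continuous maps -/
def pairC (f : C(Z, X)) (g : C(Z, Y)) : C(Z, (X ⊗ Y : LC)) :=
  ⟨fun z => ((f z, g z) : X × Y), f.continuous.prodMk g.continuous⟩

@[simp] theorem fstC_apply (x : X) (y : Y) : fstC X Y ((x, y) : X × Y) = x := rfl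
@[simp] theorem sndC_apply (x : X) (y : Y) : sndC X Y ((x, y) : X × Y) = y := rfl
@[simp] theorem pairC_apply (f : C(Z, X)) (g : C(Z, Y)) (z : Z) :
    pairC f g z = ((f z, g z) : X × Y) := rfl

/-- the map to the point -/
def toPt (X : LC) : C(X, (𝟙_ LC : LC)) := ⟨fun _ => (() : Unit), continuous_const⟩

instance : CompactSpace (𝟙_ LC : LC) := inferInstanceAs (CompactSpace Unit)

instance {X Y : LC} [CompactSpace X] [CompactSpace Y] : CompactSpace (X ⊗ Y : LC) :=
  inferInstanceAs (CompactSpace (X × Y))

/-- A continuous map out of a compact space as a morphism of `LC`. -/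
def cmap [CompactSpace X] (f : C(X, Y)) : X ⟶ Y := ofCompact f f.continuous

@[simp] theorem app_cmap_coe [CompactSpace X] (f : C(X, Y)) (x : X) :
    app (cmap f) (x : OnePoint X) = (f x : OnePoint Y) := rfl

theorem graph_toPt (X : LC) : graph (toPt X) = (λ_ X).inv := by
  rw [← cancel_mono (λ_ X).hom, Iso.inv_hom_id]
  apply hom_ext
  intro x
  rw [app_comp, app_graph]
  exact app_leftUnitor_smash X x

end graph

namespace MultTheory

variable (E : MultTheory.{v})
variable {X Y Z W : LC}

/-! ### Homogeneous components -/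

open scoped Classical in
/-- the homogeneous component of degree `k` -/
noncomputable def proj (X : LC) [hX : E.Good X] (k : ℤ) : E.U X →+ E.U X :=
  (E.deg X k).subtype.comp
    ((DFinsupp.evalAddMonoidHom k).comp
      (AddEquiv.ofBijective (DirectSum.coeAddMonoidHom (E.deg X)) (E.internal X)).symm.toAddMonoidHom)

section proj

variable {E} [hX : E.Good X] [hY : E.Good Y] [hZ : E.Good Z] [hW : E.Good W]

theorem proj_mem (k : ℤ) (x : E.U X) : E.proj X k x ∈ E.deg X k :=
  SetLike.coe_mem _

open scoped Classical in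
theorem exists_sum (x : E.U X) : ∃ s : Finset ℤ, x = ∑ k ∈ s, E.proj X k x ∧
    ∀ k ∉ s, E.proj X k x = 0 := by
  set d := (AddEquiv.ofBijective (DirectSum.coeAddMonoidHom (E.deg X)) (E.internal X)).symm x
    with hd
  have hx : DirectSum.coeAddMonoidHom (E.deg X) d = x :=
    (AddEquiv.ofBijective (DirectSum.coeAddMonoidHom (E.deg X)) (E.internal X)).apply_symm_apply x
  have hp : ∀ k, E.proj X k x = (d k : E.U X) := fun k => rfl
  refine ⟨DFinsupp.support d, ?_, ?_⟩
  · conv_lhs => rw [← hx, ← DirectSum.sum_support_of d, map_sum]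
    refine Finset.sum_congr rfl fun k _ => ?_
    rw [DirectSum.coeAddMonoidHom_of, hp]
  · intro k hk
    rw [hp, DFinsupp.notMem_support_iff.mp hk]
    rfl

open scoped Classical in
theorem proj_of_mem {k : ℤ} {x : E.U X} (hx : x ∈ E.deg X k) : E.proj X k x = x := by
  have : (AddEquiv.ofBijective (DirectSum.coeAddMonoidHom (E.deg X)) (E.internal X)).symm x =
      DirectSum.of (fun k => E.deg X k) k ⟨x, hx⟩ := by
    rw [AddEquiv.symm_apply_eq]
    exact (DirectSum.coeAddMonoidHom_of (E.deg X) k ⟨x, hx⟩).symm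
  change (((AddEquiv.ofBijective (DirectSum.coeAddMonoidHom (E.deg X)) (E.internal X)).symm x) k :
    E.U X) = x
  rw [this, DirectSum.of_eq_same]

open scoped Classical in
theorem proj_of_mem_ne {k l : ℤ} (h : k ≠ l) {x : E.U X} (hx : x ∈ E.deg X k) :
    E.proj X l x = 0 := by
  have : (AddEquiv.ofBijective (DirectSum.coeAddMonoidHom (E.deg X)) (E.internal X)).symm x =
      DirectSum.of (fun k => E.deg X k) k ⟨x, hx⟩ := by
    rw [AddEquiv.symm_apply_eq]
    exact (DirectSum.coeAddMonoidHom_of (E.deg X) k ⟨x, hx⟩).symm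
  change (((AddEquiv.ofBijective (DirectSum.coeAddMonoidHom (E.deg X)) (E.internal X)).symm x) l :
    E.U X) = 0
  rw [this, DirectSum.of_eq_of_ne _ _ _ (Ne.symm h)]
  rfl

/-- induction on homogeneous elements -/
theorem induction_deg {P : E.U X → Prop} (h0 : P 0) (hadd : ∀ x y, P x → P y → P (x + y))
    (hdeg : ∀ k, ∀ x ∈ E.deg X k, P x) (x : E.U X) : P x := by
  obtain ⟨s, hs, -⟩ := exists_sum x
  rw [hs]
  exact Finset.sum_induction _ P hadd h0 fun k _ => hdeg k _ (proj_mem k x)

/-- additive maps which preserve degrees commute with the homogeneous components -/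
theorem map_proj_of_deg {f : E.U X →+ E.U Y} {m : ℤ}
    (hf : ∀ k, ∀ x ∈ E.deg X k, f x ∈ E.deg Y (k + m)) (k : ℤ) (x : E.U X) :
    E.proj Y (k + m) (f x) = f (E.proj X k x) := by
  induction x using induction_deg with
  | h0 => simp
  | hadd x y hx hy => simp [hx, hy]
  | hdeg l x hx =>
    by_cases h : l = k
    · subst h
      rw [proj_of_mem hx, proj_of_mem (hf _ x hx)]
    · rw [proj_of_mem_ne h hx, proj_of_mem_ne (by omega) (hf _ x hx), map_zero]

theorem proj_map (f : X ⟶ Y) (k : ℤ) (y : E.U Y) :
    E.proj X k (E.map f y) = E.map f (E.proj Y k y) := by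
  have h := map_proj_of_deg (f := E.map f) (m := 0)
    (fun k x hx => by rw [add_zero]; exact map_deg f hx) k y
  rwa [add_zero] at h

theorem mem_deg_of_proj {k : ℤ} {x : E.U X} (h : ∀ l, l ≠ k → E.proj X l x = 0) :
    x ∈ E.deg X k := by
  obtain ⟨s, hs, -⟩ := exists_sum x
  rw [hs]
  refine sum_mem fun l _ => ?_
  by_cases hl : l = k
  · subst hl; exact proj_mem _ _
  · rw [h l hl]; exact zero_mem _

/-- If an additive map shifting degrees is injective then it reflects degrees. -/
theorem mem_deg_of_injective {f : E.U X →+ E.U Y} {m : ℤ}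
    (hf : ∀ k, ∀ x ∈ E.deg X k, f x ∈ E.deg Y (k + m)) (hinj : Function.Injective f) {k : ℤ}
    {x : E.U X} (h : f x ∈ E.deg Y (k + m)) : x ∈ E.deg X k := by
  apply mem_deg_of_proj
  intro l hl
  apply hinj
  rw [← map_proj_of_deg hf, map_zero]
  exact proj_of_mem_ne (by omega) h

theorem cross_sg_injective : Function.Injective fun x : E.U X => E.cross x E.sg :=
  (E.sg_bijective' hX.out).1

theorem mem_deg_of_cross_sg {k : ℤ} {x : E.U X}
    (h : E.cross x E.sg ∈ E.deg (X ⊗ LC.of ℂ) (k + 1)) : x ∈ E.deg X k :=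
  mem_deg_of_injective (f := (AddMonoidHom.flip E.cross) E.sg)
    (fun _ _ hx => cross_deg hx E.sg_deg) (fun _ _ h => cross_sg_injective h) h

/-- desuspension with degrees -/
theorem exists_cross_sg {k : ℤ} {y : E.U (X ⊗ LC.of ℂ)} (h : y ∈ E.deg (X ⊗ LC.of ℂ) (k + 1)) :
    ∃ x ∈ E.deg X k, E.cross x E.sg = y := by
  obtain ⟨x, hx⟩ := (E.sg_bijective' hX.out).2 y
  refine ⟨x, mem_deg_of_cross_sg ?_, hx⟩
  have hx' : E.cross x E.sg = y := hx
  rwa [hx']

/-- homogeneous elements in the image of a degree preserving map have homogeneous preimages -/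
theorem exists_deg_of_map {f : E.U X →+ E.U Y} {m : ℤ}
    (hf : ∀ k, ∀ x ∈ E.deg X k, f x ∈ E.deg Y (k + m)) {k : ℤ} {x : E.U X}
    (h : f x ∈ E.deg Y (k + m)) : ∃ x' ∈ E.deg X k, f x' = f x :=
  ⟨E.proj X k x, proj_mem k x, by rw [← map_proj_of_deg hf, proj_of_mem h]⟩

theorem exists_deg_of_map' (f : X ⟶ Y) {k : ℤ} {y : E.U Y} (h : E.map f y ∈ E.deg X k) :
    ∃ y' ∈ E.deg Y k, E.map f y' = E.map f y :=
  ⟨E.proj Y k y, proj_mem k y, by rw [← proj_map, proj_of_mem h]⟩

end proj

/-! ### The action along a continuous map -/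

/-- The product of `z : U Z` with the pull back of `y : U Y` along `f : Z → Y`. -/
def act (f : C(Z, Y)) : E.U Y →+ E.U Z →+ E.U Z :=
  (AddMonoidHom.compHom (E.map (graph f))).comp E.cross

theorem act_apply (f : C(Z, Y)) (y : E.U Y) (z : E.U Z) :
    E.act f y z = E.map (graph f) (E.cross y z) := rfl

section act

variable {E} [hX : E.Good X] [hY : E.Good Y] [hZ : E.Good Z] [hW : E.Good W]

theorem act_deg (f : C(Z, Y)) {k l : ℤ} {y : E.U Y} {z : E.U Z} (hy : y ∈ E.deg Y k)
    (hz : z ∈ E.deg Z l) : E.act f y z ∈ E.deg Z (k + l) :=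
  map_deg _ (cross_deg hy hz)

/-- naturality in the space acted upon -/
theorem map_act (g : W ⟶ Z) (f : C(Z, Y)) (f' : C(W, Y))
    (h : ∀ (w : W) (z : Z), app g (w : OnePoint W) = z → f z = f' w) (y : E.U Y) (z : E.U Z) :
    E.map g (E.act f y z) = E.act f' y (E.map g z) := by
  rw [act_apply, act_apply, cross_map_right, ← map_comp, ← map_comp, comp_graph g f f' h]

/-- naturality in the base -/
theorem act_map (f : C(Z, Y)) (h : Y ⟶ X) (f' : C(Z, X))
    (hf : ∀ z : Z, app h (f z : OnePoint Y) = (f' z : OnePoint X)) (x : E.U X) (z : E.U Z) :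
    E.act f (E.map h x) z = E.act f' x z := by
  rw [act_apply, act_apply, cross_map_left, ← map_comp, graph_comp f h f' hf]

theorem act_cross_left (f : C(Z, Y)) (y : E.U Y) (z : E.U Z) (w : E.U W) :
    E.act (f.comp (fstC Z W)) y (E.cross z w) = E.cross (E.act f y z) w := by
  rw [act_apply, act_apply, cross_map_left, ← cross_assoc, ← map_comp]
  exact congrArg (fun k => E.map k _) (hom_ext fun _ => rfl)

theorem act_pair (f : C(Z, X)) (g : C(Z, Y)) (x : E.U X) (y : E.U Y) (z : E.U Z) :
    E.act f x (E.act g y z) = E.act (pairC f g) (E.cross x y) z := by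
  rw [act_apply, act_apply, act_apply, cross_map_right, ← cross_assoc, ← map_comp, ← map_comp]
  exact congrArg (fun k => E.map k _) (hom_ext fun _ => rfl)

theorem act_swap (f : C(Z, X)) (g : C(Z, Y)) (x : E.U X) (y : E.U Y) (z : E.U Z) :
    E.act f x (E.act g y z) = E.act g y (E.act f x z) := by
  rw [act_pair, act_pair, ← cross_comm x y]
  refine act_map _ (β_ X Y).hom _ ?_ _ _
  intro w
  rfl

theorem act_cross_right (f : C(W, Y)) (y : E.U Y) (z : E.U Z) (w : E.U W) :
    E.act (f.comp (sndC Z W)) y (E.cross z w) = E.cross z (E.act f y w) := by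
  have h1 : ∀ (a : E.U Z) (b : E.U W), E.map (β_ W Z).hom (E.cross a b) = E.cross b a :=
    fun a b => cross_comm b a
  have h2 : E.map (β_ W Z).hom (E.act (f.comp (sndC Z W)) y (E.cross z w)) =
      E.cross (E.act f y w) z := by
    rw [map_act (β_ W Z).hom (f.comp (sndC Z W)) (f.comp (fstC W Z)), h1, act_cross_left]
    rintro ⟨a, b⟩ ⟨c, d⟩ h
    have h' : ((b, a) : Z × W) = (c, d) := OnePoint.coe_injective h
    rw [Prod.mk.injEq] at h'
    obtain ⟨rfl, rfl⟩ := h'
    rfl
  have h3 : E.map (β_ Z W).hom (E.map (β_ W Z).hom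
      (E.act (f.comp (sndC Z W)) y (E.cross z w))) = E.act (f.comp (sndC Z W)) y (E.cross z w) := by
    rw [← map_comp, SymmetricCategory.symmetry, map_id]
  rw [← h3, h2, cross_comm]

/-- `(f^* x) (f^* y) z = f^* (x y) z` -/
theorem act_act (f : C(Z, Y)) (x y : E.U Y) (z : E.U Z) :
    E.act f x (E.act f y z) = E.act f (E.act (ContinuousMap.id Y) x y) z := by
  rw [act_pair, act_apply (f := ContinuousMap.id Y)]
  symm
  exact act_map _ _ _ (fun z => rfl) _ _

end act

/-! ### The coefficient ring -/

/-- The coefficient ring. -/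
def A : Type v := E.U (𝟙_ LC)

/-- a coefficient as a class of the point -/
def ofA : E.A → E.U (𝟙_ LC) := fun a => a

/-- a class of the point as a coefficient -/
def toA : E.U (𝟙_ LC) → E.A := fun a => a

instance : AddCommGroup E.A := inferInstanceAs (AddCommGroup (E.U (𝟙_ LC)))

@[simp] theorem ofA_toA (a : E.U (𝟙_ LC)) : E.ofA (E.toA a) = a := rfl
@[simp] theorem toA_ofA (a : E.A) : E.toA (E.ofA a) = a := rfl
@[simp] theorem ofA_add (a b : E.A) : E.ofA (a + b) = E.ofA a + E.ofA b := rfl
@[simp] theorem ofA_zero : E.ofA 0 = 0 := rfl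
@[simp] theorem ofA_neg (a : E.A) : E.ofA (-a) = -E.ofA a := rfl
@[simp] theorem ofA_sub (a b : E.A) : E.ofA (a - b) = E.ofA a - E.ofA b := rfl

/-- homogeneous coefficients -/
def degA (k : ℤ) : AddSubgroup E.A := E.deg (𝟙_ LC) k

instance : Mul E.A := ⟨fun a b => E.map (λ_ (𝟙_ LC)).inv (E.cross (E.ofA a) (E.ofA b))⟩
instance : One E.A := ⟨E.one⟩

theorem A_mul_def (a b : E.A) :
    E.ofA (a * b) = E.map (λ_ (𝟙_ LC)).inv (E.cross (E.ofA a) (E.ofA b)) := rfl

theorem ofA_one : E.ofA 1 = E.one := rfl

/-- the scalar action of the coefficients -/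
instance (X : LC) : SMul E.A (E.U X) := ⟨fun a x => E.map (λ_ X).inv (E.cross (E.ofA a) x)⟩

theorem smul_def (a : E.A) (x : E.U X) : a • x = E.map (λ_ X).inv (E.cross (E.ofA a) x) := rfl

theorem smul_eq_act [E.Good X] (a : E.A) (x : E.U X) : a • x = E.act (toPt X) (E.ofA a) x := by
  rw [act_apply, graph_toPt]; rfl

theorem ofA_mul (a b : E.A) : E.ofA (a * b) = a • E.ofA b := rfl

section A

variable {E} [hX : E.Good X] [hY : E.Good Y] [hZ : E.Good Z] [hW : E.Good W]

theorem one_smul' (x : E.U X) : (1 : E.A) • x = x := by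
  rw [smul_def, ofA_one, one_cross, map_inv_hom]

theorem act_smul_right (f : C(Z, Y)) (y : E.U Y) (a : E.A) (z : E.U Z) :
    E.act f y (a • z) = a • E.act f y z := by
  rw [smul_eq_act, smul_eq_act, act_swap]

theorem mul_smul' (a b : E.A) (x : E.U X) : (a * b) • x = a • (b • x) := by
  rw [smul_eq_act, smul_eq_act, smul_eq_act, act_act, ofA_mul, smul_eq_act]
  congr 2

theorem map_smul (f : X ⟶ Y) (a : E.A) (y : E.U Y) : E.map f (a • y) = a • E.map f y := by
  rw [smul_eq_act, smul_eq_act]
  exact map_act _ _ _ (fun _ _ _ => rfl) _ _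

theorem smul_deg {a : E.A} {k l : ℤ} {x : E.U X} (ha : a ∈ E.degA k) (hx : x ∈ E.deg X l) :
    a • x ∈ E.deg X (k + l) :=
  map_deg _ (cross_deg ha hx)

theorem cross_smul_left (a : E.A) (x : E.U X) (y : E.U Y) :
    E.cross (a • x) y = a • E.cross x y := by
  rw [smul_eq_act, smul_eq_act, ← act_cross_left]
  rfl

theorem cross_smul_right (a : E.A) (x : E.U X) (y : E.U Y) :
    E.cross x (a • y) = a • E.cross x y := by
  rw [smul_eq_act, smul_eq_act, ← act_cross_right]
  rfl

theorem act_smul_left (f : C(Z, Y)) (a : E.A) (y : E.U Y) (z : E.U Z) :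
    E.act f (a • y) z = a • E.act f y z := by
  rw [act_apply, act_apply, cross_smul_left, map_smul]

theorem A_mul_comm (a b : E.A) : a * b = b * a := by
  change E.map (λ_ (𝟙_ LC)).inv (E.cross (E.ofA a) (E.ofA b)) =
    E.map (λ_ (𝟙_ LC)).inv (E.cross (E.ofA b) (E.ofA a))
  rw [← cross_comm (E.ofA a) (E.ofA b), ← map_comp]
  exact congrArg (fun k => E.map k _) (hom_ext fun _ => rfl)

end A

instance : CommRing E.A :=
  { (inferInstance : AddCommGroup E.A) with
    mul_assoc := fun a b c => (mul_smul' a b (E.ofA c) : _)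
    one_mul := fun a => one_smul' (E.ofA a)
    mul_one := fun a => (A_mul_comm a 1).trans (one_smul' (E.ofA a))
    mul_comm := A_mul_comm
    left_distrib := fun a b c => by
      change E.map _ (E.cross (E.ofA a) (E.ofA b + E.ofA c)) = _
      rw [map_add, map_add]; rfl
    right_distrib := fun a b c => by
      change E.map _ (E.cross (E.ofA a + E.ofA b) (E.ofA c)) = _
      rw [map_add, AddMonoidHom.add_apply, map_add]; rfl
    zero_mul := fun a => by
      change E.map _ (E.cross 0 (E.ofA a)) = _
      rw [map_zero, AddMonoidHom.zero_apply, map_zero]; rfl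
    mul_zero := fun a => by
      change E.map _ (E.cross (E.ofA a) 0) = _
      rw [map_zero, map_zero]; rfl }

instance (X : LC) [E.Good X] : Module E.A (E.U X) where
  one_smul := one_smul'
  mul_smul := mul_smul'
  smul_zero a := by rw [smul_def, map_zero, map_zero]
  smul_add a x y := by rw [smul_def, map_add, map_add]; rfl
  add_smul a b x := by rw [smul_def, ofA_add, map_add, AddMonoidHom.add_apply, map_add]; rfl
  zero_smul x := by rw [smul_def, ofA_zero, map_zero, AddMonoidHom.zero_apply, map_zero]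

/-! ### The ring structure of `U X` -/

/-- the unit of `U X` for compact `X` -/
def oneU (X : LC) [CompactSpace X] : E.U X := E.map (cmap (toPt X)) E.one

instance instNonUnitalCommRing (X : LC) [E.Good X] : NonUnitalCommRing (E.U X) :=
  { E.grp X with
    mul := fun x y => E.act (ContinuousMap.id X) x y
    mul_assoc := fun x y z => (act_act (ContinuousMap.id X) x y z).symm
    mul_comm := fun x y => by
      change E.map (graph _) (E.cross x y) = E.map (graph _) (E.cross y x)
      rw [← cross_comm x y, ← map_comp]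
      exact congrArg (fun k => E.map k _) (hom_ext fun _ => rfl)
    left_distrib := fun x y z => map_add _ _ _
    right_distrib := fun x y z => by
      change E.act _ (x + y) z = _
      rw [map_add]; rfl
    zero_mul := fun x => by
      change E.act _ 0 x = 0
      rw [map_zero]; rfl
    mul_zero := fun x => map_zero _ }

section ring

variable {E} [hX : E.Good X] [hY : E.Good Y] [hZ : E.Good Z] [hW : E.Good W]

theorem mul_def (x y : E.U X) : x * y = E.act (ContinuousMap.id X) x y := rfl

theorem mul_eq (x y : E.U X) : x * y = E.map (diag X) (E.cross x y) := rfl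

theorem mul_deg {k l : ℤ} {x y : E.U X} (hx : x ∈ E.deg X k) (hy : y ∈ E.deg X l) :
    x * y ∈ E.deg X (k + l) :=
  act_deg _ hx hy

theorem act_mul (f : C(Z, Y)) (x y : E.U Y) (z : E.U Z) :
    E.act f (x * y) z = E.act f x (E.act f y z) := (act_act f x y z).symm

theorem act_mul_right (f : C(Z, Y)) (y : E.U Y) (z w : E.U Z) :
    E.act f y (z * w) = E.act f y z * w := by
  rw [mul_comm z w, mul_comm _ w, mul_def, mul_def, act_swap]

/-- pull backs along proper maps are multiplicative; more generally along all morphisms -/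
theorem map_mul' (f : X ⟶ Y) (y y' : E.U Y) : E.map f (y * y') = E.map f y * E.map f y' := by
  rw [mul_eq, mul_eq, cross_map, ← map_comp, ← map_comp]
  refine congrArg (fun k => E.map k _) ?_
  apply hom_ext
  intro x
  rw [app_comp, app_comp, app_diag', app_diag, app_tensorHom_smash]

theorem smul_mul' (a : E.A) (x y : E.U X) : (a • x) * y = a • (x * y) := act_smul_left _ a x y

theorem mul_smul_right (a : E.A) (x y : E.U X) : x * (a • y) = a • (x * y) :=
  act_smul_right _ x a y

theorem cross_mul_cross (x x' : E.U X) (y y' : E.U Y) :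
    E.cross x y * E.cross x' y' = E.cross (x * x') (y * y') := by
  rw [mul_def x x', mul_def y y', mul_def]
  rw [← act_cross_left, ← act_cross_right, act_pair]
  rfl

theorem oneU_deg (X : LC) [E.Good X] [CompactSpace X] : E.oneU X ∈ E.deg X 0 :=
  map_deg _ E.one_deg

/-- `1 * z`: acting by the unit of a compact space -/
theorem act_oneU [CompactSpace Y] (f : C(Z, Y)) (z : E.U Z) : E.act f (E.oneU Y) z = z := by
  unfold oneU
  rw [act_map f (cmap (toPt Y)) (toPt Z) (fun _ => rfl)]
  have h := smul_eq_act E (1 : E.A) z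
  rw [one_smul'] at h
  exact h.symm

theorem map_oneU [CompactSpace X] [CompactSpace Y] (f : C(X, Y)) :
    E.map (cmap f) (E.oneU Y) = E.oneU X := by
  unfold oneU
  rw [← map_comp]
  exact congrArg (fun k => E.map k _) (hom_ext fun _ => rfl)

theorem act_eq_mul [CompactSpace Z] (f : C(Z, Y)) (y : E.U Y) (z : E.U Z) :
    E.act f y z = E.map (cmap f) y * z := by
  rw [mul_def, act_map _ (cmap f) f (fun _ => rfl)]

end ring

instance instCommRing (X : LC) [E.Good X] [CompactSpace X] : CommRing (E.U X) :=
  { instNonUnitalCommRing E X with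
    one := E.oneU X
    one_mul := fun x => act_oneU _ x
    mul_one := fun x => (mul_comm x (E.oneU X)).trans (act_oneU _ x) }

theorem one_def (X : LC) [E.Good X] [CompactSpace X] : (1 : E.U X) = E.oneU X := rfl

instance instAlgebra (X : LC) [E.Good X] [CompactSpace X] : Algebra E.A (E.U X) :=
  Algebra.ofModule (fun a x y => smul_mul' a x y) (fun a x y => mul_smul_right a x y)

/-- pull back as an algebra homomorphism -/
def mapAlg {X Y : LC} [E.Good X] [E.Good Y] [CompactSpace X] [CompactSpace Y] (f : C(X, Y)) :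
    E.U Y →ₐ[E.A] E.U X where
  toFun := E.map (cmap f)
  map_zero' := map_zero _
  map_add' := map_add _
  map_one' := map_oneU f
  map_mul' := map_mul' _
  commutes' a := by
    rw [Algebra.algebraMap_eq_smul_one, Algebra.algebraMap_eq_smul_one, map_smul]
    exact congrArg (a • ·) (map_oneU f)

@[simp] theorem mapAlg_apply {X Y : LC} [E.Good X] [E.Good Y] [CompactSpace X] [CompactSpace Y]
    (f : C(X, Y)) (y : E.U Y) : E.mapAlg f y = E.map (cmap f) y := rfl

end MultTheory

end Vale.Agent.P251.Q
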