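import Vale.Agent.P251.T.Axioms
import Mathlib.CategoryTheory.Preadditive.AdditiveFunctor

/-!
# P251, part Q: homotopy of `X ⊗ S/p`

`C` is a cone of `p : 𝟙_ ⟶ 𝟙_`, `X` any object.
-/

open CategoryTheory MonoidalCategory Limits Pretriangulated

set_option linter.unusedSectionVars false

universe v u

namespace Vale.Agent.P251.Q.ModP

open Vale.Agent.P251.T

variable {T : Type u} [Category.{v} T] [Preadditive T] [HasZeroObject T]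
    [HasShift T ℤ] [∀ n : ℤ, (shiftFunctor T n).Additive] [Pretriangulated T]
    [MonoidalCategory T] [SymmetricCategory T] [TensorTriangulated T]

variable {p : ℤ} {C : T} {i : 𝟙_ T ⟶ C} {δ : C ⟶ (𝟙_ T)⟦(1 : ℤ)⟧}

theorem whiskerLeft_zsmul_id (X Y : T) (p : ℤ) : X ◁ (p • 𝟙 Y) = p • 𝟙 (X ⊗ Y) := by
  have := (tensorLeft X).map_zsmul (f := 𝟙 Y) (r := p)
  simpa using this

theorem exact₂ {A B D W : T} {f : A ⟶ B} {g : B ⟶ D} {h : D ⟶ A⟦(1 : ℤ)⟧}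
    (hT : Triangle.mk f g h ∈ distTriang T) (a : W ⟶ B) (ha : a ≫ g = 0) :
    ∃ b : W ⟶ A, a = b ≫ f :=
  Triangle.coyoneda_exact₂ _ hT a ha

theorem exact₃ {A B D W : T} {f : A ⟶ B} {g : B ⟶ D} {h : D ⟶ A⟦(1 : ℤ)⟧}
    (hT : Triangle.mk f g h ∈ distTriang T) (a : W ⟶ D) (ha : a ≫ h = 0) :
    ∃ b : W ⟶ B, a = b ≫ g :=
  Triangle.coyoneda_exact₃ _ hT a ha

theorem exists_dist (hC : Triangle.mk (p • 𝟙 (𝟙_ T)) i δ ∈ distTriang T) (X : T) :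
    ∃ m : X ⊗ C ⟶ (X ⊗ 𝟙_ T)⟦(1 : ℤ)⟧,
      Triangle.mk (p • 𝟙 (X ⊗ 𝟙_ T)) (X ◁ i) m ∈ distTriang T := by
  refine ⟨(X ◁ δ) ≫ (X ◁ (TensorTriangulated.e (𝟙_ T)).inv) ≫
        (α_ X (𝟙_ T) ((𝟙_ T)⟦(1 : ℤ)⟧)).inv ≫ (TensorTriangulated.e (X ⊗ 𝟙_ T)).hom, ?_⟩
  rw [← whiskerLeft_zsmul_id]
  exact TensorTriangulated.distinguished X _ hC

/-- A map which dies in `X ⊗ S/p` is divisible by `p`. -/
theorem exists_zsmul_of_comp_eq_zero (hC : Triangle.mk (p • 𝟙 (𝟙_ T)) i δ ∈ distTriang T)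
    {X W : T} (a : W ⟶ X) (h : a ≫ (ρ_ X).inv ≫ (X ◁ i) = 0) : ∃ b : W ⟶ X, a = p • b := by
  obtain ⟨m, hD⟩ := exists_dist hC X
  obtain ⟨g, hg⟩ := exact₂ hD (a ≫ (ρ_ X).inv) (by simpa using h)
  refine ⟨g ≫ (ρ_ X).hom, ?_⟩
  rw [Preadditive.comp_zsmul, Category.comp_id] at hg
  rw [← cancel_mono (ρ_ X).inv, hg, Preadditive.zsmul_comp, Category.assoc, Iso.hom_inv_id,
    Category.comp_id]

theorem zsmul_comp_eq_zero (hC : Triangle.mk (p • 𝟙 (𝟙_ T)) i δ ∈ distTriang T)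
    {X W : T} (b : W ⟶ X) : (p • b) ≫ (ρ_ X).inv ≫ (X ◁ i) = 0 := by
  obtain ⟨m, hD⟩ := exists_dist hC X
  have h1 : (p • 𝟙 (X ⊗ 𝟙_ T)) ≫ X ◁ i = 0 := comp_distTriang_mor_zero₁₂ _ hD
  rw [Preadditive.zsmul_comp, Category.id_comp] at h1
  rw [Preadditive.zsmul_comp, ← Preadditive.comp_zsmul, ← Preadditive.comp_zsmul, h1, comp_zero,
    comp_zero]

/-- If `W ⟶ X⟦1⟧` has no `p`-torsion then every map `W ⟶ X ⊗ S/p` lifts to `X`. -/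
theorem exists_lift (hC : Triangle.mk (p • 𝟙 (𝟙_ T)) i δ ∈ distTriang T)
    {X W : T} (htf : ∀ g : W ⟶ X⟦(1 : ℤ)⟧, p • g = 0 → g = 0) (f : W ⟶ X ⊗ C) :
    ∃ a : W ⟶ X, f = a ≫ (ρ_ X).inv ≫ (X ◁ i) := by
  obtain ⟨m, hD⟩ := exists_dist hC X
  have h3 : m ≫ (p • 𝟙 (X ⊗ 𝟙_ T))⟦(1 : ℤ)⟧' = 0 := comp_distTriang_mor_zero₃₁ _ hD
  rw [Functor.map_zsmul, CategoryTheory.Functor.map_id, Preadditive.comp_zsmul,
    Category.comp_id] at h3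
  have h4 : p • (f ≫ m ≫ (ρ_ X).hom⟦(1 : ℤ)⟧') = 0 := by
    rw [← Preadditive.comp_zsmul, ← Preadditive.zsmul_comp, h3, zero_comp, comp_zero]
  have h5 := htf _ h4
  have h6 : f ≫ m = (f ≫ m ≫ (ρ_ X).hom⟦(1 : ℤ)⟧') ≫ (ρ_ X).inv⟦(1 : ℤ)⟧' := by
    rw [Category.assoc, Category.assoc, ← Functor.map_comp, Iso.hom_inv_id,
      CategoryTheory.Functor.map_id, Category.comp_id]
  obtain ⟨g, rfl⟩ := exact₃ hD f (by rw [h6, h5, zero_comp])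
  refine ⟨g ≫ (ρ_ X).hom, ?_⟩
  rw [Category.assoc, Iso.hom_inv_id_assoc]

/-- If moreover `W ⟶ X` is `p`-divisible then all maps `W ⟶ X ⊗ S/p` vanish. -/
theorem eq_zero (hC : Triangle.mk (p • 𝟙 (𝟙_ T)) i δ ∈ distTriang T)
    {X W : T} (htf : ∀ g : W ⟶ X⟦(1 : ℤ)⟧, p • g = 0 → g = 0)
    (hdiv : ∀ a : W ⟶ X, ∃ b : W ⟶ X, a = p • b) (f : W ⟶ X ⊗ C) : f = 0 := by
  obtain ⟨a, rfl⟩ := exists_lift hC htf f
  obtain ⟨b, rfl⟩ := hdiv a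
  exact zsmul_comp_eq_zero hC b

/-- `p`-torsion freeness of `S^n ⟶ X⟦1⟧` from that of `S^{n-1} ⟶ X`. -/
theorem torsionFree_shift {X W W' : T} (e : W ≅ W'⟦(1 : ℤ)⟧)
    (h : ∀ g : W' ⟶ X, p • g = 0 → g = 0) (g : W ⟶ X⟦(1 : ℤ)⟧) (hg : p • g = 0) : g = 0 := by
  obtain ⟨k, hk⟩ := (shiftFunctor T (1 : ℤ)).map_surjective (e.inv ≫ g)
  have h1 : p • k = 0 := by
    apply (shiftFunctor T (1 : ℤ)).map_injective
    rw [Functor.map_zsmul, hk, ← Preadditive.comp_zsmul, hg, comp_zero, Functor.map_zero]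
  rw [h k h1, Functor.map_zero] at hk
  rw [← cancel_epi e.inv, ← hk, comp_zero]

end Vale.Agent.P251.Q.ModP
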