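import Vale.Agent.P251.Q.LensTriv
import Vale.Agent.P251.G.ZeroSec

/-!
# P251, part Q: the lens lemma

* `o.eul W hW : E.U B` the Euler class of a bundle over a compact object (restriction of the Thom
  class to the zero section); naturality;
* `lens_step` : the lens lemma for an isometric map `φ : V' → V` of line bundles over compact
  spaces which is homotopic to a constant on sphere bundles;
* `exists_theta` : `θ^* t_{V^{⊗p}} = g t_V`, hence `e(V^{⊗p}) = g e(V)`.
-/

set_option linter.unusedSectionVars false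
set_option linter.style.haveILetI false

open CategoryTheory MonoidalCategory OnePoint Topology Matrix Filter
open Vale.Agent.P251.G Vale.Agent.P251.G.LC Vale.Agent.P251.G.Bun

universe v

noncomputable section

namespace Vale.Agent.P251.Q

open MultTheory

/-! ### Euler classes over compact objects -/

section euler

variable {B B' : LC} [CompactSpace B] [CompactSpace B'] {ι κ : Type} [Fintype ι] [Fintype κ]
  {n : ℕ} {E : MultTheory.{v}} (o : Orientation E)

/-- the Euler class -/
def _root_.Vale.Agent.P251.Q.Orientation.eul (W : Bun B ι) (hW : W.IsRank n) : E.U B :=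
  E.map W.zeroHom (o.thomCl W hW)

/-- comparison with the Euler class of `Q/Euler.lean` -/
theorem eul_eq_e [E.Good B] (W : Bun B ι) [E.Good W.tot] (hW : W.IsRank n) :
    o.eul W hW = o.e W hW := by
  rw [Orientation.eul, thomCl_eq_thom]
  rfl

theorem eul_deg [E.Good B] (W : Bun B ι) [E.Good W.tot] (hW : W.IsRank n) :
    o.eul W hW ∈ E.deg B n :=
  map_deg _ (thomCl_deg o W hW)

theorem zeroHom_section (W : Bun B ι) (b : B) (e : W.tot)
    (h : app W.zeroHom (b : OnePoint B) = (e : OnePoint W.tot)) : tcb W e = b := by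
  have h1 := OnePoint.coe_injective h
  rw [← h1]
  rfl

/-- restriction of a multiple of the Thom class to the zero section -/
theorem map_zeroHom_act [E.Good B] (W : Bun B ι) [E.Good W.tot] (b : E.U B) (t : E.U W.tot) :
    E.map W.zeroHom (E.act (tcb W) b t) = b * E.map W.zeroHom t := by
  rw [MultTheory.mul_def]
  refine map_act W.zeroHom (tcb W) (ContinuousMap.id B) ?_ b t
  intro z e h
  exact zeroHom_section W z e h

/-- naturality for isometric bundle maps -/
theorem eul_isoMap [DecidableEq κ] [E.Good B] [E.Good B'] {W' : Bun B' κ} {W : Bun B ι}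
    [E.Good W'.tot] [E.Good W.tot] (φ : IsoMap W' W) (hW' : W'.IsRank n) (hW : W.IsRank n) :
    E.map (cmap φ.f) (o.eul W hW) = o.eul W' hW' := by
  rw [Orientation.eul, Orientation.eul, ← thomCl_isoMap o φ hW' hW, ← MultTheory.map_comp,
    ← MultTheory.map_comp]
  refine congrArg (fun k => E.map k _) (hom_ext ?_)
  intro b
  rw [app_comp, app_comp, app_cmap_coe]
  change ((W.zeroSec (φ.f b) : W.E) : OnePoint W.E) = (φ.toFun (W'.zeroSec b) : OnePoint W.E)
  congr 1
  refine E_ext rfl ?_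
  rw [IsoMap.vec_toFun, vec_zeroSec, vec_zeroSec, mulVec_zero]

end euler

/-! ### The zero section of `eta` -/

section exactness

variable {X : Type} [TopologicalSpace X] [T2Space X] [CompactSpace X] {ι : Type} [Fintype ι]
  {V : Bun X ι} {p : ℕ} {E : MultTheory.{v}}

theorem mem_range_lensJ_iff (hV : V.IsRank 1) (hp : p ≠ 0) (t : (V.eta p).tot) :
    t ∈ Set.range (lensJ p : V.Sph × Cx → (V.eta p).E) ↔
      (t : OnePoint (V.eta p).tot) ∉ Set.range (app (V.eta p).zeroHom) := by
  rw [range_lensJ hV hp]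
  exact (not_congr ((V.eta p).mem_range_zeroHom t)).symm

/-- Exactness for the zero section of `eta`, with an arbitrary factor `Z`. -/
theorem eta_exact (hV : V.IsRank 1) (hp : p ≠ 0) [E.Good (LC.of (V.Lens p))]
    [E.Good (V.eta p).tot] [hD : E.Good (LC.of V.Sph ⊗ CxLC)] (Z : LC) [E.Good Z]
    (w : E.U ((V.eta p).tot ⊗ Z)) (hw : E.map ((V.eta p).zeroHom ▷ Z) w = 0) :
    ∃ o : E.U ((LC.of V.Sph ⊗ CxLC) ⊗ Z), E.map (lensColl hV hp ▷ Z) o = w := by
  haveI : E.Good (cof (V.eta p).zeroHom) := MultTheory.Good.of_iso E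
    (cofOfOpen (T := (V.eta p).tot) (U := LC.of (V.Sph × Cx)) (V.eta p).zeroHom (lensJ p)
      (isOpenEmbedding_lensJ hV hp) (mem_range_lensJ_iff hV hp))
  haveI : E.Good (cof ((V.eta p).zeroHom ▷ Z)) :=
    MultTheory.Good.of_iso E (cofWhiskerRight (V.eta p).zeroHom Z).symm
  obtain ⟨o, ho⟩ := MultTheory.exact ((V.eta p).zeroHom ▷ Z)
    ((V.eta p).cofib_zeroHom.whiskerRight Z) w hw
  refine ⟨E.map ((cofOfOpen (T := (V.eta p).tot) (U := LC.of (V.Sph × Cx)) (V.eta p).zeroHom
    (lensJ p) (isOpenEmbedding_lensJ hV hp) (mem_range_lensJ_iff hV hp)).hom ▷ Z)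
      (E.map (cofWhiskerRight (V.eta p).zeroHom Z).inv o), ?_⟩
  have h1 : lensColl hV hp ≫ (cofOfOpen (T := (V.eta p).tot) (U := LC.of (V.Sph × Cx))
      (V.eta p).zeroHom (lensJ p) (isOpenEmbedding_lensJ hV hp)
      (mem_range_lensJ_iff hV hp)).hom = cofMap (V.eta p).zeroHom :=
    ofOpen_cofOfOpen (T := (V.eta p).tot) (U := LC.of (V.Sph × Cx)) (V.eta p).zeroHom (lensJ p)
      (isOpenEmbedding_lensJ hV hp) (mem_range_lensJ_iff hV hp)
  have h2 : lensColl hV hp ▷ Z ≫ (cofOfOpen (T := (V.eta p).tot) (U := LC.of (V.Sph × Cx))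
      (V.eta p).zeroHom (lensJ p) (isOpenEmbedding_lensJ hV hp)
      (mem_range_lensJ_iff hV hp)).hom ▷ Z = cofMap (V.eta p).zeroHom ▷ Z := by
    rw [← MonoidalCategory.comp_whiskerRight, h1]
  have h3 : cofMap (V.eta p).zeroHom ▷ Z ≫ (cofWhiskerRight (V.eta p).zeroHom Z).inv =
      cofMap ((V.eta p).zeroHom ▷ Z) := by
    rw [Iso.comp_inv_eq, cofMap_cofWhiskerRight]
  rw [← MultTheory.map_comp, ← MultTheory.map_comp]
  rw [← ho, ← h3, ← h2]

end exactness

/-! ### The lens lemma -/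

section lens

variable {X X' : Type} [TopologicalSpace X] [T2Space X] [CompactSpace X] [TopologicalSpace X']
  [T2Space X'] [CompactSpace X'] {ι κ : Type} [Fintype ι] [Fintype κ] [DecidableEq κ]
  {V : Bun X ι} {V' : Bun X' κ} {p : ℕ} {E : MultTheory.{v}} (o : Orientation E)

/-- `θ^* t_{V^{⊗p}}` is a multiple of the Thom class of `V`. -/
theorem exists_theta (hV : V.IsRank 1) (hp : p ≠ 0) [E.Good (LC.of X)] [E.Good V.tot]
    [E.Good (V.tpow p).tot] :
    ∃ g ∈ E.deg (LC.of X) 0,
      E.map (thetaHom V hp) (o.thomCl (B := LC.of X) (V.tpow p) (hV.tpow_one p)) =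
        E.act (tcb (Z := LC.of X) V) g (o.thomCl (B := LC.of X) V hV) := by
  obtain ⟨g, hg⟩ := (act_thomCl_bijective o (B := LC.of X) V hV).2
    (E.map (thetaHom V hp) (o.thomCl (B := LC.of X) (V.tpow p) (hV.tpow_one p)))
  have hg' : E.act (tcb (Z := LC.of X) V) g (o.thomCl (B := LC.of X) V hV) =
    E.map (thetaHom V hp) (o.thomCl (B := LC.of X) (V.tpow p) (hV.tpow_one p)) := hg
  refine ⟨E.proj (LC.of X) 0 g, proj_mem _ _, ?_⟩
  -- the homogeneous component of degree one
  have hd : ∀ k, ∀ x ∈ E.deg (LC.of X) k,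
      (AddMonoidHom.flip (E.act (tcb (Z := LC.of X) V)) (o.thomCl (B := LC.of X) V hV)) x ∈
        E.deg V.tot (k + 1) := by
    intro k x hx
    have := act_deg (tcb (Z := LC.of X) V) hx (thomCl_deg o (B := LC.of X) V hV)
    exact_mod_cast this
  have h1 := map_proj_of_deg hd 0 g
  rw [zero_add] at h1
  have h2 : E.map (thetaHom V hp) (o.thomCl (B := LC.of X) (V.tpow p) (hV.tpow_one p)) ∈
      E.deg V.tot 1 := by
    have := map_deg (thetaHom V hp) (thomCl_deg o (B := LC.of X) (V.tpow p) (hV.tpow_one p))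
    exact_mod_cast this
  have h3 : (AddMonoidHom.flip (E.act (tcb (Z := LC.of X) V)) (o.thomCl (B := LC.of X) V hV)) g =
      E.map (thetaHom V hp) (o.thomCl (B := LC.of X) (V.tpow p) (hV.tpow_one p)) := hg'
  rw [h3, proj_of_mem h2] at h1
  exact h1

/-- the Euler class of the tensor power is a multiple of the Euler class -/
theorem eul_tpow_eq (hV : V.IsRank 1) (hp : p ≠ 0) [E.Good (LC.of X)] [E.Good V.tot]
    [E.Good (V.tpow p).tot] {g : E.U (LC.of X)}
    (hg : E.map (thetaHom V hp) (o.thomCl (B := LC.of X) (V.tpow p) (hV.tpow_one p)) =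
        E.act (tcb (Z := LC.of X) V) g (o.thomCl (B := LC.of X) V hV)) :
    o.eul (B := LC.of X) (V.tpow p) (hV.tpow_one p) = g * o.eul (B := LC.of X) V hV := by
  rw [Orientation.eul, Orientation.eul, ← map_zeroHom_act, ← hg, ← MultTheory.map_comp,
    zeroHom_thetaHom]

/-- the projection of the lens space -/
abbrev lensPr (V : Bun X ι) (p : ℕ) : C(LC.of (V.Lens p), LC.of X) := V.lensBase p

/-- `etaToHom` and the Thom classes -/
theorem map_etaToHom (hV : V.IsRank 1) [E.Good (LC.of X)] [E.Good V.tot]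
    [E.Good (LC.of (V.Lens p))] [E.Good (V.eta p).tot] (g : E.U (LC.of X)) :
    E.map (etaToHom V p) (E.act (tcb (Z := LC.of X) V) g (o.thomCl (B := LC.of X) V hV)) =
      E.act (tcb (Z := LC.of (V.Lens p)) (V.eta p)) (E.map (cmap (lensPr V p)) g)
        (o.thomCl (B := LC.of (V.Lens p)) (V.eta p) (hV.eta p)) := by
  haveI := o.goodTh
  have h1 : E.map (etaToHom V p) (o.thomCl (B := LC.of X) V hV) =
      o.thomCl (B := LC.of (V.Lens p)) (V.eta p) (hV.eta p) := by
    rw [Orientation.thomCl, Orientation.thomCl, ← MultTheory.map_comp]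
    exact congrArg (fun k => E.map k _) (hom_ext fun _ => rfl)
  rw [← h1]
  rw [act_map (tcb (Z := LC.of (V.Lens p)) (V.eta p)) (cmap (lensPr V p))
    (⟨fun e : (V.eta p).E => Sph.base (base e), Sph.continuous_base.comp continuous_base⟩ :
      C((V.eta p).tot, LC.of X)) (fun _ => rfl)]
  refine map_act _ _ _ ?_ _ _
  intro e e' h
  have h' := OnePoint.coe_injective h
  rw [← h']
  rfl

/-- **The lens lemma** for an isometric map of line bundles which is homotopic to a constant on
the sphere bundles. -/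
theorem lens_step (φ : IsoMap V' V) (hV' : V'.IsRank 1) (hV : V.IsRank 1) (hp : p ≠ 0)
    [E.Good (LC.of X)] [E.Good V.tot] [E.Good (V.tpow p).tot] [E.Good (LC.of (V.Lens p))]
    [E.Good (V.eta p).tot] [E.Good (LC.of V.Sph ⊗ CxLC)]
    [E.Good (LC.of X')] [E.Good V'.tot] [E.Good (V'.tpow p).tot] [E.Good (LC.of (V'.Lens p))]
    [E.Good (V'.eta p).tot] {s : V.Sph}
    (H : Homotopic φ.sphHom (ofCompact (X := LC.of V'.Sph) (Y := LC.of V.Sph)
      (fun _ => s) continuous_const))
    {g : E.U (LC.of X')} (hg0 : g ∈ E.deg (LC.of X') 0)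
    (hg : E.map (thetaHom V' hp) (o.thomCl (B := LC.of X') (V'.tpow p) (hV'.tpow_one p)) =
        E.act (tcb (Z := LC.of X') V') g (o.thomCl (B := LC.of X') V' hV'))
    (Z : LC) [E.Good Z] {k : ℤ} {y : E.U (LC.of (V.Lens p) ⊗ Z)}
    (hyk : y ∈ E.deg (LC.of (V.Lens p) ⊗ Z) k)
    (hy : E.act (fstC (LC.of (V.Lens p)) Z)
      (o.eul (B := LC.of (V.Lens p)) (V.eta p) (hV.eta p)) y = 0) :
    ∃ x ∈ E.deg Z k, E.map (cmap (X := LC.of (V'.Lens p)) (Y := LC.of (V.Lens p)) (φ.lens p) ▷ Z) y =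
      E.cross (E.map (cmap (lensPr V' p)) g) x := by
  have hcomp := thomCl_isoMap o (B := LC.of (V.Lens p)) (B' := LC.of (V'.Lens p)) (φ.eta p)
    (hV'.eta p) (hV.eta p)
  refine lens_abs_deg (B := LC.of (V.Lens p)) (B' := LC.of (V'.Lens p)) (T := (V.eta p).tot)
    (T' := (V'.eta p).tot) (D := LC.of V.Sph ⊗ CxLC) (Z := Z)
    (tcb (Z := LC.of (V.Lens p)) (V.eta p)) (tcb (Z := LC.of (V'.Lens p)) (V'.eta p))
    (V.eta p).zeroHom (fun b e h => zeroHom_section (B := LC.of (V.Lens p)) (V.eta p) b e h)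
    (lensColl hV hp) (fun w hw => eta_exact hV hp Z w hw) (φ.eta p).hom
    (cmap (X := LC.of (V'.Lens p)) (Y := LC.of (V.Lens p)) (φ.lens p))
    (isoMap_graph (B := LC.of (V.Lens p)) (B' := LC.of (V'.Lens p)) (φ.eta p)) hcomp
    (lensQHom hV' hp) (cxColl ≫ ptHom s CxLC) (φ.lens_homotopic hV' hV hp H)
    (map_deg _ hg0) ?_ (thom_bijective o (B := LC.of (V'.Lens p)) (V'.eta p) (hV'.eta p) Z).1
    hyk hy
  rw [map_lensQHom o hV' hp, hg, map_etaToHom o hV']

end lens

end Vale.Agent.P251.Q
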