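import Mathlib.RingTheory.MvPolynomial.Symmetric.FundamentalTheorem
import Mathlib.RingTheory.Adjoin.Polynomial.Basic
import Mathlib.Tactic

/-!
# P251, part Q: symmetric functions (task Q4)

The algebra behind `e(rhobar ⊗ gamma) = w ^ M + ∑ c_j(v) g_j`.
-/

open Finset

namespace Vale.Agent.P251.Q

section symm

variable {R S : Type*} [CommRing R] [CommRing S] [Algebra R S]

/-- A product `∏ h(x a)` is a polynomial in the elementary symmetric functions of the `x a`, with
constant term `h(0) ^ M`. -/
theorem exists_prod_aeval_eq {σ : Type*} [Fintype σ] [DecidableEq σ] {M : ℕ}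
    (hM : Fintype.card σ = M) (h : Polynomial R) :
    ∃ Q : MvPolynomial (Fin M) R, MvPolynomial.constantCoeff Q = h.coeff 0 ^ M ∧
      ∀ x : σ → S, ∏ a, Polynomial.aeval (x a) h =
        MvPolynomial.aeval (fun i : Fin M =>
          MvPolynomial.aeval x (MvPolynomial.esymm σ R (i + 1))) Q := by
  classical
  let P : MvPolynomial σ R := ∏ a, Polynomial.aeval (MvPolynomial.X a) h
  have hP : P.IsSymmetric := by
    intro e
    simp only [P, map_prod]
    refine Fintype.prod_equiv e _ _ fun a => ?_
    rw [← Polynomial.aeval_algHom_apply, MvPolynomial.rename_X]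
  obtain ⟨Q, hQ⟩ := MvPolynomial.esymmAlgHom_surjective (σ := σ) (n := M) R hM.le
    ⟨P, hP⟩
  have hQ' : MvPolynomial.aeval (fun i : Fin M => MvPolynomial.esymm σ R (i + 1)) Q = P := by
    rw [← MvPolynomial.esymmAlgHom_apply, hQ]
  refine ⟨Q, ?_, ?_⟩
  · have h1 : MvPolynomial.constantCoeff P = h.coeff 0 ^ M := by
      simp only [P, map_prod]
      have : ∀ a : σ, MvPolynomial.constantCoeff (Polynomial.aeval (MvPolynomial.X a) h :
          MvPolynomial σ R) = h.coeff 0 := by
        intro a
        rw [Polynomial.aeval_def, Polynomial.hom_eval₂, MvPolynomial.algebraMap_eq,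
          MvPolynomial.constantCoeff_comp_C, MvPolynomial.constantCoeff_X]
        simp [Polynomial.coeff_zero_eq_eval_zero]
      rw [prod_congr rfl fun a _ => this a, prod_const, card_univ, hM]
    rw [← h1, ← hQ']
    have h2 : ∀ Q : MvPolynomial (Fin M) R, MvPolynomial.constantCoeff (MvPolynomial.aeval
        (fun i : Fin M => MvPolynomial.esymm σ R (i + 1)) Q) = MvPolynomial.constantCoeff Q := by
      intro Q
      induction Q using MvPolynomial.induction_on with
      | C a => simp
      | add p q hp hq => simp only [map_add, hp, hq]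
      | mul_X p i hp =>
        rw [map_mul, map_mul, MvPolynomial.aeval_X, map_mul, MvPolynomial.constantCoeff_X,
          mul_zero]
        have : MvPolynomial.constantCoeff (MvPolynomial.esymm σ R ((i : ℕ) + 1)) = 0 := by
          rw [MvPolynomial.esymm, map_sum]
          refine sum_eq_zero fun t ht => ?_
          rw [map_prod]
          rw [mem_powersetCard] at ht
          obtain ⟨a, ha⟩ : t.Nonempty := by
            rw [← card_pos, ht.2]; omega
          exact prod_eq_zero ha (MvPolynomial.constantCoeff_X _ a)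
        rw [this, mul_zero]
    rw [h2]
  · intro x
    have h3 : MvPolynomial.aeval x P = ∏ a, Polynomial.aeval (x a) h := by
      simp only [P, map_prod]
      refine prod_congr rfl fun a _ => ?_
      rw [← Polynomial.aeval_algHom_apply, MvPolynomial.aeval_X]
    rw [← h3, ← hQ']
    have : (MvPolynomial.aeval x).comp (MvPolynomial.aeval
        (fun i : Fin M => MvPolynomial.esymm σ R ((i : ℕ) + 1))) =
        (MvPolynomial.aeval (fun i : Fin M =>
          MvPolynomial.aeval x (MvPolynomial.esymm σ R (i + 1))) :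
          MvPolynomial (Fin M) R →ₐ[R] S) := by
      apply MvPolynomial.algHom_ext
      intro i
      simp
    rw [← this]
    rfl

/-- The value at `(x, y)` of a power series in two variables with coefficients `f k l`, all
exponents `≥ n` being dropped (used for `x ^ n = 0`, `y ^ n = 0`). -/
def val₂ {C S : Type*} [CommRing C] [CommRing S] [Algebra C S] (n : ℕ) (f : ℕ → ℕ → C)
    (x y : S) : S :=
  ∑ k ∈ range n, ∑ l ∈ range n, f k l • (x ^ k * y ^ l)

theorem map_val₂ {C S S' : Type*} [CommRing C] [CommRing S] [CommRing S'] [Algebra C S]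
    [Algebra C S'] (φ : S →ₐ[C] S') (n : ℕ) (f : ℕ → ℕ → C) (x y : S) :
    φ (val₂ n f x y) = val₂ n f (φ x) (φ y) := by
  simp only [val₂, map_sum, map_smul, map_mul, map_pow]

/-- Symmetric function lemma, form used for the Euler class of `rhobar ⊗ gamma`:
`u i` (`i ∈ ι`) are the Euler classes `[i](v)` of the summands of `rhobar`, `x a` the Chern roots
of `gamma`, `f` the formal group law and `c i` the Chern classes.  `D` is the ring `C[v]`. -/
theorem exists_prod_val₂_eq {C D S : Type*} [CommRing C] [CommRing D] [CommRing S] [Algebra C D]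
    [Algebra D S] [Algebra C S] [IsScalarTower C D S] {ι σ : Type*} [Fintype ι] [Fintype σ]
    [DecidableEq σ] {M : ℕ} (hM : Fintype.card σ = M) {n : ℕ} (hn : 2 ≤ n) (f : ℕ → ℕ → C)
    (hf1 : f 1 0 = 1) (hf : ∀ k, k ≠ 1 → f k 0 = 0) (u : ι → D) :
    ∃ Q : MvPolynomial (Fin M) D, MvPolynomial.constantCoeff Q = (∏ i, u i) ^ M ∧
      ∀ x : σ → S, ∏ i, ∏ a, val₂ n f (algebraMap D S (u i)) (x a) =
        MvPolynomial.aeval (fun i : Fin M =>
          MvPolynomial.aeval x (MvPolynomial.esymm σ D (i + 1))) Q := by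
  classical
  let g : ι → Polynomial D := fun i =>
    ∑ l ∈ range n, Polynomial.C (∑ k ∈ range n, f k l • u i ^ k) * Polynomial.X ^ l
  have hg0 : ∀ i, (g i).coeff 0 = u i := by
    intro i
    simp only [g, Polynomial.finsetSum_coeff, Polynomial.coeff_C_mul, Polynomial.coeff_X_pow]
    rw [sum_eq_single 0]
    · rw [if_pos rfl, mul_one, sum_eq_single 1]
      · rw [hf1, one_smul, pow_one]
      · intro k _ hk
        rw [hf k hk, zero_smul]
      · intro h
        exact absurd (mem_range.2 (by omega)) h
    · intro l _ hl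
      rw [if_neg (Ne.symm hl), mul_zero]
    · intro h
      exact absurd (mem_range.2 (by omega)) h
  have hg : ∀ i (y : S), Polynomial.aeval y (g i) = val₂ n f (algebraMap D S (u i)) y := by
    intro i y
    simp only [g, val₂, map_sum, map_mul, Polynomial.aeval_C, map_pow, Polynomial.aeval_X]
    rw [sum_comm]
    refine sum_congr rfl fun k _ => ?_
    rw [sum_mul]
    refine sum_congr rfl fun l _ => ?_
    rw [Algebra.smul_def, Algebra.smul_def, map_mul, map_pow,
      ← IsScalarTower.algebraMap_apply C D S, mul_assoc]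
  obtain ⟨Q, h1, h2⟩ := exists_prod_aeval_eq (S := S) hM (∏ i, g i)
  refine ⟨Q, ?_, fun x => ?_⟩
  · rw [h1, Polynomial.coeff_zero_prod]
    rw [prod_congr rfl fun i _ => hg0 i]
  · rw [← h2, prod_comm]
    refine prod_congr rfl fun a _ => ?_
    rw [map_prod]
    exact prod_congr rfl fun i _ => (hg i _).symm

/-- Final form of the symmetric function lemma: the product of all `F(u i (v), x a)` is
`(∏ u i (v)) ^ M` plus a sum of terms `q t (v) * ∏ c i ^ (t i)`, `t ≠ 0`, `c i` being the elementary
symmetric function of degree `i + 1` of the `x a`. -/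
theorem exists_prod_val₂_eq_sum {C S : Type*} [CommRing C] [CommRing S]
    [Algebra C S] {ι σ : Type*} [Fintype ι] [Fintype σ]
    {M : ℕ} (hM : Fintype.card σ = M) {n : ℕ} (hn : 2 ≤ n) (f : ℕ → ℕ → C)
    (hf1 : f 1 0 = 1) (hf : ∀ k, k ≠ 1 → f k 0 = 0) (u : ι → Polynomial C) :
    ∃ (s : Finset (Fin M →₀ ℕ)) (q : (Fin M →₀ ℕ) → Polynomial C), 0 ∉ s ∧
      ∀ (v : S) (x : σ → S), ∏ i, ∏ a, val₂ n f (Polynomial.aeval v (u i)) (x a) =
        (∏ i, Polynomial.aeval v (u i)) ^ M +
        ∑ t ∈ s, Polynomial.aeval v (q t) *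
          ∏ i : Fin M, (MvPolynomial.aeval x (MvPolynomial.esymm σ C (i + 1))) ^ t i := by
  classical
  obtain ⟨Q, h1, h2⟩ := exists_prod_val₂_eq (C := C) (D := Polynomial C)
    (S := MvPolynomial σ (Polynomial C)) hM hn f hf1 hf u
  refine ⟨Q.support.erase 0, fun t => MvPolynomial.coeff t Q, by simp, fun v x => ?_⟩
  let φ : MvPolynomial σ (Polynomial C) →ₐ[C] S :=
    { MvPolynomial.eval₂Hom (Polynomial.aeval v : Polynomial C →ₐ[C] S).toRingHom x with
      commutes' := fun r => by
        change MvPolynomial.eval₂Hom (Polynomial.aeval v : Polynomial C →ₐ[C] S).toRingHom x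
          (algebraMap C (MvPolynomial σ (Polynomial C)) r) = _
        rw [IsScalarTower.algebraMap_apply C (Polynomial C) (MvPolynomial σ (Polynomial C)),
          MvPolynomial.algebraMap_eq, MvPolynomial.eval₂Hom_C]
        simp }
  have hφX : ∀ a, φ (MvPolynomial.X a) = x a := fun a => MvPolynomial.eval₂Hom_X' _ _ a
  have hφC : ∀ d, φ (MvPolynomial.C d) = Polynomial.aeval v d := fun d =>
    MvPolynomial.eval₂Hom_C _ _ d
  have h3 := congrArg φ (h2 MvPolynomial.X)
  simp only [map_prod, map_val₂, hφX, MvPolynomial.algebraMap_eq, hφC] at h3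
  rw [h3]
  have h4 : ∀ i : ℕ, φ (MvPolynomial.aeval MvPolynomial.X
      (MvPolynomial.esymm σ (Polynomial C) (i + 1))) =
      MvPolynomial.aeval x (MvPolynomial.esymm σ C (i + 1)) := by
    intro i
    simp only [MvPolynomial.esymm, map_sum, map_prod, MvPolynomial.aeval_X, hφX]
  rw [MvPolynomial.aeval_def, MvPolynomial.eval₂_eq, map_sum]
  have h5 : ∀ t : Fin M →₀ ℕ, φ (algebraMap (Polynomial C) (MvPolynomial σ (Polynomial C))
      (MvPolynomial.coeff t Q) * ∏ i ∈ t.support, (MvPolynomial.aeval MvPolynomial.X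
        (MvPolynomial.esymm σ (Polynomial C) ((i : ℕ) + 1))) ^ t i) =
      Polynomial.aeval v (MvPolynomial.coeff t Q) *
        ∏ i : Fin M, (MvPolynomial.aeval x (MvPolynomial.esymm σ C ((i : ℕ) + 1))) ^ t i := by
    intro t
    rw [map_mul, map_prod, MvPolynomial.algebraMap_eq, hφC]
    congr 1
    simp only [map_pow, h4]
    refine prod_subset (subset_univ _) fun i _ hi => ?_
    rw [Finsupp.notMem_support_iff.1 hi, pow_zero]
  rw [sum_congr rfl fun t _ => h5 t]
  by_cases h0 : (0 : Fin M →₀ ℕ) ∈ Q.support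
  · rw [← add_sum_erase _ _ h0]
    congr 1
    rw [← MvPolynomial.constantCoeff_eq, h1]
    simp
  · rw [erase_eq_of_notMem h0]
    have h6 : (∏ i, Polynomial.aeval v (u i)) ^ M = 0 := by
      rw [← map_prod, ← map_pow, ← h1, MvPolynomial.constantCoeff_eq,
        MvPolynomial.notMem_support_iff.1 h0, map_zero]
    rw [h6, zero_add]

end symm

end Vale.Agent.P251.Q
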