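import Mathlib.RingTheory.FormalGroup.Basic
import Mathlib.Tactic
import Vale.Agent.P251.Q.Symm

/-!
# P251, part Q: evaluation of power series at nilpotent elements; formal group laws (task Q1b)

* `nev a F` : the value of the power series `F` (any number of variables) at the nilpotent elements
  `a s` of an algebra; `nevHom` (algebra homomorphism), `nev_subst` (compatibility with
  substitution), `map_nev`, `nev_eq_sum` (finite sum), `nev_eq_val₂`.
* `coeff_eq_of_nev_eq` : detection of coefficients.
* `ser f` : the power series in two variables with coefficients `f k l`;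
  `exists_formalGroup` : formal group law from associativity at nilpotent elements.
-/

open Finset

namespace Vale.Agent.P251.Q

open MvPowerSeries

section nev

variable {σ τ : Type*} {A S S' : Type*} [CommRing A] [CommRing S] [Algebra A S] [CommRing S']
  [Algebra A S']

/-- The family of constant power series with values `a s`. -/
noncomputable def cst (a : σ → S) (s : σ) : MvPowerSeries Empty S := C (a s)

theorem hasSubst_cst [Finite σ] {a : σ → S} (ha : ∀ s, IsNilpotent (a s)) : HasSubst (cst a) :=
  hasSubst_of_constantCoeff_nilpotent (fun s => by simpa [cst] using ha s)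

theorem eq_C_constantCoeff (f : MvPowerSeries Empty S) : f = C (constantCoeff f) := by
  ext d
  have hd : d = 0 := Subsingleton.elim _ _
  subst hd
  simp

/-- The value of a power series at nilpotent elements. -/
noncomputable def nev (a : σ → S) (F : MvPowerSeries σ A) : S :=
  constantCoeff (subst (cst a) F)

/-- The value of power series at nilpotent elements, as an algebra homomorphism. -/
noncomputable def nevHom [Finite σ] {a : σ → S} (ha : ∀ s, IsNilpotent (a s)) :
    MvPowerSeries σ A →ₐ[A] S where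
  toRingHom := (constantCoeff (σ := Empty) (R := S)).comp
    (substAlgHom (R := A) (hasSubst_cst ha)).toRingHom
  commutes' r := by
    change constantCoeff (substAlgHom (R := A) (hasSubst_cst ha) (algebraMap A _ r)) = _
    rw [AlgHom.commutes]
    rw [MvPowerSeries.algebraMap_apply, constantCoeff_C]

theorem nevHom_apply [Finite σ] {a : σ → S} (ha : ∀ s, IsNilpotent (a s))
    (F : MvPowerSeries σ A) : nevHom ha F = nev a F := by
  change constantCoeff (substAlgHom (R := A) (hasSubst_cst ha) F) = _
  rw [substAlgHom_apply]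
  rfl

section ring

variable [Finite σ] {a : σ → S} (ha : ∀ s, IsNilpotent (a s))
include ha

theorem nev_add (F G : MvPowerSeries σ A) : nev a (F + G) = nev a F + nev a G := by
  simp only [← nevHom_apply ha, map_add]

theorem nev_sub (F G : MvPowerSeries σ A) : nev a (F - G) = nev a F - nev a G := by
  simp only [← nevHom_apply ha, map_sub]

theorem nev_mul (F G : MvPowerSeries σ A) : nev a (F * G) = nev a F * nev a G := by
  simp only [← nevHom_apply ha, map_mul]

theorem nev_pow (F : MvPowerSeries σ A) (n : ℕ) : nev a (F ^ n) = nev a F ^ n := by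
  simp only [← nevHom_apply ha, map_pow]

theorem nev_smul (r : A) (F : MvPowerSeries σ A) : nev a (r • F) = r • nev a F := by
  simp only [← nevHom_apply ha, map_smul]

theorem nev_zero : nev a (0 : MvPowerSeries σ A) = 0 := by
  simp only [← nevHom_apply ha, map_zero]

theorem nev_one : nev a (1 : MvPowerSeries σ A) = 1 := by
  simp only [← nevHom_apply ha, map_one]

theorem nev_X (s : σ) : nev a (X s : MvPowerSeries σ A) = a s := by
  unfold nev
  rw [subst_X (hasSubst_cst ha)]
  simp [cst]

theorem nev_C (r : A) : nev a (C r : MvPowerSeries σ A) = algebraMap A S r := by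
  rw [← nevHom_apply ha]
  exact AlgHom.commutes _ _

/-- compatibility with substitution -/
theorem nev_subst {τ' : Type*} {b : τ' → MvPowerSeries σ A}
    (hb : HasSubst b) (F : MvPowerSeries τ' A) :
    nev a (subst b F) = nev (fun s => nev a (b s)) F := by
  unfold nev
  rw [subst_comp_subst_apply hb (hasSubst_cst ha)]
  congr 2
  funext s
  exact eq_C_constantCoeff _

/-- the value is a finite sum -/
theorem nev_eq_finsum (F : MvPowerSeries σ A) :
    nev a F = ∑ᶠ d : σ →₀ ℕ, coeff d F • d.prod fun s e => a s ^ e := by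
  unfold nev
  rw [constantCoeff_subst (hasSubst_cst ha)]
  congr 1
  funext d
  congr 1
  rw [map_finsuppProd]
  simp [cst]

end ring

theorem nev_eq_sum [Fintype σ] [DecidableEq σ] {a : σ → S} {n : ℕ} (hn : ∀ s, a s ^ n = 0)
    (F : MvPowerSeries σ A) :
    nev a F = ∑ g ∈ Fintype.piFinset (fun _ : σ => range n),
      coeff (Finsupp.equivFunOnFinite.symm g) F • ∏ s, a s ^ g s := by
  have ha : ∀ s, IsNilpotent (a s) := fun s => ⟨n, hn s⟩
  rw [nev_eq_finsum ha]
  have hprod : ∀ d : σ →₀ ℕ, (d.prod fun s e => a s ^ e) = ∏ s, a s ^ d s := by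
    intro d
    exact Finsupp.prod_fintype _ _ (fun s => pow_zero _)
  have hsupp : (Function.support fun d : σ →₀ ℕ => coeff d F • d.prod fun s e => a s ^ e) ⊆
      ((Fintype.piFinset (fun _ : σ => range n)).map
        (Finsupp.equivFunOnFinite (α := σ) (M := ℕ)).symm.toEmbedding : Finset (σ →₀ ℕ)) := by
    intro d hd
    rw [Finset.coe_map, Set.mem_image]
    refine ⟨Finsupp.equivFunOnFinite d, ?_, by simp⟩
    rw [Finset.mem_coe, Fintype.mem_piFinset]
    intro s
    rw [mem_range]
    by_contra hs
    push Not at hs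
    apply hd
    simp only
    rw [hprod]
    have : a s ^ d s = 0 := by
      obtain ⟨k, hk⟩ := Nat.exists_eq_add_of_le hs
      have hk' : d s = n + k := hk
      rw [hk', pow_add, hn, zero_mul]
    rw [Finset.prod_eq_zero (mem_univ s) this, smul_zero]
  rw [finsum_eq_sum_of_support_subset _ hsupp, Finset.sum_map]
  refine Finset.sum_congr rfl fun g _ => ?_
  simp only [Equiv.coe_toEmbedding]
  rw [hprod]
  rfl

theorem map_nev [Finite σ] (φ : S →ₐ[A] S') {a : σ → S} (ha : ∀ s, IsNilpotent (a s))
    (F : MvPowerSeries σ A) : φ (nev a F) = nev (fun s => φ (a s)) F := by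
  classical
  have := Fintype.ofFinite σ
  choose m hm using ha
  obtain ⟨n, hn⟩ : ∃ n, ∀ s, a s ^ n = 0 := by
    refine ⟨∑ s, m s, fun s => ?_⟩
    obtain ⟨k, hk⟩ := Nat.exists_eq_add_of_le (Finset.single_le_sum
      (f := m) (fun i _ => Nat.zero_le _) (mem_univ s))
    rw [hk, pow_add, hm, zero_mul]
  have hn' : ∀ s, φ (a s) ^ n = 0 := fun s => by rw [← map_pow, hn, map_zero]
  rw [nev_eq_sum hn, nev_eq_sum (a := fun s => φ (a s)) hn', map_sum]
  refine Finset.sum_congr rfl fun g _ => ?_
  rw [map_smul, map_prod]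
  simp only [map_pow]

/-- nilpotence of values -/
theorem isNilpotent_nev [Finite σ] {a : σ → S} (ha : ∀ s, IsNilpotent (a s))
    {F : MvPowerSeries σ A} (hF : constantCoeff F = 0) : IsNilpotent (nev a F) := by
  classical
  have := Fintype.ofFinite σ
  choose m hm using ha
  obtain ⟨n, hn⟩ : ∃ n, ∀ s, a s ^ n = 0 := by
    refine ⟨∑ s, m s, fun s => ?_⟩
    obtain ⟨k, hk⟩ := Nat.exists_eq_add_of_le (Finset.single_le_sum
      (f := m) (fun i _ => Nat.zero_le _) (mem_univ s))
    rw [hk, pow_add, hm, zero_mul]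
  rw [nev_eq_sum hn, ← mem_nilradical]
  refine sum_mem fun g _ => ?_
  by_cases hg : g = 0
  · subst hg
    have : (Finsupp.equivFunOnFinite.symm (0 : σ → ℕ)) = 0 := by ext; simp
    rw [this, coeff_zero_eq_constantCoeff_apply, hF, zero_smul]
    exact zero_mem _
  · obtain ⟨s, hs⟩ := Function.ne_iff.mp hg
    rw [Algebra.smul_def]
    refine Ideal.mul_mem_left _ _ ?_
    rw [← Finset.mul_prod_erase _ _ (mem_univ s)]
    refine Ideal.mul_mem_right _ _ ?_
    have hs' : g s ≠ 0 := hs
    exact Ideal.pow_mem_of_mem _ (mem_nilradical.mpr ⟨n, hn s⟩) _ (Nat.pos_of_ne_zero hs')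

/-- detection of coefficients -/
theorem coeff_eq_of_nev_eq [Fintype σ] [DecidableEq σ] {a : σ → S} {n : ℕ}
    (hn : ∀ s, a s ^ n = 0)
    (hli : LinearIndependent A (fun g : σ → Fin n => ∏ s, a s ^ (g s : ℕ)))
    {F G : MvPowerSeries σ A} (h : nev a F = nev a G) {d : σ →₀ ℕ} (hd : ∀ s, d s < n) :
    coeff d F = coeff d G := by
  rw [nev_eq_sum hn, nev_eq_sum hn, ← sub_eq_zero, ← Finset.sum_sub_distrib] at h
  have h1 : ∀ H : MvPowerSeries σ A, ∀ H' : MvPowerSeries σ A,
      ∑ g ∈ Fintype.piFinset (fun _ : σ => range n),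
        (coeff (Finsupp.equivFunOnFinite.symm g) H • ∏ s, a s ^ g s -
          coeff (Finsupp.equivFunOnFinite.symm g) H' • ∏ s, a s ^ g s) =
      ∑ g : σ → Fin n, (coeff (Finsupp.equivFunOnFinite.symm fun s => (g s : ℕ)) H -
        coeff (Finsupp.equivFunOnFinite.symm fun s => (g s : ℕ)) H') • ∏ s, a s ^ (g s : ℕ) := by
    intro H H'
    symm
    refine Finset.sum_bij (fun (g : σ → Fin n) _ => fun s => (g s : ℕ)) ?_ ?_ ?_ ?_
    · intro g _
      rw [Fintype.mem_piFinset]
      exact fun s => mem_range.mpr (g s).2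
    · intro g _ g' _ hgg
      funext s
      exact Fin.ext (congrFun hgg s)
    · intro g hg
      rw [Fintype.mem_piFinset] at hg
      exact ⟨fun s => ⟨g s, mem_range.mp (hg s)⟩, mem_univ _, rfl⟩
    · intro g _
      rw [sub_smul]
  rw [h1] at h
  have h2 := Fintype.linearIndependent_iff.mp hli _ h (fun s => ⟨d s, hd s⟩)
  have h3 : (Finsupp.equivFunOnFinite.symm fun s => d s) = d := by ext; simp
  rw [h3] at h2
  exact sub_eq_zero.mp h2

end nev

section two

variable {A S : Type*} [CommRing A] [CommRing S] [Algebra A S]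

/-- the power series in two variables with coefficients `f k l` -/
def ser (f : ℕ → ℕ → A) : MvPowerSeries (Fin 2) A := fun d => f (d 0) (d 1)

@[simp] theorem coeff_ser (f : ℕ → ℕ → A) (d : Fin 2 →₀ ℕ) :
    coeff d (ser f) = f (d 0) (d 1) := rfl

theorem nev_eq_val₂ {x y : S} {n : ℕ} (hx : x ^ n = 0) (hy : y ^ n = 0) (f : ℕ → ℕ → A) :
    nev ![x, y] (ser f) = val₂ n f x y := by
  have hn : ∀ s, ![x, y] s ^ n = 0 := by
    intro s
    fin_cases s
    · exact hx
    · exact hy
  rw [nev_eq_sum hn, val₂, ← Finset.sum_product']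
  refine Finset.sum_bij' (fun g _ => (g 0, g 1)) (fun q _ => ![q.1, q.2]) ?_ ?_ ?_ ?_ ?_
  · intro g hg
    rw [Fintype.mem_piFinset] at hg
    exact mem_product.mpr ⟨hg 0, hg 1⟩
  · intro q hq
    rw [mem_product] at hq
    rw [Fintype.mem_piFinset]
    intro s
    fin_cases s
    · exact hq.1
    · exact hq.2
  · intro g _
    ext s
    fin_cases s <;> rfl
  · intro q _
    rfl
  · intro g _
    simp [Fin.prod_univ_two]

theorem isNilpotent_pair {x y : S} (hx : IsNilpotent x) (hy : IsNilpotent y) :
    ∀ s, IsNilpotent (![x, y] s) := by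
  intro s
  fin_cases s
  · exact hx
  · exact hy

theorem fg_assoc_of {f : ℕ → ℕ → A} (h00 : f 0 0 = 0)
    (H : ∀ n : ℕ, ∃ (S : Type*) (_ : CommRing S) (_ : Algebra A S) (a : Fin 3 → S),
      (∀ s, a s ^ n = 0) ∧ LinearIndependent A (fun g : Fin 3 → Fin n => ∏ s, a s ^ (g s : ℕ)) ∧
      nev ![nev ![a 0, a 1] (ser f), a 2] (ser f) =
        nev ![a 0, nev ![a 1, a 2] (ser f)] (ser f)) :
    (ser f).subst ![(ser f).subst ![(X 0 : MvPowerSeries (Fin 3) A), X 1], X 2] =
      (ser f).subst ![(X 0 : MvPowerSeries (Fin 3) A), (ser f).subst ![X 1, X 2]] := by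
  have h0 : (ser f).constantCoeff = 0 := h00
  ext d
  obtain ⟨S, _, _, a, hn, hli, hassoc⟩ := H (d 0 + d 1 + d 2 + 1)
  have ha : ∀ s, IsNilpotent (a s) := fun s => ⟨_, hn s⟩
  refine coeff_eq_of_nev_eq hn hli ?_ ?_
  · rw [nev_subst ha (HasSubst.cons_subst_zero_left (0 : Fin 3) 1 2 h0),
      nev_subst ha (HasSubst.cons_subst_zero_right (0 : Fin 3) 1 2 h0)]
    have e1 : (fun s : Fin 2 => nev a (![(ser f).subst ![(X 0 : MvPowerSeries (Fin 3) A), X 1],
        X 2] s)) = ![nev ![a 0, a 1] (ser f), a 2] := by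
      funext s
      fin_cases s
      · change nev a ((ser f).subst ![(X 0 : MvPowerSeries (Fin 3) A), X 1]) =
          nev ![a 0, a 1] (ser f)
        rw [nev_subst ha HasSubst.X_X]
        congr 1
        funext s
        fin_cases s
        · exact nev_X ha 0
        · exact nev_X ha 1
      · exact nev_X ha 2
    have e2 : (fun s : Fin 2 => nev a (![(X 0 : MvPowerSeries (Fin 3) A),
        (ser f).subst ![X 1, X 2]] s)) = ![a 0, nev ![a 1, a 2] (ser f)] := by
      funext s
      fin_cases s
      · exact nev_X ha 0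
      · change nev a ((ser f).subst ![(X 1 : MvPowerSeries (Fin 3) A), X 2]) =
          nev ![a 1, a 2] (ser f)
        rw [nev_subst ha HasSubst.X_X]
        congr 1
        funext s
        fin_cases s
        · exact nev_X ha 1
        · exact nev_X ha 2
    rw [e1, e2, hassoc]
  · intro s
    fin_cases s
    · simp only [Fin.zero_eta]; omega
    · simp only [Fin.mk_one]; omega
    · simp only [Fin.reduceFinMk]; omega

end two

end Vale.Agent.P251.Q
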