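import Mathlib.RingTheory.MvPolynomial.Symmetric.FundamentalTheorem
import Mathlib.RingTheory.MvPolynomial.WeightedHomogeneous
import Mathlib.RingTheory.AlgebraicIndependent.Defs
import Mathlib.Tactic

/-!
# P251, part Q: the weight filtration on a polynomial ring (task Q4)

`J w m` is the ideal of polynomials all of whose monomials have weight at least `m`.
-/

open Finset MvPolynomial

namespace Vale.Agent.P251.Q

variable {R R' : Type*} [CommRing R] [CommRing R'] {σ τ : Type*}

/-- The ideal of polynomials all of whose monomials have weight `≥ m`. -/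
def J (R : Type*) [CommRing R] {σ : Type*} (w : σ → ℕ) (m : ℕ) : Ideal (MvPolynomial σ R) where
  carrier := {P | ∀ t, coeff t P ≠ 0 → m ≤ Finsupp.weight w t}
  zero_mem' := by intro t ht; exact absurd (coeff_zero t) ht
  add_mem' := by
    intro P Q hP hQ t ht
    by_cases h : coeff t P = 0
    · refine hQ t fun h' => ht ?_
      rw [coeff_add, h, h', add_zero]
    · exact hP t h
  smul_mem' := by
    classical
    intro c P hP t ht
    rw [smul_eq_mul, coeff_mul] at ht
    obtain ⟨⟨a, b⟩, hab, hne⟩ := exists_ne_zero_of_sum_ne_zero ht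
    rw [mem_antidiagonal] at hab
    have hb : coeff b P ≠ 0 := right_ne_zero_of_mul hne
    have := hP b hb
    simp only at hab
    rw [← hab, map_add]
    omega

variable {w : σ → ℕ} {w' : τ → ℕ}

theorem mem_J {m : ℕ} {P : MvPolynomial σ R} :
    P ∈ J R w m ↔ ∀ t, coeff t P ≠ 0 → m ≤ Finsupp.weight w t := Iff.rfl

theorem mem_J' {m : ℕ} {P : MvPolynomial σ R} :
    P ∈ J R w m ↔ ∀ t, Finsupp.weight w t < m → coeff t P = 0 := by
  rw [mem_J]
  refine forall_congr' fun t => ?_
  rw [← not_lt, not_imp_comm, not_not, ]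

theorem J_antitone {a b : ℕ} (h : a ≤ b) : J R w b ≤ J R w a := fun _ hP t ht =>
  h.trans (hP t ht)

theorem mem_J_zero (P : MvPolynomial σ R) : P ∈ J R w 0 := fun _ _ => Nat.zero_le _

theorem mul_mem_J {a b : ℕ} {P Q : MvPolynomial σ R} (hP : P ∈ J R w a) (hQ : Q ∈ J R w b) :
    P * Q ∈ J R w (a + b) := by
  classical
  intro t ht
  rw [coeff_mul] at ht
  obtain ⟨⟨c, d⟩, hcd, hne⟩ := exists_ne_zero_of_sum_ne_zero ht
  rw [mem_antidiagonal] at hcd
  have hc := hP c (left_ne_zero_of_mul hne)
  have hd := hQ d (right_ne_zero_of_mul hne)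
  simp only at hcd
  rw [← hcd, map_add]
  omega

theorem pow_mem_J {a : ℕ} {P : MvPolynomial σ R} (hP : P ∈ J R w a) (n : ℕ) :
    P ^ n ∈ J R w (n * a) := by
  induction n with
  | zero => exact J_antitone (by simp) (mem_J_zero _)
  | succ n ih =>
    rw [pow_succ, Nat.succ_mul]
    exact mul_mem_J ih hP

theorem prod_mem_J {ι : Type*} (s : Finset ι) (P : ι → MvPolynomial σ R) (a : ι → ℕ)
    (h : ∀ i ∈ s, P i ∈ J R w (a i)) : ∏ i ∈ s, P i ∈ J R w (∑ i ∈ s, a i) := by
  classical
  induction s using Finset.induction_on with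
  | empty => exact J_antitone (by simp) (mem_J_zero _)
  | insert i s hi ih =>
    rw [prod_insert hi, sum_insert hi]
    exact mul_mem_J (h i (mem_insert_self i s)) (ih fun j hj => h j (mem_insert_of_mem hj))

theorem X_mem_J (i : σ) : (X i : MvPolynomial σ R) ∈ J R w (w i) := by
  classical
  intro t ht
  rw [coeff_X] at ht
  have : Finsupp.single i 1 = t := by
    by_contra h
    rw [if_neg h] at ht
    exact ht rfl
  rw [← this, Finsupp.weight_single]
  simp

theorem C_mul_mem_J {a : ℕ} {P : MvPolynomial σ R} (r : R) (hP : P ∈ J R w a) :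
    C r * P ∈ J R w a := Ideal.mul_mem_left _ _ hP

/-- (F2) A substitution respecting weights on the variables respects the filtration. -/
theorem eval₂_mem_J (f : R →+* R') (g : σ → MvPolynomial τ R')
    (hg : ∀ i, g i ∈ J R' w' (w i)) {m : ℕ} {P : MvPolynomial σ R} (hP : P ∈ J R w m) :
    eval₂ (C.comp f) g P ∈ J R' w' m := by
  rw [eval₂_eq]
  refine Ideal.sum_mem _ fun t ht => Ideal.mul_mem_left _ _ ?_
  refine J_antitone (hP t (mem_support_iff.1 ht)) ?_
  rw [Finsupp.weight_apply, Finsupp.sum]
  refine prod_mem_J _ _ _ fun i _ => ?_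
  rw [smul_eq_mul]
  exact pow_mem_J (hg i) _

/-- (F3) Two such substitutions which agree up to terms of higher weight agree up to terms of
higher weight. -/
theorem eval₂_sub_mem_J (f : R →+* R') (g g' : σ → MvPolynomial τ R')
    (hg : ∀ i, g i ∈ J R' w' (w i)) (hg' : ∀ i, g' i ∈ J R' w' (w i))
    (h : ∀ i, g i - g' i ∈ J R' w' (w i + 1)) {m : ℕ} {P : MvPolynomial σ R}
    (hP : P ∈ J R w m) :
    eval₂ (C.comp f) g P - eval₂ (C.comp f) g' P ∈ J R' w' (m + 1) := by
  classical
  have hpow : ∀ i (n : ℕ), g i ^ n - g' i ^ n ∈ J R' w' (n * w i + 1) := by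
    intro i n
    induction n with
    | zero => simp
    | succ n ih =>
      have : g i ^ (n + 1) - g' i ^ (n + 1) =
          g i ^ n * (g i - g' i) + (g i ^ n - g' i ^ n) * g' i := by ring
      rw [this]
      refine add_mem ?_ ?_
      · have h1 := mul_mem_J (pow_mem_J (hg i) n) (h i)
        refine J_antitone (le_of_eq ?_) h1
        ring
      · have h1 := mul_mem_J ih (hg' i)
        refine J_antitone (le_of_eq ?_) h1
        ring
  have hprod : ∀ (s : Finset σ) (t : σ → ℕ), ∏ i ∈ s, g i ^ t i - ∏ i ∈ s, g' i ^ t i ∈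
      J R' w' (∑ i ∈ s, t i * w i + 1) := by
    intro s t
    induction s using Finset.induction_on with
    | empty => simp
    | insert i s hi ih =>
      rw [prod_insert hi, prod_insert hi, sum_insert hi]
      have : g i ^ t i * ∏ x ∈ s, g x ^ t x - g' i ^ t i * ∏ x ∈ s, g' x ^ t x =
          (g i ^ t i - g' i ^ t i) * ∏ x ∈ s, g x ^ t x +
          g' i ^ t i * (∏ x ∈ s, g x ^ t x - ∏ x ∈ s, g' x ^ t x) := by ring
      rw [this]
      refine add_mem ?_ ?_
      · have h1 := mul_mem_J (hpow i (t i)) (prod_mem_J s (fun x => g x ^ t x)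
          (fun x => t x * w x) fun x _ => pow_mem_J (hg x) _)
        refine J_antitone (le_of_eq ?_) h1
        ring
      · have h1 := mul_mem_J (pow_mem_J (hg' i) (t i)) ih
        refine J_antitone (le_of_eq ?_) h1
        ring
  rw [eval₂_eq, eval₂_eq, ← sum_sub_distrib]
  refine Ideal.sum_mem _ fun t ht => ?_
  rw [← mul_sub]
  refine Ideal.mul_mem_left _ _ ?_
  refine J_antitone (Nat.succ_le_succ (hP t (mem_support_iff.1 ht))) ?_
  rw [Finsupp.weight_apply, Finsupp.sum]
  simp only [smul_eq_mul]
  exact hprod _ _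

/-- Weighted homogeneous substitutions commute with taking weighted homogeneous components. -/
theorem component_aeval (g : σ → MvPolynomial τ R)
    (hg : ∀ i, (g i).IsWeightedHomogeneous w' (w i)) (k : ℕ) (P : MvPolynomial σ R) :
    weightedHomogeneousComponent w' k (aeval g P) =
      aeval g (weightedHomogeneousComponent w k P) := by
  classical
  induction P using MvPolynomial.induction_on' with
  | monomial t r =>
    have h1 : (aeval g (monomial t r)).IsWeightedHomogeneous w' (Finsupp.weight w t) := by
      rw [aeval_monomial, Finsupp.prod, MvPolynomial.algebraMap_eq]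
      refine IsWeightedHomogeneous.C_mul ?_ r
      rw [Finsupp.weight_apply, Finsupp.sum]
      refine IsWeightedHomogeneous.prod _ _ _ fun i _ => ?_
      exact (hg i).pow _
    by_cases h : Finsupp.weight w t = k
    · subst h
      rw [h1.weightedHomogeneousComponent_same,
        (isWeightedHomogeneous_monomial w t r rfl).weightedHomogeneousComponent_same]
    · rw [h1.weightedHomogeneousComponent_ne _ (Ne.symm h),
        (isWeightedHomogeneous_monomial w t r rfl).weightedHomogeneousComponent_ne _ (Ne.symm h),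
        map_zero]
  | add p q hp hq => rw [map_add, map_add, hp, hq, map_add, map_add]

theorem mem_J_iff_component {m : ℕ} {P : MvPolynomial σ R} :
    P ∈ J R w m ↔ ∀ k < m, weightedHomogeneousComponent w k P = 0 := by
  classical
  rw [mem_J']
  constructor
  · intro h k hk
    ext t
    rw [coeff_weightedHomogeneousComponent, coeff_zero]
    split_ifs with h1
    · exact h t (h1.trans_lt hk)
    · rfl
  · intro h t ht
    have := congrArg (coeff t) (h _ ht)
    rwa [coeff_weightedHomogeneousComponent, if_pos rfl, coeff_zero] at this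

/-- (F4) -/
theorem mem_J_of_aeval_mem (g : σ → MvPolynomial τ R)
    (hg : ∀ i, (g i).IsWeightedHomogeneous w' (w i)) (hinj : AlgebraicIndependent R g)
    {m : ℕ} {P : MvPolynomial σ R} (hP : aeval g P ∈ J R w' m) : P ∈ J R w m := by
  rw [mem_J_iff_component] at hP ⊢
  intro k hk
  have h1 := hP k hk
  rw [component_aeval g hg] at h1
  exact (injective_iff_map_eq_zero _).1 hinj _ h1

theorem esymm_isWeightedHomogeneous [Fintype τ] (k : ℕ) :
    (esymm τ R k).IsWeightedHomogeneous (fun _ => 1) k := by
  rw [esymm]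
  refine IsWeightedHomogeneous.sum _ _ _ fun t ht => ?_
  rw [mem_powersetCard] at ht
  have h1 : (∏ i ∈ t, X i : MvPolynomial τ R).IsWeightedHomogeneous (fun _ => 1)
      (∑ _i ∈ t, 1) :=
    IsWeightedHomogeneous.prod _ _ _ fun i _ => isWeightedHomogeneous_X R (fun _ => 1) i
  rwa [sum_const, smul_eq_mul, mul_one, ht.2] at h1

/-- the weights of the elementary symmetric functions -/
abbrev wt (n : ℕ) : Fin n → ℕ := fun i => i + 1

/-- the elementary symmetric functions -/
noncomputable abbrev es (R : Type*) [CommRing R] (n : ℕ) : Fin n → MvPolynomial (Fin n) R :=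
  fun i => esymm (Fin n) R (i + 1)

theorem es_algebraicIndependent (n : ℕ) : AlgebraicIndependent R (es R n) := by
  have h := MvPolynomial.esymmAlgHom_fin_injective R (le_refl n)
  intro P Q hPQ
  apply h
  apply Subtype.ext
  rw [esymmAlgHom_apply, esymmAlgHom_apply]
  exact hPQ

/-- (F4) for elementary symmetric functions -/
theorem mem_J_of_aeval_es {n m : ℕ} {P : MvPolynomial (Fin n) R}
    (hP : aeval (es R n) P ∈ J R (fun _ : Fin n => 1) m) : P ∈ J R (wt n) m :=
  mem_J_of_aeval_mem (es R n) (fun i => esymm_isWeightedHomogeneous (i + 1))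
    (es_algebraicIndependent n) hP

end Vale.Agent.P251.Q
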