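import Vale.Agent.P251.Q.PowObj
import Vale.Agent.P251.Q.Ring
import Vale.Agent.P251.Q.Weight

/-!
# P251, part Q: product detection (task Q4b)

Let `P` be compact and `b` a universal basis of `U(P)` (`FreeOn`).  Then the products
`∏ a, pr_a^* (b (t a))`, `t : J → T`, are a universal basis of `U(P^J)` (`FreeOn.pow`).
For `b = (1, z, .., z^(N-1))` this gives the detection theorem `mem_J_of_aeval_eq_zero`.
-/

open CategoryTheory MonoidalCategory OnePoint
open Vale.Agent.P251.G Vale.Agent.P251.G.LC

universe v

namespace Vale.Agent.P251.Q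

instance (P : LC) [CompactSpace P] (J : Type) [Finite J] : CompactSpace (powObj P J) :=
  inferInstanceAs (CompactSpace (J → P))

/-- evaluation at an index -/
def evalC (P : LC) {J : Type} [Finite J] (a : J) : C(powObj P J, P) :=
  ⟨fun f : J → P => f a, continuous_apply a⟩

@[simp] theorem evalC_apply (P : LC) {J : Type} [Finite J] (a : J) (f : J → P) :
    evalC P a f = f a := rfl

namespace MultTheory

variable {E : MultTheory.{v}}
variable {X Y Z : LC} [E.Good X] [E.Good Y] [E.Good Z]

theorem mapAlg_mapAlg [CompactSpace X] [CompactSpace Y] [CompactSpace Z] (f : C(X, Y))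
    (g : C(Y, Z)) (z : E.U Z) : E.mapAlg f (E.mapAlg g z) = E.mapAlg (g.comp f) z := by
  rw [mapAlg_apply, mapAlg_apply, mapAlg_apply, ← map_comp]
  exact congrArg (fun k => E.map k _) (hom_ext fun _ => rfl)

theorem map_ofHomeo [CompactSpace X] [CompactSpace Y] (e : X ≃ₜ Y) (y : E.U Y) :
    E.map (ofHomeo e).hom y = E.mapAlg (e : C(X, Y)) y := by
  rw [mapAlg_apply]
  exact congrArg (fun k => E.map k _) (hom_ext fun _ => rfl)

theorem cross_oneU [CompactSpace Y] (x : E.U X) :
    E.cross x (E.oneU Y) = E.map (X ◁ cmap (toPt Y)) (E.map (ρ_ X).hom x) := by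
  unfold oneU
  rw [cross_map_right, cross_one]

theorem cross_oneU' [CompactSpace X] [CompactSpace Y] (x : E.U X) :
    E.cross x (E.oneU Y) = E.mapAlg (fstC X Y) x := by
  rw [cross_oneU, ← map_comp, mapAlg_apply]
  exact congrArg (fun k => E.map k _) (hom_ext fun _ => rfl)

theorem oneU_cross' [CompactSpace X] [CompactSpace Y] (y : E.U Y) :
    E.cross (E.oneU X) y = E.mapAlg (sndC X Y) y := by
  rw [← cross_comm, cross_oneU', mapAlg_apply, mapAlg_apply, ← map_comp]
  exact congrArg (fun k => E.map k _) (hom_ext fun _ => rfl)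

/-- the external product in terms of the internal one -/
theorem cross_eq_mul [CompactSpace X] [CompactSpace Y] (x : E.U X) (y : E.U Y) :
    E.cross x y = E.mapAlg (fstC X Y) x * E.mapAlg (sndC X Y) y := by
  rw [← cross_oneU', ← oneU_cross', cross_mul_cross]
  change _ = E.cross (x * (1 : E.U X)) ((1 : E.U Y) * y)
  rw [mul_one, one_mul]

/-- the product of the pull backs of the `b (t a)` -/
noncomputable def prodPow {P : LC} [E.Good P] [CompactSpace P] {T : Type} (b : T → E.U P)
    {J : Type} [Fintype J] (t : J → T) : E.U (powObj P J) :=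
  ∏ a, E.mapAlg (evalC P a) (b (t a))

theorem prodPow_equiv {P : LC} [E.Good P] [CompactSpace P] {T : Type} (b : T → E.U P)
    {J K : Type} [Fintype J] [Fintype K] (e : J ≃ K) (t : K → T) :
    E.map (powEquivIso P e).hom (prodPow b fun a => t (e a)) = prodPow b t := by
  rw [powEquivIso, map_ofHomeo (X := powObj P K) (Y := powObj P J), prodPow, prodPow, map_prod]
  refine Fintype.prod_equiv e _ _ fun a => ?_
  rw [mapAlg_mapAlg]
  rfl

theorem prodPow_option {P : LC} [E.Good P] [CompactSpace P] {T : Type} (b : T → E.U P)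
    {J : Type} [Fintype J] (t : Option J → T) :
    E.map (powOptionIso P J).hom (E.cross (prodPow b fun a => t (Option.some a)) (b (t none))) =
      prodPow b t := by
  rw [cross_eq_mul, powOptionIso, map_ofHomeo (X := powObj P (Option J)) (Y := powObj P J ⊗ P),
    map_mul, prodPow, map_prod, map_prod, prodPow, Fintype.prod_option, mul_comm, mapAlg_mapAlg]
  congr 1
  refine Finset.prod_congr rfl fun a _ => ?_
  rw [mapAlg_mapAlg, mapAlg_mapAlg]
  rfl

theorem FreeOn.pow_aux {P : LC} [E.Good P] [CompactSpace P] {T : Type} [Fintype T]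
    {b : T → E.U P} (h : E.FreeOn b) (J : Type) [hJ : Finite J] :
    ∀ (_ : Fintype J) (_ : DecidableEq J), E.FreeOn fun t : J → T => prodPow b t := by
  refine Finite.induction_empty_option (P := fun J => ∀ (_ : Fintype J) (_ : DecidableEq J),
    E.FreeOn fun t : J → T => prodPow b t) ?_ ?_ ?_ J
  · intro J K e ih hK hK'
    have hJ : Fintype J := Fintype.ofEquiv K e.symm
    have hJ' : DecidableEq J := Classical.decEq J
    have h1 := ((ih hJ hJ').iso (powEquivIso P e)).reindex
      (Equiv.arrowCongr e.symm (Equiv.refl T))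
    convert h1 using 2
    rename_i t
    rw [← prodPow_equiv b e t]
    rfl
  · intro hJ hJ'
    have h1 := (freeOn_unit (E := E) (T := PEmpty → T)).iso (powEmptyIso P PEmpty)
    convert h1 using 2
    rename_i t
    rw [prodPow, Finset.univ_eq_empty, Finset.prod_empty, powEmptyIso]
    change E.oneU _ = _
    unfold oneU
    exact congrArg (fun k => E.map k _) (hom_ext fun _ => rfl)
  · intro J hJ ih hK hK'
    obtain rfl : hK = instFintypeOption := Subsingleton.elim _ _
    have hJ' : DecidableEq J := Classical.decEq J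
    have h1 := ((ih hJ hJ').tensor h).iso (powOptionIso P J)
    have h2 := h1.reindex (S := Option J → T)
      { toFun := fun t => (fun a => t (Option.some a), t none)
        invFun := fun q a => a.elim q.2 q.1
        left_inv := fun t => by funext a; cases a <;> rfl
        right_inv := fun q => rfl }
    convert h2 using 2
    rename_i t
    exact (prodPow_option b t).symm

/-- the powers of a space with a universal basis have the product basis -/
theorem FreeOn.pow {P : LC} [E.Good P] [CompactSpace P] {T : Type} [Fintype T]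
    {b : T → E.U P} (h : E.FreeOn b) (J : Type) [Fintype J] [DecidableEq J] :
    E.FreeOn fun t : J → T => prodPow b t := h.pow_aux J _ _

/-! ### Detection -/

section detection

variable {P : LC} [E.Good P] [CompactSpace P] {N : ℕ} {z : E.U P}
variable {J : Type} [Fintype J] {B : LC} [E.Good B] [CompactSpace B]

/-- the pull back of `z` to `B × P^J` along the `a`-th projection -/
noncomputable def coordClass (z : E.U P) (B : LC) [E.Good B] [CompactSpace B] (a : J) :
    E.U (B ⊗ powObj P J) :=
  E.mapAlg ((evalC P a).comp (sndC B (powObj P J))) z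

theorem coordClass_pow_eq_zero (hz : z ^ N = 0) (a : J) : coordClass z B a ^ N = 0 := by
  rw [coordClass, ← map_pow, hz, map_zero]

theorem comb_prodPow [DecidableEq J] (r : (J → Fin N) → E.U B) :
    E.comb (fun t : J → Fin N => prodPow (fun i : Fin N => z ^ (i : ℕ)) t) B r =
      ∑ t : J → Fin N, E.mapAlg (fstC B (powObj P J)) (r t) *
        ∏ a, coordClass z B a ^ (t a : ℕ) := by
  rw [comb_apply]
  refine Finset.sum_congr rfl fun t _ => ?_
  rw [cross_eq_mul, prodPow, map_prod]
  congr 1
  refine Finset.prod_congr rfl fun a _ => ?_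
  rw [mapAlg_mapAlg, map_pow, coordClass]

/-- every class on `B × P^J` is a polynomial in the coordinate classes -/
theorem exists_eq_sum_coordClass [DecidableEq J]
    (hfree : E.FreeOn fun i : Fin N => z ^ (i : ℕ)) (y : E.U (B ⊗ powObj P J)) :
    ∃ r : (J → Fin N) → E.U B, y = ∑ t : J → Fin N, E.mapAlg (fstC B (powObj P J)) (r t) *
        ∏ a, coordClass z B a ^ (t a : ℕ) := by
  obtain ⟨r, hr⟩ := (hfree.pow J B).2 y
  exact ⟨r, by rw [← hr, comb_prodPow]⟩

/-- the coefficients are unique -/
theorem coeff_eq_zero_of_sum_coordClass [DecidableEq J]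
    (hfree : E.FreeOn fun i : Fin N => z ^ (i : ℕ)) (r : (J → Fin N) → E.U B)
    (h : ∑ t : J → Fin N, E.mapAlg (fstC B (powObj P J)) (r t) *
        ∏ a, coordClass z B a ^ (t a : ℕ) = 0) : r = 0 := by
  refine (hfree.pow J B).1 ?_
  rw [comb_prodPow, h, map_zero]

/-- Detection in the form of `q4_alg`: the kernel of the substitution of the coordinate classes
consists of polynomials of order `≥ N`. -/
theorem support_of_eval₂_eq_zero
    (hfree : E.FreeOn fun i : Fin N => z ^ (i : ℕ)) (hz : z ^ N = 0)
    (p : MvPolynomial J (E.U B))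
    (h : p.eval₂ (E.mapAlg (fstC B (powObj P J))).toRingHom (coordClass z B) = 0)
    (t : J →₀ ℕ) (ht : t ∈ p.support) : ∃ a, N ≤ t a := by
  classical
  by_contra hc
  push Not at hc
  -- the coefficients on the box
  let r : (J → Fin N) → E.U B := fun s => p.coeff (Finsupp.equivFunOnFinite.symm fun a => (s a : ℕ))
  have hr : r = 0 := by
    apply coeff_eq_zero_of_sum_coordClass hfree
    rw [← h, MvPolynomial.eval₂_eq']
    -- split the support
    let emb : (J → Fin N) ↪ (J →₀ ℕ) :=
      ⟨fun s => Finsupp.equivFunOnFinite.symm fun a => (s a : ℕ), by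
        intro s s' hss
        funext a
        have := DFunLike.congr_fun hss a
        simpa using Fin.ext this⟩
    have h1 : ∑ d ∈ p.support, (E.mapAlg (fstC B (powObj P J))).toRingHom (p.coeff d) *
        ∏ a, coordClass z B a ^ d a =
        ∑ d ∈ p.support ∪ Finset.univ.map emb,
          (E.mapAlg (fstC B (powObj P J))).toRingHom (p.coeff d) *
          ∏ a, coordClass z B a ^ d a := by
      refine Finset.sum_subset Finset.subset_union_left ?_
      intro d _ hd
      rw [MvPolynomial.notMem_support_iff.mp hd, map_zero, zero_mul]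
    rw [h1, ← Finset.sum_subset (s₁ := Finset.univ.map emb) Finset.subset_union_right]
    · rw [Finset.sum_map]
      rfl
    · intro d _ hd
      have : ∃ a, N ≤ d a := by
        by_contra hcc
        push Not at hcc
        apply hd
        rw [Finset.mem_map]
        refine ⟨fun a => ⟨d a, hcc a⟩, Finset.mem_univ _, ?_⟩
        ext a
        rfl
      obtain ⟨a, ha⟩ := this
      rw [← Finset.mul_prod_erase _ _ (Finset.mem_univ a)]
      have : coordClass z B a ^ d a = 0 :=
        pow_eq_zero_of_le ha (coordClass_pow_eq_zero hz a)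
      rw [this, zero_mul, mul_zero]
  have h2 := congrFun hr fun a => ⟨t a, hc a⟩
  apply MvPolynomial.mem_support_iff.mp ht
  have h3 : (Finsupp.equivFunOnFinite.symm fun a => t a : J →₀ ℕ) = t := by ext a; rfl
  change p.coeff (Finsupp.equivFunOnFinite.symm fun a => t a) = 0 at h2
  rwa [h3] at h2

/-- The same in terms of the weight filtration (hypothesis `hker` of `q4_alg`). -/
theorem mem_J_of_eval₂_eq_zero
    (hfree : E.FreeOn fun i : Fin N => z ^ (i : ℕ)) (hz : z ^ N = 0)
    (p : MvPolynomial J (E.U B))
    (h : p.eval₂ (E.mapAlg (fstC B (powObj P J))).toRingHom (coordClass z B) = 0) :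
    p ∈ Q.J (E.U B) (fun _ : J => 1) N := by
  classical
  intro t ht
  obtain ⟨a, ha⟩ := support_of_eval₂_eq_zero hfree hz p h t (MvPolynomial.mem_support_iff.mpr ht)
  refine ha.trans ?_
  have h1 : Finsupp.weight (fun _ : J => 1) (Finsupp.single a (t a)) ≤
      Finsupp.weight (fun _ : J => 1) t := by
    rw [Finsupp.weight_apply, Finsupp.weight_apply, Finsupp.sum_single_index (by simp)]
    simp only [smul_eq_mul, mul_one]
    rw [Finsupp.sum]
    by_cases hta : t a = 0
    · rw [hta]; exact Nat.zero_le _
    · exact Finset.single_le_sum (f := fun i => t i) (fun _ _ => Nat.zero_le _)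
        (Finsupp.mem_support_iff.mpr hta)
  rwa [Finsupp.weight_apply, Finsupp.sum_single_index (by simp), smul_eq_mul, mul_one] at h1

/-! The same with `B` on the right. -/

/-- the pull back of `z` to `P^J × B` along the `a`-th projection -/
noncomputable def coordClassR (z : E.U P) (B : LC) [E.Good B] [CompactSpace B] (a : J) :
    E.U (powObj P J ⊗ B) :=
  E.mapAlg ((evalC P a).comp (fstC (powObj P J) B)) z

/-- the exchange of the factors -/
def swapC (X Y : LC) : C((X ⊗ Y : LC), (Y ⊗ X : LC)) :=
  ⟨fun p : X × Y => ((p.2, p.1) : Y × X), continuous_swap⟩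

theorem mapAlg_swapC_coordClassR (a : J) :
    E.mapAlg (swapC B (powObj P J)) (coordClassR z B a) = coordClass z B a := by
  rw [coordClassR, mapAlg_mapAlg]
  rfl

theorem mapAlg_swapC_coordClass (a : J) :
    E.mapAlg (swapC (powObj P J) B) (coordClass z B a) = coordClassR z B a := by
  rw [coordClass, mapAlg_mapAlg]
  rfl

theorem coordClassR_pow_eq_zero (hz : z ^ N = 0) (a : J) : coordClassR z B a ^ N = 0 := by
  rw [coordClassR, ← map_pow, hz, map_zero]

/-- every class on `P^J × B` is a polynomial in the coordinate classes -/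
theorem exists_eq_sum_coordClassR [DecidableEq J]
    (hfree : E.FreeOn fun i : Fin N => z ^ (i : ℕ)) (y : E.U (powObj P J ⊗ B)) :
    ∃ r : (J → Fin N) → E.U B, y = ∑ t : J → Fin N, E.mapAlg (sndC (powObj P J) B) (r t) *
        ∏ a, coordClassR z B a ^ (t a : ℕ) := by
  obtain ⟨r, hr⟩ := exists_eq_sum_coordClass hfree (E.mapAlg (swapC B (powObj P J)) y)
  refine ⟨r, ?_⟩
  have h1 := congrArg (E.mapAlg (swapC (powObj P J) B)) hr
  rw [mapAlg_mapAlg] at h1
  have h2 : E.mapAlg ((swapC B (powObj P J)).comp (swapC (powObj P J) B)) y = y := by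
    rw [mapAlg_apply]
    have h3 : cmap ((swapC B (powObj P J)).comp (swapC (powObj P J) B)) =
        𝟙 (powObj P J ⊗ B) := hom_ext fun _ => rfl
    rw [h3, map_id]
  rw [h2] at h1
  rw [h1, map_sum]
  refine Finset.sum_congr rfl fun t _ => ?_
  rw [map_mul, mapAlg_mapAlg, map_prod]
  congr 1
  refine Finset.prod_congr rfl fun a _ => ?_
  rw [map_pow, mapAlg_swapC_coordClass]

/-- Detection, with `B` on the right. -/
theorem mem_J_of_eval₂_eq_zeroR
    (hfree : E.FreeOn fun i : Fin N => z ^ (i : ℕ)) (hz : z ^ N = 0)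
    (p : MvPolynomial J (E.U B))
    (h : p.eval₂ (E.mapAlg (sndC (powObj P J) B)).toRingHom (coordClassR z B) = 0) :
    p ∈ Q.J (E.U B) (fun _ : J => 1) N := by
  refine mem_J_of_eval₂_eq_zero hfree hz p ?_
  have h1 := congrArg (E.mapAlg (swapC B (powObj P J))).toRingHom h
  rw [map_zero, MvPolynomial.hom_eval₂] at h1
  have h2 : (E.mapAlg (swapC B (powObj P J))).toRingHom.comp
      (E.mapAlg (sndC (powObj P J) B)).toRingHom = (E.mapAlg (fstC B (powObj P J))).toRingHom := by
    ext r
    exact mapAlg_mapAlg _ _ r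
  have h3 : (fun a => (E.mapAlg (swapC B (powObj P J))).toRingHom (coordClassR z B a)) =
      coordClass z B (J := J) := by
    funext a
    exact mapAlg_swapC_coordClassR a
  rwa [h2, h3] at h1

end detection

end MultTheory

end Vale.Agent.P251.Q
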