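import Vale.Agent.P251.Q.CPn
import Vale.Agent.P251.Q.ProdCP
import Vale.Agent.P251.Q.FGLAlg
import Vale.Agent.P251.G.Segre

/-!
# P251, part Q: Euler classes of line bundles and the formal group law: the coefficients

A line bundle on a compact space `X` is a map `f : C(X, Gr 1 I)`.
* `o.lc f` : its Euler class;
* `tens f g : C(X, Gr 1 (I × J))` : the tensor product;
* `o.lawCoeff i j : E.A` : the coefficients of the formal group law;
* `lc_tens : o.lc (tens f g) = ∑ i j, a i j • (lc f) ^ i * (lc g) ^ j`.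
-/

open CategoryTheory MonoidalCategory OnePoint Matrix Topology
open Vale.Agent.P251.G Vale.Agent.P251.G.LC

universe v

set_option linter.unusedSectionVars false

noncomputable section

namespace Vale.Agent.P251.Q

open MultTheory

/-! ### Line bundles -/

section geometry

variable {X Y : LC} {I J K L : Type} [Fintype I] [Fintype J] [Fintype K] [Fintype L]

/-- the projective space -/
abbrev CP (I : Type) [Fintype I] : LC := LC.of (Gr 1 I)

/-- the tensor product of line bundles -/
def tens (f : C(X, CP I)) (g : C(X, CP J)) : C(X, CP (I × J)) :=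
  (⟨Gr.segre 1 1 I J, (Gr.segre 1 1 I J).continuous⟩ : C(Gr 1 I × Gr 1 J, CP (I × J))).comp
    (f.prodMk g)

theorem tens_P (f : C(X, CP I)) (g : C(X, CP J)) (x : X) :
    Gr.P (tens f g x : Gr 1 (I × J)) =
      kroneckerMap (· * ·) (Gr.P (f x : Gr 1 I)) (Gr.P (g x : Gr 1 J)) := rfl

theorem line_ext {f g : C(X, CP I)} (h : ∀ x, Gr.P (f x : Gr 1 I) = Gr.P (g x : Gr 1 I)) :
    f = g := ContinuousMap.ext fun x => Gr.ext (h x)

theorem tens_comp (f : C(X, CP I)) (g : C(X, CP J)) (h : C(Y, X)) :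
    (tens f g).comp h = tens (f.comp h) (g.comp h) := rfl

variable [DecidableEq I] [DecidableEq J] [DecidableEq K] [DecidableEq L]

theorem isom_kronecker {u : Matrix K I ℂ} {w : Matrix L J ℂ} (hu : uᴴ * u = 1) (hw : wᴴ * w = 1) :
    (kroneckerMap (· * ·) u w)ᴴ * kroneckerMap (· * ·) u w = 1 := by
  rw [conjTranspose_kronecker, ← mul_kronecker_mul, hu, hw, one_kronecker_one]

/-- functoriality of the tensor product for isometries -/
theorem tens_grMapC (f : C(X, CP I)) (g : C(X, CP J)) (u : Matrix K I ℂ) (hu : uᴴ * u = 1)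
    (w : Matrix L J ℂ) (hw : wᴴ * w = 1) :
    tens ((grMapC 1 u hu).comp f) ((grMapC 1 w hw).comp g) =
      (grMapC 1 (kroneckerMap (· * ·) u w) (isom_kronecker hu hw)).comp (tens f g) := by
  refine line_ext fun x => ?_
  rw [tens_P]
  change kroneckerMap (· * ·) (u * Gr.P (f x : Gr 1 I) * uᴴ) (w * Gr.P (g x : Gr 1 J) * wᴴ) =
    kroneckerMap (· * ·) u w * kroneckerMap (· * ·) (Gr.P (f x : Gr 1 I)) (Gr.P (g x : Gr 1 J)) *
      (kroneckerMap (· * ·) u w)ᴴ
  rw [conjTranspose_kronecker, ← mul_kronecker_mul, ← mul_kronecker_mul]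

theorem tens_comm (f : C(X, CP I)) (g : C(X, CP J)) :
    (grMapC 1 (injMat (Equiv.prodComm I J)) (injMat_isom (Equiv.injective _))).comp (tens f g) =
      tens g f := by
  refine line_ext fun x => ?_
  change injMat (Equiv.prodComm I J) * kroneckerMap (· * ·) (Gr.P (f x : Gr 1 I))
    (Gr.P (g x : Gr 1 J)) * (injMat (Equiv.prodComm I J))ᴴ = _
  rw [injMat_equiv_conj]
  ext a b
  exact mul_comm _ _

theorem tens_assoc (f : C(X, CP I)) (g : C(X, CP J)) (h : C(X, CP K)) :
    (grMapC 1 (injMat (Equiv.prodAssoc I J K)) (injMat_isom (Equiv.injective _))).comp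
      (tens (tens f g) h) = tens f (tens g h) := by
  refine line_ext fun x => ?_
  change injMat (Equiv.prodAssoc I J K) * kroneckerMap (· * ·) (kroneckerMap (· * ·)
    (Gr.P (f x : Gr 1 I)) (Gr.P (g x : Gr 1 J))) (Gr.P (h x : Gr 1 K)) *
      (injMat (Equiv.prodAssoc I J K))ᴴ = _
  rw [injMat_equiv_conj]
  ext a b
  exact mul_assoc _ _ _

theorem gr_one_unit (Q : Gr 1 Unit) : Q.P = 1 := by
  have h := Q.isProj.trace
  ext i j
  rw [Subsingleton.elim i (), Subsingleton.elim j ()]
  simp only [Matrix.trace, Finset.univ_unique, Finset.sum_singleton, Matrix.diag_apply] at h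
  simpa using h

theorem tens_unit (f : C(X, CP I)) (g : C(X, CP Unit)) :
    (grMapC 1 (injMat (Equiv.prodPUnit I)) (injMat_isom (Equiv.injective _))).comp
      (tens f g) = f := by
  refine line_ext fun x => ?_
  change injMat (Equiv.prodPUnit I) * kroneckerMap (· * ·) (Gr.P (f x : Gr 1 I))
    (Gr.P (g x : Gr 1 Unit)) * (injMat (Equiv.prodPUnit I))ᴴ = _
  rw [injMat_equiv_conj, gr_one_unit]
  ext a b
  simp

end geometry

/-! ### Euler classes -/

section theory

variable {E : MultTheory.{v}} (o : Orientation E)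
variable {X Y : LC} [E.Good X] [E.Good Y] [CompactSpace X] [CompactSpace Y]
variable {I J K : Type} [Fintype I] [Fintype J] [Fintype K]

/-- The Euler class of a line bundle. -/
def Orientation.lc {X : LC} [CompactSpace X] (f : C(X, CP I)) : E.U X := E.map (cmap f) (o.z I)

theorem lc_id [E.Good (CP I)] : o.lc (ContinuousMap.id (CP I)) = o.z I := by
  have h : cmap (ContinuousMap.id (CP I)) = 𝟙 (CP I) := LC.hom_ext fun x => rfl
  rw [Orientation.lc, h, MultTheory.map_id]

theorem map_lc (g : C(Y, X)) (f : C(X, CP I)) : E.map (cmap g) (o.lc f) = o.lc (f.comp g) := by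
  have := good_gr_one o I
  rw [Orientation.lc, Orientation.lc, ← MultTheory.map_comp]
  exact congrArg (fun k => E.map k _) (LC.hom_ext fun _ => rfl)

theorem mapAlg_lc (g : C(Y, X)) (f : C(X, CP I)) : E.mapAlg g (o.lc f) = o.lc (f.comp g) :=
  map_lc o g f

theorem lc_deg (f : C(X, CP I)) : o.lc f ∈ E.deg X 1 := by
  have := good_gr_one o I
  exact map_deg _ (z_deg o I)

theorem lc_grMapC [DecidableEq I] [DecidableEq J] (f : C(X, CP I)) (u : Matrix J I ℂ)
    (hu : uᴴ * u = 1) : o.lc ((grMapC 1 u hu).comp f) = o.lc f := by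
  have := good_gr_one o I
  have := good_gr_one o J
  rw [← map_lc]
  change E.map (cmap f) (E.map (grMap 1 u hu) (o.z J)) = _
  rw [z_map]
  rfl

theorem lc_pow_eq_zero (f : C(X, CP I)) {N : ℕ} (hN : Fintype.card I ≤ N) : o.lc f ^ N = 0 := by
  have := good_gr_one o I
  rw [Orientation.lc, ← map_cmap_pow, z_pow_eq_zero o N I hN, map_zero]

theorem isNilpotent_lc (f : C(X, CP I)) : IsNilpotent (o.lc f) := ⟨_, lc_pow_eq_zero o f le_rfl⟩

theorem lc_unit (f : C(X, CP Unit)) : o.lc f = 0 := by
  have := lc_pow_eq_zero o f (N := 1) (by simp)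
  rwa [pow_one] at this

theorem lc_tens_comm (f : C(X, CP I)) (g : C(X, CP J)) : o.lc (tens f g) = o.lc (tens g f) := by
  classical
  rw [← tens_comm f g, lc_grMapC]

theorem lc_tens_assoc (f : C(X, CP I)) (g : C(X, CP J)) (h : C(X, CP K)) :
    o.lc (tens (tens f g) h) = o.lc (tens f (tens g h)) := by
  classical
  rw [← tens_assoc f g h, lc_grMapC]

theorem lc_tens_unit (f : C(X, CP I)) (g : C(X, CP Unit)) : o.lc (tens f g) = o.lc f := by
  classical
  conv_rhs => rw [← tens_unit f g, lc_grMapC]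

/-! ### Bases over the coefficient ring -/

theorem comb_unit {P : LC} [E.Good P] {T : Type} [Fintype T] (b : T → E.U P) (c : T → E.A) :
    E.comb b (𝟙_ LC) (fun t => E.ofA (c t)) = E.map (λ_ P).hom (∑ t, c t • b t) := by
  rw [comb_apply, map_sum]
  refine Finset.sum_congr rfl fun t _ => ?_
  rw [smul_def, map_hom_inv]

/-- A universal basis is a basis over the coefficient ring. -/
theorem MultTheory.FreeOn.bijective_smul {P : LC} [E.Good P] {T : Type} [Fintype T] {b : T → E.U P}
    (h : E.FreeOn b) : Function.Bijective fun c : T → E.A => ∑ t, c t • b t := by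
  have h1 := h (𝟙_ LC)
  have h2 : (E.comb b (𝟙_ LC) : (T → E.U (𝟙_ LC)) → _) =
      E.map (λ_ P).hom ∘ fun c : T → E.A => ∑ t, c t • b t := funext fun c => comb_unit b c
  rw [h2] at h1
  exact (Function.Bijective.of_comp_iff' (map_iso_bijective (λ_ P)) _).mp h1

theorem MultTheory.FreeOn.linearIndependent {P : LC} [E.Good P] {T : Type} [Fintype T] {b : T → E.U P}
    (h : E.FreeOn b) : LinearIndependent E.A b := by
  rw [Fintype.linearIndependent_iff]
  intro c hc t
  have h1 := h.bijective_smul.1 (a₁ := c) (a₂ := 0) (by simpa using hc)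
  exact congrFun h1 t

/-! ### Products of projective spaces -/

/-- the evaluation maps -/
def evL (n : ℕ) {S : Type} [Finite S] (s : S) : C(powObj (CP (Fin n)) S, CP (Fin n)) :=
  evalC (CP (Fin n)) s

/-- the monomials in the Euler classes of the factors are a basis -/
theorem freeOn_lc (n : ℕ) (S : Type) [Fintype S] [DecidableEq S] [E.Good (CP (Fin n))] :
    E.FreeOn (P := powObj (CP (Fin n)) S) fun g : S → Fin n =>
      ∏ s, o.lc (evL n s) ^ (g s : ℕ) := by
  have h := (freeOn_z o n (Fin n) (Fintype.card_fin n)).pow S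
  convert h using 2 with g
  unfold prodPow
  refine Finset.prod_congr rfl fun s _ => ?_
  rw [map_pow]
  rfl

/-- a family of line bundles as a map to the product of projective spaces -/
def pairL {n : ℕ} {S : Type} [Finite S] (f : S → C(X, CP (Fin n))) :
    C(X, powObj (CP (Fin n)) S) :=
  ⟨fun x s => f s x, continuous_pi fun s => (f s).continuous⟩

theorem evL_pairL {n : ℕ} {S : Type} [Finite S] (f : S → C(X, CP (Fin n))) (s : S) :
    (evL n s).comp (pairL f) = f s := rfl

theorem exists_coef (n : ℕ) : ∃ c : (Fin 2 → Fin n) → E.A,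
    o.lc (tens (evL n (0 : Fin 2)) (evL n (1 : Fin 2))) =
      ∑ g, c g • (haveI := good_gr_one o (Fin n); ∏ s : Fin 2, o.lc (evL n s) ^ (g s : ℕ)) := by
  have := good_gr_one o (Fin n)
  obtain ⟨c, hc⟩ := (freeOn_lc o n (Fin 2)).bijective_smul.2
    (o.lc (tens (evL n (0 : Fin 2)) (evL n (1 : Fin 2))))
  exact ⟨c, hc.symm⟩

/-- the coefficients of the Euler class of the tensor product over `CP × CP` -/
def Orientation.coef (n : ℕ) : (Fin 2 → Fin n) → E.A := (exists_coef o n).choose

theorem coef_spec (n : ℕ) [E.Good (CP (Fin n))] :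
    o.lc (tens (evL n (0 : Fin 2)) (evL n (1 : Fin 2))) =
      ∑ g, o.coef n g • ∏ s : Fin 2, o.lc (evL n s) ^ (g s : ℕ) := (exists_coef o n).choose_spec

theorem lc_tens_fin {n : ℕ} (f g : C(X, CP (Fin n))) : o.lc (tens f g) =
    ∑ k, o.coef n k • (o.lc f ^ (k 0 : ℕ) * o.lc g ^ (k 1 : ℕ)) := by
  have := good_gr_one o (Fin n)
  have h1 : o.lc (tens f g) =
      E.mapAlg (pairL ![f, g]) (o.lc (tens (evL n (0 : Fin 2)) (evL n (1 : Fin 2)))) := by
    rw [mapAlg_lc]
    rfl
  rw [h1, coef_spec, map_sum]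
  refine Finset.sum_congr rfl fun k _ => ?_
  rw [_root_.map_smul, map_prod, Fin.prod_univ_two]
  congr 2
  · rw [map_pow, mapAlg_lc]
    rfl
  · rw [map_pow, mapAlg_lc]
    rfl

/-- the inclusion of projective spaces -/
def inclC {n m : ℕ} (h : n ≤ m) : C(CP (Fin n), CP (Fin m)) :=
  grMapC 1 (injMat (Fin.castLE h)) (injMat_isom (Fin.castLE_injective h))

theorem lc_inclC {n m : ℕ} (h : n ≤ m) (f : C(X, CP (Fin n))) :
    o.lc ((inclC h).comp f) = o.lc f := lc_grMapC o f _ _

/-- sums over a larger box -/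
theorem sum_box {M : Type*} [AddCommMonoid M] {n m : ℕ} (h : n ≤ m) {S : Type} [Fintype S]
    [DecidableEq S] (F : (S → Fin m) → M) (hF : ∀ g : S → Fin m, (∃ s, n ≤ g s) → F g = 0) :
    ∑ g, F g = ∑ g : S → Fin n, F fun s => Fin.castLE h (g s) := by
  symm
  let emb : (S → Fin n) ↪ (S → Fin m) := ⟨fun g s => Fin.castLE h (g s), fun a b hab => by
    funext s
    exact Fin.castLE_injective h (congrFun hab s)⟩
  refine (Finset.sum_map Finset.univ emb F).symm.trans ?_
  refine Finset.sum_subset (Finset.subset_univ _) fun g _ hg => hF g ?_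
  by_contra hc
  push Not at hc
  apply hg
  rw [Finset.mem_map]
  exact ⟨fun s => ⟨g s, hc s⟩, Finset.mem_univ _, funext fun s => Fin.ext rfl⟩

theorem coef_castLE {n m : ℕ} (h : n ≤ m) (g : Fin 2 → Fin n) :
    o.coef m (fun s => Fin.castLE h (g s)) = o.coef n g := by
  have := good_gr_one o (Fin n)
  have h1 := coef_spec o n
  have h2 : o.lc (tens (evL n (0 : Fin 2)) (evL n (1 : Fin 2))) =
      o.lc (tens ((inclC h).comp (evL n (0 : Fin 2))) ((inclC h).comp (evL n (1 : Fin 2)))) := by
    unfold inclC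
    rw [tens_grMapC, lc_grMapC]
  rw [lc_tens_fin o ((inclC h).comp (evL n (0 : Fin 2))), lc_inclC, lc_inclC, sum_box h] at h2
  · have h3 := h2.symm.trans h1
    have h4 := (freeOn_lc o n (Fin 2)).bijective_smul.1
      (a₁ := fun g : Fin 2 → Fin n => o.coef m fun s => Fin.castLE h (g s)) (a₂ := o.coef n) ?_
    · exact congrFun h4 g
    · refine Eq.trans ?_ h3
      refine Finset.sum_congr rfl fun k _ => ?_
      rw [Fin.prod_univ_two]
      rfl
  · rintro k ⟨s, hs⟩
    have : o.lc (evL n (0 : Fin 2)) ^ (k 0 : ℕ) * o.lc (evL n (1 : Fin 2)) ^ (k 1 : ℕ) = 0 := by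
      fin_cases s
      · rw [lc_pow_eq_zero o _ (by simpa using hs), zero_mul]
      · rw [lc_pow_eq_zero o (evL n (1 : Fin 2)) (by simpa using hs), mul_zero]
    rw [this, smul_zero]

/-- The coefficients of the formal group law. -/
def Orientation.lawCoeff (i j : ℕ) : E.A :=
  o.coef (i + j + 1) ![⟨i, by omega⟩, ⟨j, by omega⟩]

theorem coef_eq (n : ℕ) (g : Fin 2 → Fin n) : o.coef n g = o.lawCoeff (g 0) (g 1) := by
  unfold Orientation.lawCoeff
  have h1 := coef_castLE o (le_max_left n ((g 0 : ℕ) + (g 1 : ℕ) + 1)) g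
  have h2 := coef_castLE o (le_max_right n ((g 0 : ℕ) + (g 1 : ℕ) + 1))
    ![⟨g 0, by omega⟩, ⟨g 1, by omega⟩]
  rw [← h1, ← h2]
  congr 1
  funext s
  fin_cases s <;> rfl

theorem sum_fin_two {M : Type*} [AddCommMonoid M] (n : ℕ) (F : ℕ → ℕ → M) :
    ∑ g : Fin 2 → Fin n, F (g 0) (g 1) = ∑ k ∈ Finset.range n, ∑ l ∈ Finset.range n, F k l := by
  rw [Fintype.sum_equiv (finTwoArrowEquiv (Fin n)) (fun g : Fin 2 → Fin n => F (g 0) (g 1))
    (fun q : Fin n × Fin n => F q.1 q.2) (fun g => rfl), Fintype.sum_prod_type,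
    Finset.sum_range]
  exact Finset.sum_congr rfl fun k _ => (Finset.sum_range (fun l => F k l)).symm

/-- The Euler class of a tensor product. -/
theorem lc_tens_val₂ (f : C(X, CP I)) (g : C(X, CP J)) {n : ℕ} (hI : Fintype.card I ≤ n)
    (hJ : Fintype.card J ≤ n) : o.lc (tens f g) = val₂ n o.lawCoeff (o.lc f) (o.lc g) := by
  classical
  let u : I → Fin n := fun i => Fin.castLE hI (Fintype.equivFin I i)
  have hu : Function.Injective u := (Fin.castLE_injective hI).comp (Fintype.equivFin I).injective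
  let w : J → Fin n := fun i => Fin.castLE hJ (Fintype.equivFin J i)
  have hw : Function.Injective w := (Fin.castLE_injective hJ).comp (Fintype.equivFin J).injective
  have h1 : o.lc (tens f g) = o.lc (tens ((grMapC 1 (injMat u) (injMat_isom hu)).comp f)
      ((grMapC 1 (injMat w) (injMat_isom hw)).comp g)) := by
    rw [tens_grMapC, lc_grMapC]
  rw [h1, lc_tens_fin, lc_grMapC, lc_grMapC, val₂,
    ← sum_fin_two n fun k l => o.lawCoeff k l • (o.lc f ^ k * o.lc g ^ l)]
  exact Finset.sum_congr rfl fun k _ => by rw [coef_eq]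

end theory

end Vale.Agent.P251.Q
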