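import Vale.Agent.P251.Q.TPowClass
import Vale.Agent.P251.Q.LensLemma
import Vale.Agent.P251.Q.LineCls

/-!
# P251, part Q: the lens spaces of an oriented theory

`lensData o D hF hp : LensData E D p` : the tower of lens spaces `Lens p (Idx k)`, `k = 0, 1, …`, of
an oriented theory whose law is the image of `D.F`.
-/

set_option linter.unusedSectionVars false
set_option linter.style.haveILetI false

open CategoryTheory MonoidalCategory Matrix Topology Finset OnePoint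
open Vale.Agent.P251.G Vale.Agent.P251.G.LC Vale.Agent.P251.G.Bun
open Vale.Agent.P217 Vale.Agent.P251.F

universe v

namespace Vale.Agent.P251.Q

open MultTheory

/-! ### Bases -/

namespace MultTheory

variable {E : MultTheory.{v}} {P : LC} [E.Good P] [CompactSpace P]

/-- If `z h = 0` then `h` is a multiple of the highest power of `z`. -/
theorem eq_smul_of_mul_eq_zero {N : ℕ} {z : E.U P}
    (hfree : E.FreeOn fun i : Fin (N + 1) => z ^ (i : ℕ)) (hz : z ^ (N + 1) = 0) {h : E.U P}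
    (hh : z * h = 0) : ∃ a : E.A, h = a • z ^ N := by
  obtain ⟨a, ha⟩ := hfree.bijective_smul.2 h
  have ha' : ∑ i : Fin (N + 1), a i • z ^ (i : ℕ) = h := ha
  subst ha'
  have h1 : ∑ j : Fin (N + 1),
      (Fin.cons 0 (fun i : Fin N => a i.castSucc) : Fin (N + 1) → E.A) j • z ^ (j : ℕ) = 0 := by
    rw [Fin.sum_univ_succ, Fin.cons_zero, zero_smul, zero_add, ← hh, Fin.sum_univ_castSucc,
      mul_add, Finset.mul_sum, Fin.val_last, mul_smul_right, ← pow_succ', hz, smul_zero, add_zero]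
    refine Finset.sum_congr rfl fun i _ => ?_
    rw [Fin.cons_succ, mul_smul_right, Fin.val_succ, Fin.val_castSucc, pow_succ']
  have h2 : (Fin.cons 0 (fun i : Fin N => a i.castSucc) : Fin (N + 1) → E.A) = 0 := by
    refine hfree.bijective_smul.1 ?_
    change ∑ j : Fin (N + 1),
      (Fin.cons 0 (fun i : Fin N => a i.castSucc) : Fin (N + 1) → E.A) j • z ^ (j : ℕ) =
        ∑ j : Fin (N + 1), (0 : E.A) • z ^ (j : ℕ)
    rw [h1]
    simp
  refine ⟨a (Fin.last N), ?_⟩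
  rw [Fin.sum_univ_castSucc, Fin.val_last, Finset.sum_eq_zero, zero_add]
  intro i _
  have h3 := congrFun h2 i.succ
  rw [Fin.cons_succ] at h3
  rw [h3, Pi.zero_apply, zero_smul]

end MultTheory

/-! ### Values of power series -/

section ev

variable {E : MultTheory.{v}} {C : Type} [CommRing C] {D : CoeffData E C}
variable {Y Y' : LC} [E.Good Y] [CompactSpace Y] [E.Good Y'] [CompactSpace Y']

theorem mapAlg_ev (f : C(Y, Y')) (k : ℕ) (v : E.U Y') (s : PowerSeries C) :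
    E.mapAlg f (D.ev k v s) = D.ev k (E.mapAlg f v) s := by
  rw [CoeffData.ev, CoeffData.ev, map_sum]
  refine Finset.sum_congr rfl fun l _ => ?_
  rw [_root_.map_smul, map_pow]

theorem ev_succ_eq {k : ℕ} {v : E.U Y} (hv : v ^ (k + 1) = 0) (s : PowerSeries C) :
    D.ev (k + 1) v s = D.ev k v s := by
  rw [CoeffData.ev, Finset.sum_range_succ, hv, smul_zero, add_zero]
  rfl

end ev

/-! ### The lens spaces -/

section lens

variable {E : MultTheory.{v}} (o : Orientation E)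
variable {C : Type} [CommRing C] {D : CoeffData E C} {p : ℕ}

theorem vL_eq_map_z (κ : Type) [Fintype κ] :
    o.vL p κ = E.mapAlg (X := LC.of (Lens p κ)) (Y := LC.of (Gr 1 κ)) (Lens.toGr p κ) (o.z κ) :=
  e_eq_map_z o (lensL p κ) (lensL_isRank p κ)

/-- The Euler class restricts to zero at every point. -/
theorem vL_point (κ : Type) [Fintype κ] (y : Lens p κ) :
    E.map (point (X := LC.of (Lens p κ)) y) (o.vL p κ) = 0 := by
  let f : C((𝟙_ LC : LC), (LC.of (Lens p κ) : LC)) := ⟨fun _ => y, continuous_const⟩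
  have h1 : point (X := LC.of (Lens p κ)) y = cmap f := LC.hom_ext fun _ => rfl
  haveI hG : GoodBase E (𝟙_ LC) := inferInstance
  haveI hG' : GoodBase E (LC.of (Lens p κ)) := inferInstance
  have hr : ((lensL p κ).pullback f).IsRank 1 := fun _ => lensL_isRank p κ _
  haveI := hG.tot _ hr
  haveI := hG'.tot _ (lensL_isRank p κ)
  have h2 := e_pullback o f (lensL p κ) (lensL_isRank p κ) hr
  rw [h1, Orientation.vL, ← h2]
  obtain ⟨x, hx, hPx, -⟩ := y.Q.isProj.exists_lineP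
  exact e_eq_zero o _ hr ⟨fun _ => x, continuous_const, fun _ => hPx⟩ fun _ => hx

variable {I : Type} [Fintype I] [DecidableEq I]

/-- the inclusion `I → I ⊕ Unit` as a map of tautological bundles -/
abbrev tautInc (I : Type) [Fintype I] [DecidableEq I] :
    IsoMap (taut 1 I) (taut 1 (I ⊕ Unit)) :=
  IsoMap.ofIsom (injMat (Sum.inl : I → I ⊕ Unit)) (injMat_isom Sum.inl_injective)

/-- the inclusion of projective spaces -/
abbrev grInc (I : Type) [Fintype I] [DecidableEq I] :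
    C((LC.of (Gr 1 I) : LC), (LC.of (Gr 1 (I ⊕ Unit)) : LC)) := (tautInc I).f

/-- the inclusion of lens spaces -/
abbrev lensInc (p : ℕ) (I : Type) [Fintype I] [DecidableEq I] :
    C((LC.of (Lens p I) : LC), (LC.of (Lens p (I ⊕ Unit)) : LC)) := (tautInc I).lens p

theorem mapAlg_grInc_z : E.mapAlg (grInc I) (o.z (I ⊕ Unit)) = o.z I :=
  z_map o (injMat (Sum.inl : I → I ⊕ Unit)) (injMat_isom Sum.inl_injective)

theorem toGr_comp_lensInc :
    (Lens.toGr p (I ⊕ Unit) : C((LC.of (Lens p (I ⊕ Unit)) : LC),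
      (LC.of (Gr 1 (I ⊕ Unit)) : LC))).comp (lensInc p I) =
      (grInc I).comp (Lens.toGr p I : C((LC.of (Lens p I) : LC), (LC.of (Gr 1 I) : LC))) := rfl

theorem mapAlg_lensInc_toGr (g : E.U (LC.of (Gr 1 (I ⊕ Unit)))) :
    E.mapAlg (lensInc p I) (E.mapAlg (X := LC.of (Lens p (I ⊕ Unit)))
      (Y := LC.of (Gr 1 (I ⊕ Unit))) (Lens.toGr p (I ⊕ Unit)) g) =
      E.mapAlg (X := LC.of (Lens p I)) (Y := LC.of (Gr 1 I)) (Lens.toGr p I)
        (E.mapAlg (grInc I) g) := by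
  rw [mapAlg_mapAlg, mapAlg_mapAlg]
  rfl

theorem mapAlg_lensInc_vL : E.mapAlg (lensInc p I) (o.vL p (I ⊕ Unit)) = o.vL p I := by
  rw [vL_eq_map_z, vL_eq_map_z, mapAlg_lensInc_toGr, mapAlg_grInc_z]

/-- The coefficient of `θ^* t_{V^{⊗p}}`, restricted to the previous projective space. -/
theorem mapAlg_grInc_theta (hF : o.HasLaw (D.F.map D.φ)) {k : ℕ} (hI : Fintype.card I = k + 1)
    {g : E.U (LC.of (Gr 1 (I ⊕ Unit)))}
    (hg : o.e (B := LC.of (Gr 1 (I ⊕ Unit))) ((taut 1 (I ⊕ Unit)).tpow p)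
      ((taut_isRank 1 (I ⊕ Unit)).tpow1 p) = g * o.z (I ⊕ Unit)) :
    E.mapAlg (grInc I) g = D.ev k (o.z I) (divSeries D.F p) := by
  have hJ : Fintype.card (I ⊕ Unit) = k + 1 + 1 := by
    rw [Fintype.card_sum, Fintype.card_unit, hI]
  have hzJ : o.z (I ⊕ Unit) ^ (k + 1 + 1) = 0 := z_pow_eq_zero o _ _ hJ.le
  have hzI : o.z I ^ (k + 1) = 0 := z_pow_eq_zero o _ _ hI.le
  have h1 := e_tpow_ev o (B := LC.of (Gr 1 (I ⊕ Unit))) hF (taut 1 (I ⊕ Unit))
    (taut_isRank 1 (I ⊕ Unit)) hJ.le p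
  rw [hg, e_taut_z, ← X_mul_divSeries, CoeffData.ev_mul hzJ, CoeffData.ev_X hzJ] at h1
  have h2 : o.z (I ⊕ Unit) * (g - D.ev (k + 1) (o.z (I ⊕ Unit)) (divSeries D.F p)) = 0 := by
    rw [mul_sub, ← h1, mul_comm, sub_self]
  obtain ⟨a, ha⟩ := eq_smul_of_mul_eq_zero (freeOn_z o _ _ hJ) hzJ h2
  have h3 := congrArg (E.mapAlg (grInc I)) ha
  rw [map_sub, _root_.map_smul, map_pow, mapAlg_grInc_z, hzI, smul_zero, sub_eq_zero,
    mapAlg_ev, mapAlg_grInc_z, ev_succ_eq hzI] at h3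
  exact h3

theorem act_pull {Y : LC} [E.Good Y] [CompactSpace Y] (X : LC) [E.Good X] (a : E.U Y)
    (x : E.U X) : E.act (fstC Y X) a (pull E Y X x) = E.cross a x := by
  have h1 := act_cross_left (ContinuousMap.id Y) a (E.oneU Y) x
  have h2 : E.act (ContinuousMap.id Y) a (E.oneU Y) = a := by
    rw [← MultTheory.mul_def, ← one_def, mul_one]
  rw [h2] at h1
  exact h1

theorem good_sph_cx (V : Bun (LC.of (Gr 1 I) : LC) I) (hV : V.IsRank 1) (hp : p ≠ 0) :
    E.Good (LC.of (Bun.Sph V) ⊗ CxLC) := by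
  haveI hc : CellSp (V.Lens p) := CellSp.sph (V.tpow p) (hV.tpow1 p)
  haveI hG : GoodBase E (LC.of (V.Lens p)) := inferInstance
  haveI h1 : E.Good (V.eta p).tot := hG.tot (B := LC.of (V.Lens p)) (V.eta p) (hV.eta p)
  haveI h2 : E.Good (cof (V.eta p).zeroHom) := Good.cof E (V.eta p).cofib_zeroHom
  exact Good.of_iso E (cofOfOpen (T := (V.eta p).tot) (U := LC.of (V.Sph × Cx))
    (V.eta p).zeroHom (lensJ p) (isOpenEmbedding_lensJ hV hp)
    (mem_range_lensJ_iff hV hp)).symm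

/-- One step of the lens lemma, for lens spaces. -/
theorem lens_one (hp : p ≠ 0) (X : LC) [E.Good X] {i : ℤ}
    {z : E.U (LC.of (Lens p (I ⊕ Unit)) ⊗ X)}
    (hz : z ∈ E.deg (LC.of (Lens p (I ⊕ Unit)) ⊗ X) i)
    (h0 : E.act (fstC (LC.of (Lens p (I ⊕ Unit))) X) (o.vL p (I ⊕ Unit)) z = 0) :
    ∃ g : E.U (LC.of (Gr 1 I)),
      o.e (B := LC.of (Gr 1 I)) ((taut 1 I).tpow p) ((taut_isRank 1 I).tpow1 p) = g * o.z I ∧
      ∃ x ∈ E.deg X i, E.map (cmap (lensInc p I) ▷ X) z =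
        E.cross (E.mapAlg (X := LC.of (Lens p I)) (Y := LC.of (Gr 1 I)) (Lens.toGr p I) g) x := by
  have hG1 : GoodBase E (LC.of (Gr 1 I)) := inferInstance
  have hG2 : GoodBase E (LC.of (Gr 1 (I ⊕ Unit))) := inferInstance
  have hL1 : GoodBase E (LC.of (Lens p I)) := inferInstance
  have hL2 : GoodBase E (LC.of (Lens p (I ⊕ Unit))) := inferInstance
  have hV' := taut_isRank 1 I
  have hV := taut_isRank 1 (I ⊕ Unit)
  haveI i1 : E.Good (taut 1 (I ⊕ Unit)).tot := hG2.tot (B := LC.of (Gr 1 (I ⊕ Unit))) _ hV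
  haveI i2 : E.Good ((taut 1 (I ⊕ Unit)).tpow p).tot :=
    hG2.tot (B := LC.of (Gr 1 (I ⊕ Unit))) _ (hV.tpow1 p)
  haveI i3 : E.Good ((taut 1 (I ⊕ Unit)).eta p).tot :=
    hL2.tot (B := LC.of (Lens p (I ⊕ Unit))) _ (hV.eta p)
  haveI i4 : E.Good (LC.of (taut 1 (I ⊕ Unit)).Sph ⊗ CxLC) :=
    good_sph_cx (taut 1 (I ⊕ Unit)) hV hp
  haveI i5 : E.Good (taut 1 I).tot := hG1.tot (B := LC.of (Gr 1 I)) _ hV'
  haveI i6 : E.Good ((taut 1 I).tpow p).tot := hG1.tot (B := LC.of (Gr 1 I)) _ (hV'.tpow1 p)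
  haveI i7 : E.Good ((taut 1 I).eta p).tot := hL1.tot (B := LC.of (Lens p I)) _ (hV'.eta p)
  obtain ⟨g, hg0, hg⟩ := exists_theta o (p := p) hV' hp
  refine ⟨g, ?_, ?_⟩
  · have h1 := eul_tpow_eq o hV' hp hg
    rw [eul_eq_e, eul_eq_e, e_taut_z] at h1
    exact h1
  · refine lens_step o (tautInc I) hV' hV hp sph_homotopic hg0 hg X hz ?_
    rw [eul_eq_e]
    exact h0

/-- **The lens lemma** for lens spaces. -/
theorem lens_two (hF : o.HasLaw (D.F.map D.φ)) (hp : p ≠ 0) {k : ℕ} (hI : Fintype.card I = k + 1)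
    (X : LC) [E.Good X] {i : ℤ} {z : E.U (LC.of (Lens p ((I ⊕ Unit) ⊕ Unit)) ⊗ X)}
    (hz : z ∈ E.deg (LC.of (Lens p ((I ⊕ Unit) ⊕ Unit)) ⊗ X) i)
    (h0 : E.act (fstC (LC.of (Lens p ((I ⊕ Unit) ⊕ Unit))) X)
      (o.vL p ((I ⊕ Unit) ⊕ Unit)) z = 0) :
    ∃ y ∈ E.deg X i, E.map (cmap (lensInc p I) ▷ X) (E.map (cmap (lensInc p (I ⊕ Unit)) ▷ X) z) =
      ∑ l ∈ range (k + 1), D.φ (PowerSeries.coeff l (divSeries D.F p)) •
        ((E.act (fstC (LC.of (Lens p I)) X) (o.vL p I))^[l]) (pull E (LC.of (Lens p I)) X y) := by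
  obtain ⟨g, hg, x, hx, h1⟩ := lens_one o hp X hz h0
  refine ⟨x, hx, ?_⟩
  have h2 : E.map (cmap (lensInc p I)) (E.mapAlg (X := LC.of (Lens p (I ⊕ Unit)))
      (Y := LC.of (Gr 1 (I ⊕ Unit))) (Lens.toGr p (I ⊕ Unit)) g) =
      D.ev k (o.vL p I) (divSeries D.F p) := by
    rw [← mapAlg_apply, mapAlg_lensInc_toGr, mapAlg_grInc_theta o hF hI hg, mapAlg_ev,
      ← vL_eq_map_z]
  rw [h1, ← cross_map_left, h2, CoeffData.ev, map_sum, AddMonoidHom.finsetSum_apply]
  refine Finset.sum_congr rfl fun l _ => ?_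
  rw [cross_smul_left, LensData.iterate_act, act_pull]

end lens

/-! ### The instance -/

/-- index types with `k + 1` elements -/
def Idx : ℕ → Type
  | 0 => Unit
  | k + 1 => Idx k ⊕ Unit

instance instFintypeIdx : ∀ k, Fintype (Idx k)
  | 0 => inferInstanceAs (Fintype Unit)
  | k + 1 => @instFintypeSum (Idx k) Unit (instFintypeIdx k) _

instance instDecidableEqIdx : ∀ k, DecidableEq (Idx k)
  | 0 => inferInstanceAs (DecidableEq Unit)
  | k + 1 => @instDecidableEqSum (Idx k) Unit (instDecidableEqIdx k) _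

theorem card_Idx : ∀ k, Fintype.card (Idx k) = k + 1
  | 0 => (Fintype.card_unit : Fintype.card Unit = 1)
  | k + 1 => by
    have h : Fintype.card (Idx k ⊕ Unit) = k + 1 + 1 := by
      rw [Fintype.card_sum, Fintype.card_unit, card_Idx k]
    exact h

/-- the base point of the lens space -/
def lensBasePt (p : ℕ) : ∀ k, Lens p (Idx k)
  | 0 => SS.lens p ⟨fun _ => 1, by simp [nsq, card_Idx]⟩
  | k + 1 => lensInc p (Idx k) (lensBasePt p k)

/-- **The lens data** of an oriented theory. -/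
noncomputable def lensData {E : MultTheory.{v}} (o : Orientation E) {C : Type} [CommRing C]
    (D : CoeffData E C) (hF : o.HasLaw (D.F.map D.φ)) {p : ℕ} (hp : p ≠ 0) : LensData E D p where
  B k := LC.of (Lens p (Idx k))
  cpt k := inferInstanceAs (CompactSpace (Lens p (Idx k)))
  good k := (inferInstance : GoodBase E (LC.of (Lens p (Idx k)))).toGood
  b k := lensBasePt p k
  inc k := lensInc p (Idx k)
  inc_b _ := rfl
  v k := o.vL p (Idx k)
  v_deg _ := vL_deg o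
  v_pow k := vL_pow_eq_zero o (card_Idx k).le
  v_b k := vL_point o (Idx k) _
  v_inc k := mapAlg_lensInc_vL o (I := Idx k)
  lens X _ k _ _ hz h0 := lens_two o hF hp (card_Idx k) X hz h0

end Vale.Agent.P251.Q
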