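import Vale.Agent.P251.Q.Powers
import Vale.Agent.P251.Q.LensInst

/-!
# P251, part Q: the frames on the lens spaces

`frameData` : the `FrameData` of the tower of lens spaces, with the frames `lensFrames` and
`ρ̄ = rhobar`, from the formula for `e(γ ⊗ ρ̄)`.
-/

set_option linter.unusedSectionVars false

open CategoryTheory MonoidalCategory Matrix Topology
open Vale.Agent.P251.G Vale.Agent.P251.G.LC Vale.Agent.P251.G.Bun

universe v

noncomputable section

namespace Vale.Agent.P251.Q

open MultTheory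

variable {E : MultTheory.{v}} (o : Orientation E) {C : Type} [CommRing C] (D : CoeffData E C)
variable (hF : o.HasLaw (D.F.map D.φ)) {r : ℕ}

/-- The formula for `e(γ ⊗ ρ̄)` over the lens space of `ℂ^κ`, for `p = r + 1`. -/
def LensEuler (r k : ℕ) (κ : Type) [Fintype κ] : Prop :=
  ∀ (m : ℕ) (I : Type) [Fintype I], EulerForm (B := Lens (r + 1) κ) o (rhobar (r + 1) κ)
    (rhobar_isRank (r + 1) κ) (D.ev k (o.vL (r + 1) κ) (wSeries D.F (r + 1)))
    (D.vspan (o.vL (r + 1) κ) : Set (E.U (LC.of (Lens (r + 1) κ)))) m I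

theorem good_ρW {B κ W : Type} {j : ℕ} [TopologicalSpace B] [CompactSpace B] [T2Space B]
    [Fintype κ] [DecidableEq κ] [Fintype W] [DecidableEq W] [hB : GoodBase E (LC.of B)]
    (F : Frames B κ (Fin (j + 1))) : E.Good (F.ρW W).tot :=
  hB.tot (B := LC.of B) (F.ρW W) (isRank_ρW F)

/-- The frames of the lens spaces. -/
def frameData (k : ℕ) (euler : LensEuler o D r k (Idx k)) :
    FrameData o (lensData o D hF (Nat.succ_ne_zero r)) r k where
  κ' := RbarIdx (r + 1) (Idx k)
  F := lensFrames (r + 1) (Nat.succ_ne_zero r) (Idx k)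
  ρb := rhobar (r + 1) (Idx k)
  rank := rhobar_isRank (r + 1) (Idx k)
  eq_sum := lensFrames_ρ (r + 1) (Nat.succ_ne_zero r) (Idx k)
  c₀ := Real.sqrt ((r + 1 : ℕ) : ℝ)
  pos := Real.sqrt_pos.mpr (by exact_mod_cast Nat.succ_pos r)
  s_eq := lensFrames_s (r + 1) (Nat.succ_ne_zero r) (Idx k)
  good _ := good_ρW (lensFrames (r + 1) (Nat.succ_ne_zero r) (Idx k))
  goodB := (inferInstance : GoodBase E (LC.of (Lens (r + 1) (Idx k)))).toGood
  euler := euler

end Vale.Agent.P251.Q
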