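import Vale.Agent.P251.Q.Euler
import Vale.Agent.P251.G.CellInst

/-!
# Good objects: spaces with a chain of cells

For every multiplicative theory `E`: compact spaces with a finite chain of cells (`HasChain`:
Grassmannians, lens spaces, unit sphere bundles, products, finite spaces) are good, and so are the
total spaces of all bundles over them (`GoodBase`).
-/

namespace Vale.Agent.P251.Q

open G G.LC G.Cell

variable (E : MultTheory)

instance good_of_hasChain {Y : Type} [TopologicalSpace Y] [CompactSpace Y] [T2Space Y]
    [HasChain Y] : E.Good (LC.of Y) := MultTheory.Good.of_FC E (fc_of_hasChain Y)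

instance good_tot {Y : Type} [TopologicalSpace Y] [CompactSpace Y] [T2Space Y] [HasChain Y]
    {ι : Type} [Fintype ι] (V : Bun Y ι) : E.Good V.tot := MultTheory.Good.of_FC E (fc_tot V)

theorem good_Th' (n : ℕ) (I : Type) [Fintype I] : E.good (LC.of (Th n I)) :=
  E.good_of_FC (fc_th n I)

instance good_Th_inst (n : ℕ) (I : Type) [Fintype I] : E.Good (LC.of (Th n I)) :=
  ⟨good_Th' E n I⟩

instance good_cvec (I : Type) [Fintype I] : E.Good (LC.of (I → ℂ)) :=
  MultTheory.Good.of_FC E (fc_cvec I)

instance goodBase_of_hasChain {Y : Type} [TopologicalSpace Y] [CompactSpace Y] [T2Space Y]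
    [HasChain Y] : GoodBase E (LC.of Y) where
  out := (good_of_hasChain E (Y := Y)).out
  tot W _ := good_tot E (Y := Y) W

end Vale.Agent.P251.Q
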