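import Vale.Agent.P251.Q.QData
import Vale.Agent.P251.Q.FrameInst
import Vale.Agent.P251.Q.GoodInst

/-!
# P251, part Q: the main theorem for a Thom theory

`ThomTheory.qData_of_euler` : part Q for an odd prime `p` from the formula for `e(γ ⊗ ρ̄)` over the
lens spaces (`LensEuler`, to be supplied by `Q/Q4.lean`).
-/

open CategoryTheory MonoidalCategory OnePoint Topology
open Vale.Agent.P251.G Vale.Agent.P251.G.LC Vale.Agent.P251.F

universe v

namespace Vale.Agent.P251.Q

open MultTheory

namespace ThomTheory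

variable (E : ThomTheory.{v})

/-- Part Q from the formula for `e(γ ⊗ ρ̄)` over the lens spaces. -/
theorem qData_of_euler {p : ℕ} (hp : p.Prime) (hp2 : p ≠ 2)
    (H : ∀ r, p = r + 1 → ∀ k, LensEuler E.o E.o.coeff r k (Idx k))
    (h1 : ∀ a : ℤ, p • a • E.one = 0 → a • E.one = 0) : QData E.toMultTheory E.o.law p := by
  obtain ⟨r, rfl⟩ : ∃ r, p = r + 1 := ⟨p - 1, by have := hp.two_le; omega⟩
  have hr2 : 2 ≤ r := by have := hp.two_le; omega
  exact E.qData_of_frames hp rfl hr2 (E.o.lensTower (Nat.succ_ne_zero r))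
    (fun k => frameData E.o E.o.coeff (hasLaw_coeff E.o) k (H r rfl k)) h1

end ThomTheory

end Vale.Agent.P251.Q
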