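import Vale.Agent.P251.Q.Defs

/-!
# P251, part Q: objects with a universal basis

`FreeOn E P b` : for every good `X` the map `(u t)_t ↦ ∑ t, u t × b t`, `U(X)^T → U(X ⊗ P)`, is
bijective.  This is stable under tensor products (`FreeOn.tensor`) and isomorphisms.
-/

open CategoryTheory MonoidalCategory OnePoint
open Vale.Agent.P251.G Vale.Agent.P251.G.LC

universe v

namespace Vale.Agent.P251.Q

namespace MultTheory

variable (E : MultTheory.{v})

/-- `∑ t, u t × b t` -/
noncomputable def comb {P : LC} {T : Type} [Fintype T] (b : T → E.U P) (X : LC) :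
    (T → E.U X) →+ E.U (X ⊗ P) where
  toFun u := ∑ t, E.cross (u t) (b t)
  map_zero' := by simp
  map_add' u v := by
    rw [← Finset.sum_add_distrib]
    exact Finset.sum_congr rfl fun t _ => by rw [Pi.add_apply, map_add, AddMonoidHom.add_apply]

theorem comb_apply {P : LC} {T : Type} [Fintype T] (b : T → E.U P) (X : LC) (u : T → E.U X) :
    E.comb b X u = ∑ t, E.cross (u t) (b t) := rfl

/-- `b` is a universal basis of the cohomology of `P`. -/
def FreeOn {P : LC} {T : Type} [Fintype T] (b : T → E.U P) : Prop :=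
  ∀ (X : LC) [E.Good X], Function.Bijective (E.comb b X)

variable {E}

theorem comb_map {P X Y : LC} [E.Good P] [E.Good X] [E.Good Y] {T : Type} [Fintype T]
    (b : T → E.U P) (f : X ⟶ Y) (u : T → E.U Y) :
    E.comb b X (fun t => E.map f (u t)) = E.map (f ▷ P) (E.comb b Y u) := by
  rw [comb_apply, comb_apply, map_sum]
  exact Finset.sum_congr rfl fun t _ => cross_map_left f _ _

theorem comb_cross {P X Y : LC} [E.Good P] [E.Good X] [E.Good Y] {T : Type} [Fintype T]
    (b : T → E.U P) (x : E.U X) (u : T → E.U Y) :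
    E.comb b (X ⊗ Y) (fun t => E.cross x (u t)) =
      E.map (α_ X Y P).hom (E.cross x (E.comb b Y u)) := by
  rw [comb_apply, comb_apply, map_sum, map_sum]
  exact Finset.sum_congr rfl fun t _ => (cross_assoc _ _ _).symm

/-- change of the index set -/
theorem FreeOn.reindex {P : LC} {T S : Type} [Fintype T] [Fintype S] {b : T → E.U P}
    (h : E.FreeOn b) (e : S ≃ T) : E.FreeOn fun s => b (e s) := by
  intro X _
  have h1 : ∀ u : S → E.U X, E.comb (fun s => b (e s)) X u = E.comb b X (fun t => u (e.symm t)) := by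
    intro u
    rw [comb_apply, comb_apply]
    refine Fintype.sum_equiv e _ _ fun s => ?_
    rw [Equiv.symm_apply_apply]
  have h2 : (E.comb (fun s => b (e s)) X : (S → E.U X) → _) =
      E.comb b X ∘ (Equiv.arrowCongr e (Equiv.refl _)) := by
    funext u
    rw [h1]
    rfl
  rw [h2]
  exact (h X).comp (Equiv.bijective _)

/-- the unit object -/
theorem freeOn_unit {T : Type} [Fintype T] [Unique T] : E.FreeOn (P := 𝟙_ LC) fun _ : T => E.one := by
  intro X _
  have h1 : ∀ u : T → E.U X, E.comb (P := 𝟙_ LC) (fun _ : T => E.one) X u =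
      E.map (ρ_ X).hom (u default) := by
    intro u
    rw [comb_apply, Fintype.sum_unique, cross_one]
  constructor
  · intro u v h
    rw [h1, h1] at h
    have h3 := congrArg (E.map (ρ_ X).inv) h
    rw [map_inv_hom, map_inv_hom] at h3
    funext t
    rwa [Subsingleton.elim t default]
  · intro y
    refine ⟨fun _ => E.map (ρ_ X).inv y, ?_⟩
    rw [h1, map_hom_inv]

/-- invariance under isomorphism -/
theorem FreeOn.iso {P Q : LC} [E.Good P] [E.Good Q] {T : Type} [Fintype T] {b : T → E.U P}
    (h : E.FreeOn b) (e : Q ≅ P) : E.FreeOn fun t => E.map e.hom (b t) := by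
  intro X _
  have h1 : (E.comb (fun t => E.map e.hom (b t)) X : (T → E.U X) → _) =
      E.map (X ◁ e.hom) ∘ E.comb b X := by
    funext u
    rw [Function.comp_apply, comb_apply, comb_apply, map_sum]
    exact Finset.sum_congr rfl fun t _ => cross_map_right e.hom _ _
  rw [h1]
  refine Function.Bijective.comp ?_ (h X)
  constructor
  · intro a b hab
    have h3 := congrArg (E.map (whiskerLeftIso X e).inv) hab
    have h4 : ∀ y : E.U (X ⊗ P), E.map (whiskerLeftIso X e).inv (E.map (X ◁ e.hom) y) = y :=
      fun y => map_inv_hom (whiskerLeftIso X e) y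
    rwa [h4, h4] at h3
  · intro y
    exact ⟨E.map (whiskerLeftIso X e).inv y, map_hom_inv (whiskerLeftIso X e) y⟩

/-- tensor products -/
theorem FreeOn.tensor {P Q : LC} [E.Good P] [E.Good Q] {T S : Type} [Fintype T] [Fintype S]
    {b : T → E.U P} {c : S → E.U Q} (hb : E.FreeOn b) (hc : E.FreeOn c) :
    E.FreeOn (P := P ⊗ Q) fun ts : T × S => E.cross (b ts.1) (c ts.2) := by
  intro X _
  have h1 : ∀ u : T × S → E.U X,
      E.map (α_ X P Q).hom (E.comb (fun ts : T × S => E.cross (b ts.1) (c ts.2)) X u) =
        E.comb c (X ⊗ P) (fun s => E.comb b X fun t => u (t, s)) := by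
    intro u
    rw [comb_apply, comb_apply, Fintype.sum_prod_type_right, map_sum]
    refine Finset.sum_congr rfl fun s _ => ?_
    rw [comb_apply, map_sum, map_sum, AddMonoidHom.finsetSum_apply]
    refine Finset.sum_congr rfl fun t _ => ?_
    exact cross_assoc _ _ _
  have h2 : Function.Bijective fun u : T × S → E.U X =>
      E.comb c (X ⊗ P) (fun s => E.comb b X fun t => u (t, s)) := by
    refine (hc (X ⊗ P)).comp (f := fun (u : T × S → E.U X) (s : S) =>
      E.comb b X fun t => u (t, s)) ?_
    constructor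
    · intro u v huv
      funext ⟨t, s⟩
      exact congrFun ((hb X).1 (congrFun huv s)) t
    · intro y
      choose g hg using fun s => (hb X).2 (y s)
      exact ⟨fun ts => g ts.2 ts.1, funext hg⟩
  constructor
  · intro u v huv
    refine h2.1 ?_
    change E.comb c (X ⊗ P) (fun s => E.comb b X fun t => u (t, s)) =
      E.comb c (X ⊗ P) (fun s => E.comb b X fun t => v (t, s))
    rw [← h1, ← h1, huv]
  · intro y
    obtain ⟨u, hu⟩ := h2.2 (E.map (α_ X P Q).hom y)
    refine ⟨u, ?_⟩
    have h3 := congrArg (E.map (α_ X P Q).inv) ((h1 u).trans hu)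
    rwa [map_inv_hom, map_inv_hom] at h3

end MultTheory

end Vale.Agent.P251.Q
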