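import Vale.Agent.P251.Q.Exact
import Vale.Agent.P251.Q.FreeOn
import Vale.Agent.P251.Q.Thom
import Vale.Agent.P251.G.GrCofib

/-!
# P251, part Q: the cohomology of projective spaces

`(E, o)` an oriented theory.  `o.z I : E.U (Gr 1 I)` is the Euler class of the tautological line
bundle of the projective space `Gr 1 I`.

* `z_map` : naturality for isometries;
* `proj_formula` : the projection formula;
* `z_pow_eq_zero` : `z ^ |I| = 0`;
* `freeOn_z` : `1, z, .., z ^ (|I| - 1)` is a universal basis of the cohomology of `Gr 1 I`.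
-/

open CategoryTheory MonoidalCategory OnePoint Matrix Topology
open Vale.Agent.P251.G Vale.Agent.P251.G.LC

universe v

noncomputable section

namespace Vale.Agent.P251.Q

open MultTheory

/-! ### Geometry -/

section geometry

variable {I J : Type} [Fintype I] [Fintype J] {n : ℕ}

/-- The open and the closed stratum of a Grassmannian. -/
theorem cofSeq_gr : CofSeq (Gr.addOneHom (n := n) (I := I)) Gr.collapse :=
  CofSeq.of_closed_open (Z := LC.of (Gr n I)) (Y := LC.of (Gr (n + 1) (I ⊕ Unit)))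
    (V := LC.of (Th (n + 1) I)) Gr.addOne Gr.isClosedEmbedding_addOne Th.graph
    Th.isOpenEmbedding_graph (by
      rw [Gr.range_addOne, Th.range_graph]
      exact isCompl_compl) Gr.cofib_addOneHom

/-- the retraction onto the base point of a projective space -/
def Gr.retr (I : Type) [Fintype I] : LC.of (Gr 1 (I ⊕ Unit)) ⟶ LC.of (Gr 0 I) :=
  LC.ofCompact (X := LC.of (Gr 1 (I ⊕ Unit))) (Y := LC.of (Gr 0 I)) (fun _ => default)
    continuous_const

theorem addOneHom_retr : Gr.addOneHom (n := 0) (I := I) ≫ Gr.retr I = 𝟙 _ := by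
  apply LC.hom_ext
  intro P
  rw [app_comp, app_id]
  have h1 : app (Gr.addOneHom (n := 0) (I := I)) (P : OnePoint (Gr 0 I)) =
    (P.addOne : OnePoint (Gr 1 (I ⊕ Unit))) := app_addOneHom P
  rw [h1]
  exact congrArg (fun Q : Gr 0 I => (Q : OnePoint (Gr 0 I))) (Subsingleton.elim _ _)

/-- `Gr 0 I` is a point -/
def grZeroIso (I : Type) [Fintype I] : LC.of (Gr 0 I) ≅ 𝟙_ LC :=
  ofHomeo (X := LC.of (Gr 0 I)) (Y := LC.of Unit) (Homeomorph.homeomorphOfUnique (Gr 0 I) Unit)

variable [DecidableEq I] [DecidableEq J]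

/-- the continuous map of Grassmannians induced by an isometry -/
def grMapC (n : ℕ) (u : Matrix J I ℂ) (hu : uᴴ * u = 1) :
    C((LC.of (Gr n I) : LC), (LC.of (Gr n J) : LC)) where
  toFun := fun x : Gr n I => (⟨u * x.P * uᴴ, x.isProj.conj (by rw [hu, Matrix.one_mul])⟩ : Gr n J)
  continuous_toFun := Continuous.subtype_mk ((continuous_const.matrix_mul
    Gr.continuous_P).matrix_mul continuous_const) _

omit [DecidableEq J] in
theorem grMapC_P (u : Matrix J I ℂ) (hu : uᴴ * u = 1) (x : Gr n I) :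
    Gr.P (grMapC n u hu x : Gr n J) = u * x.P * uᴴ := rfl

/-- the morphism of Grassmannians induced by an isometry -/
def grMap (n : ℕ) (u : Matrix J I ℂ) (hu : uᴴ * u = 1) : LC.of (Gr n I) ⟶ LC.of (Gr n J) :=
  cmap (grMapC n u hu)

omit [DecidableEq J] in
theorem app_grMap (u : Matrix J I ℂ) (hu : uᴴ * u = 1) (x : Gr n I) :
    app (grMap n u hu) (x : OnePoint (Gr n I)) =
      ((grMapC n u hu x : Gr n J) : OnePoint (Gr n J)) := rfl

omit [DecidableEq J] in
theorem grMap_congr {u u' : Matrix J I ℂ} (h : u = u') (hu : uᴴ * u = 1) (hu' : u'ᴴ * u' = 1) :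
    grMap n u hu = grMap n u' hu' := by
  subst h; rfl

theorem grMap_one : grMap n (1 : Matrix I I ℂ) isom_one = 𝟙 (LC.of (Gr n I)) := by
  apply LC.hom_ext
  intro x
  rw [app_id]
  refine (app_grMap (n := n) 1 isom_one x).trans (congrArg _ (Gr.ext ?_))
  rw [grMapC_P]
  simp

theorem grMap_comp {K : Type} [Fintype K] [DecidableEq K] (u : Matrix J I ℂ)
    (hu : uᴴ * u = 1) (w : Matrix K J ℂ) (hw : wᴴ * w = 1) :
    grMap n u hu ≫ grMap n w hw = grMap n (w * u) (isom_mul hw hu) := by
  apply LC.hom_ext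
  intro x
  rw [app_comp]
  change (((grMapC n w hw (grMapC n u hu x : Gr n J) : Gr n K)) : OnePoint (Gr n K)) =
    ((grMapC n (w * u) (isom_mul hw hu) x : Gr n K) : OnePoint (Gr n K))
  refine congrArg _ (Gr.ext ?_)
  rw [grMapC_P, grMapC_P, grMapC_P]
  simp [Matrix.mul_assoc, conjTranspose_mul]

/-- reindexing as an isomorphism of Grassmannians -/
def grReindex (n : ℕ) (e : I ≃ J) : LC.of (Gr n I) ≅ LC.of (Gr n J) where
  hom := grMap n (injMat e) (injMat_isom e.injective)
  inv := grMap n (injMat e.symm) (injMat_isom e.symm.injective)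
  hom_inv_id := by
    rw [grMap_comp, ← grMap_one]
    refine grMap_congr ?_ _ _
    rw [injMat_comp, ← injMat_id]
    congr 1
    ext x; simp
  inv_hom_id := by
    rw [grMap_comp, ← grMap_one]
    refine grMap_congr ?_ _ _
    rw [injMat_comp, ← injMat_id]
    congr 1
    ext x; simp

@[reassoc]
theorem zeroHom_map (u : Matrix J I ℂ) (hu : uᴴ * u = 1) :
    Gr.zeroHom (n := n) ≫ Th.map u hu = grMap n u hu ≫ Gr.zeroHom := by
  apply LC.hom_ext
  intro x
  rw [app_comp, app_comp]
  change ((Th.mapFun u hu (Gr.zero x) : Th n J) : OnePoint (Th n J)) =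
    ((Gr.zero (grMapC n u hu x) : Th n J) : OnePoint (Th n J))
  refine congrArg _ (Th.ext rfl ?_)
  rw [Th.mapFun_v]
  exact mulVec_zero _

end geometry

section theory

variable {E : MultTheory.{v}} (o : Orientation E)
variable {I J : Type} [Fintype I] [Fintype J]

/-! ### Goodness -/

theorem good_gr_zero (E : MultTheory.{v}) (I : Type) [Fintype I] : E.Good (LC.of (Gr 0 I)) :=
  Good.of_iso E (grZeroIso I).symm

include o in
/-- the induction step for `Gr (n + 1) (I ⊕ Unit)` -/
theorem good_gr_succ (n : ℕ) (I : Type) [Fintype I] [E.Good (LC.of (Gr n I))] :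
    E.Good (LC.of (Gr (n + 1) (I ⊕ Unit))) := by
  have := o.goodTh
  have : E.Good (cof (Gr.addOneHom (n := n) (I := I))) :=
    Good.of_iso E Gr.cofAddOne.symm
  exact Good.ext E Gr.cofib_addOneHom

include o in
theorem good_gr_one (I : Type) [Fintype I] : E.Good (LC.of (Gr 1 I)) := by
  classical
  obtain ⟨N, hN⟩ : ∃ N, Fintype.card I = N := ⟨_, rfl⟩
  cases N with
  | zero =>
    have : IsEmpty I := Fintype.card_eq_zero_iff.mp hN
    have : IsEmpty (LC.of (Gr 1 I) : LC) := inferInstanceAs (IsEmpty (Gr (0 + 1) I))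
    exact Good.of_contr E (contr_of_isEmpty _)
  | succ N =>
    have := good_gr_zero E (Fin N)
    have : E.Good (LC.of (Gr 1 (Fin N ⊕ Unit))) := good_gr_succ o 0 (Fin N)
    exact Good.of_iso E (grReindex 1 ((finSumUnit N).trans
      (Fintype.equivFinOfCardEq hN).symm))

/-! ### The Euler class -/

/-- The Euler class of the tautological line bundle. -/
def Orientation.z (I : Type) [Fintype I] : E.U (LC.of (Gr 1 I)) :=
  E.map Gr.zeroHom (o.tau 1 I)

theorem z_deg (I : Type) [Fintype I] : o.z I ∈ E.deg (LC.of (Gr 1 I)) 1 := by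
  have := good_gr_one o I
  have := o.goodTh
  exact map_deg _ (o.tau_deg 1 I)

theorem z_map [DecidableEq I] [DecidableEq J] (u : Matrix J I ℂ) (hu : uᴴ * u = 1) :
    E.map (grMap 1 u hu) (o.z J) = o.z I := by
  have := good_gr_one o I
  have := good_gr_one o J
  have := o.goodTh
  unfold Orientation.z
  rw [← MultTheory.map_comp, ← zeroHom_map, MultTheory.map_comp, tau_map]

theorem z_collapse : E.map Gr.collapse (o.tau 1 I) = o.z (I ⊕ Unit) := by
  classical
  have := good_gr_one o (I ⊕ Unit)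
  have := o.goodTh
  unfold Orientation.z
  rw [MultTheory.map_homotopic Gr.zeroHom_homotopic, MultTheory.map_comp]
  congr 1
  exact (tau_map o 1 _ (injMat_isom Sum.inl_injective)).symm

/-! ### The Thom isomorphism of the tautological bundle -/

/-- the tautological bundle over `X × Gr n I` -/
def tautX (X : LC) (n : ℕ) (I : Type) [Fintype I] : Bun (X ⊗ LC.of (Gr n I) : LC) I :=
  (taut n I).pullback (sndC X (LC.of (Gr n I)))

theorem isRank_tautX (X : LC) (n : ℕ) (I : Type) [Fintype I] : (tautX X n I).IsRank n :=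
  fun p => (taut_isRank n I) (sndC X (LC.of (Gr n I)) p)

/-- the total space of the tautological bundle over `X × Gr n I` -/
def tautXIso (X : LC) (n : ℕ) (I : Type) [Fintype I] :
    (tautX X n I).tot ≅ X ⊗ LC.of (Th n I) :=
  ofHomeo (X := (tautX X n I).tot) (Y := LC.of (X × Th n I))
    { toFun := fun p => ((Bun.base p).1, Th.mk (Gr.P (Bun.base p).2) (Bun.vec p)
        (Gr.isProj (Bun.base p).2) (Bun.P_vec p))
      invFun := fun q => Bun.mkE (tautX X n I) (q.1, q.2.gr) q.2.v q.2.P_mulVec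
      left_inv := fun _ => rfl
      right_inv := fun _ => rfl
      continuous_toFun := (continuous_fst.comp Bun.continuous_base).prodMk
        (Continuous.subtype_mk ((Gr.continuous_P.comp (continuous_snd.comp
          Bun.continuous_base)).prodMk Bun.continuous_vec) _)
      continuous_invFun := Bun.continuous_mkE
        (continuous_fst.prodMk (Th.continuous_gr.comp continuous_snd))
        (Th.continuous_v.comp continuous_snd) _ }

theorem tautXIso_thomMor (X : LC) (n : ℕ) (I : Type) [Fintype I] :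
    thomMor (tautX X n I) (isRank_tautX X n I) =
      (tautXIso X n I).hom ≫ X ◁ Th.delta ≫ (α_ X (LC.of (Gr n I)) (LC.of (Th n I))).inv := by
  apply LC.hom_ext
  intro p
  rfl

/-- the Thom map of the tautological bundle over `X × Gr n I` -/
def Orientation.psi (X : LC) (n : ℕ) (I : Type) [Fintype I] :
    E.U (X ⊗ LC.of (Gr n I)) →+ E.U (X ⊗ LC.of (Th n I)) :=
  (E.map (X ◁ Th.delta ≫ (α_ X (LC.of (Gr n I)) (LC.of (Th n I))).inv)).comp
    ((E.cross (X := X ⊗ LC.of (Gr n I)) (Y := LC.of (Th n I))).flip (o.tau n I))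

theorem psi_apply (X : LC) (n : ℕ) (I : Type) [Fintype I] (y : E.U (X ⊗ LC.of (Gr n I))) :
    o.psi X n I y = E.map (X ◁ Th.delta ≫ (α_ X (LC.of (Gr n I)) (LC.of (Th n I))).inv)
      (E.cross y (o.tau n I)) := rfl

theorem psi_bijective (X : LC) [E.Good X] (n : ℕ) (I : Type) [Fintype I]
    [E.Good (LC.of (Gr n I))] : Function.Bijective (o.psi X n I) := by
  have := o.goodTh
  have : E.Good (tautX X n I).tot := Good.of_iso E (tautXIso X n I).symm
  have h1 := phi_bijective o (tautX X n I) (isRank_tautX X n I)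
  have h2 : ⇑(o.phi (tautX X n I) (isRank_tautX X n I)) =
      E.map (tautXIso X n I).hom ∘ o.psi X n I := by
    funext y
    rw [Function.comp_apply, phi_apply, psi_apply, tautXIso_thomMor, MultTheory.map_comp]
  rw [h2] at h1
  exact (Function.Bijective.of_comp_iff' (map_iso_bijective (tautXIso X n I)) _).mp h1

/-! ### The projection formula -/

theorem gdiag_eq (K : LC) [CompactSpace K] : G.diag K = Q.diag K := by
  apply LC.hom_ext
  intro x
  rfl

theorem map_diag_cross {X P : LC} [E.Good X] [E.Good P] (u : E.U X) (a b : E.U P) :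
    E.map (X ◁ Q.diag P ≫ (α_ X P P).inv) (E.cross (E.cross u a) b) = E.cross u (a * b) := by
  rw [MultTheory.map_comp, cross_assoc_inv, ← cross_map_right, mul_eq]

/-- The projection formula for the collapse `Gr n (I ⊕ Unit) ⟶ Th n I`. -/
theorem proj_formula (X : LC) [E.Good X] (n : ℕ) (I : Type) [Fintype I]
    [E.Good (LC.of (Gr n I))] [E.Good (LC.of (Gr n (I ⊕ Unit)))]
    (y : E.U (X ⊗ LC.of (Gr n (I ⊕ Unit)))) :
    E.map (X ◁ Gr.collapse) (o.psi X n I (E.map (X ◁ Gr.addZeroHom) y)) =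
      E.map (X ◁ Q.diag (LC.of (Gr n (I ⊕ Unit))) ≫ (α_ X _ _).inv)
        (E.cross y (E.map Gr.collapse (o.tau n I))) := by
  have := o.goodTh
  rw [psi_apply, ← MultTheory.map_comp, cross_map_left, cross_map_right, ← MultTheory.map_comp,
    ← MultTheory.map_comp]
  apply MultTheory.map_homotopic
  have h1 : (X ◁ Gr.collapse (n := n) (I := I) ≫ X ◁ Th.delta ≫
      (α_ X (LC.of (Gr n I)) (LC.of (Th n I))).inv) ≫ (X ◁ Gr.addZeroHom) ▷ LC.of (Th n I) =
      X ◁ (Gr.collapse ≫ Th.delta ≫ Gr.addZeroHom ▷ LC.of (Th n I)) ≫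
        (α_ X (LC.of (Gr n (I ⊕ Unit))) (LC.of (Th n I))).inv := by
    simp
  have h2 : (X ◁ Q.diag (LC.of (Gr n (I ⊕ Unit))) ≫ (α_ X _ _).inv) ≫
      (X ⊗ LC.of (Gr n (I ⊕ Unit))) ◁ Gr.collapse =
      X ◁ (Gr.collapse ≫ Th.graphPair) ≫
        (α_ X (LC.of (Gr n (I ⊕ Unit))) (LC.of (Th n I))).inv := by
    rw [← Gr.diag_collapse, gdiag_eq]
    simp
  rw [h1, h2]
  exact Homotopic.comp_right (Homotopic.whiskerLeft X
    (Homotopic.comp_left _ Th.delta_addZeroHom_homotopic)) _

/-- multiplication by `z` -/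
theorem collapse_psi_cross (X : LC) [E.Good X] (u : E.U X) (a : E.U (LC.of (Gr 1 (I ⊕ Unit))))
    [E.Good (LC.of (Gr 1 I))] [E.Good (LC.of (Gr 1 (I ⊕ Unit)))] :
    E.map (X ◁ Gr.collapse) (o.psi X 1 I (E.cross u (E.map Gr.addZeroHom a))) =
      E.cross u (a * o.z (I ⊕ Unit)) := by
  rw [cross_map_right, proj_formula, z_collapse, map_diag_cross]

/-! ### Powers of `z` -/

theorem map_cmap_pow {X Y : LC} [E.Good X] [E.Good Y] [CompactSpace X] [CompactSpace Y]
    (f : C(X, Y)) (y : E.U Y) (k : ℕ) : E.map (cmap f) (y ^ k) = E.map (cmap f) y ^ k := by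
  rw [← mapAlg_apply, ← mapAlg_apply, map_pow]

theorem map_grMap_pow [DecidableEq I] [DecidableEq J] [E.Good (LC.of (Gr 1 I))]
    [E.Good (LC.of (Gr 1 J))] (u : Matrix J I ℂ) (hu : uᴴ * u = 1) (k : ℕ) :
    E.map (grMap 1 u hu) (o.z J ^ k) = o.z I ^ k := by
  rw [grMap, map_cmap_pow]
  congr 1
  exact z_map o u hu

theorem addZeroHom_eq [DecidableEq I] (n : ℕ) : Gr.addZeroHom (n := n) (I := I) =
    grMap n (injMat Sum.inl) (injMat_isom Sum.inl_injective) := by
  apply LC.hom_ext
  intro x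
  refine congrArg (fun y : Gr n (I ⊕ Unit) => (y : OnePoint (Gr n (I ⊕ Unit)))) (Gr.ext ?_)
  rw [grMapC_P, injMat_inl_conj]
  rfl

theorem addZeroHom_z_pow [E.Good (LC.of (Gr 1 I))] [E.Good (LC.of (Gr 1 (I ⊕ Unit)))] (k : ℕ) :
    E.map Gr.addZeroHom (o.z (I ⊕ Unit) ^ k) = o.z I ^ k := by
  classical
  rw [addZeroHom_eq]
  exact map_grMap_pow o _ _ k

/-- invariance of statements on `Gr 1 I` under change of the index type -/
theorem z_pow_step [E.Good (LC.of (Gr 1 I))] [E.Good (LC.of (Gr 1 (I ⊕ Unit)))] {N : ℕ}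
    (h : o.z I ^ N = 0) : o.z (I ⊕ Unit) ^ (N + 1) = 0 := by
  have h1 := collapse_psi_cross o (𝟙_ LC) E.one (o.z (I ⊕ Unit) ^ N)
  rw [addZeroHom_z_pow, h, map_zero, map_zero, map_zero, ← pow_succ, one_cross] at h1
  have h2 := congrArg (E.map (λ_ (LC.of (Gr 1 (I ⊕ Unit)))).inv) h1
  rw [map_inv_hom, map_zero] at h2
  exact h2.symm

/-- `z` is nilpotent. -/
theorem z_pow_eq_zero (N : ℕ) : ∀ (I : Type) [Fintype I] [E.Good (LC.of (Gr 1 I))],
    Fintype.card I ≤ N → o.z I ^ N = 0 := by
  classical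
  induction N with
  | zero =>
    intro I _ _ hN
    have : IsEmpty I := Fintype.card_eq_zero_iff.mp (Nat.le_zero.mp hN)
    have : IsEmpty (LC.of (Gr 1 I) : LC) := inferInstanceAs (IsEmpty (Gr (0 + 1) I))
    have := subsingleton_of_isEmpty (E := E) (LC.of (Gr 1 I))
    exact Subsingleton.elim _ _
  | succ N ih =>
    intro I _ _ hN
    rcases hN.eq_or_lt with h | h
    · have := good_gr_one o (Fin N)
      have := good_gr_one o (Fin N ⊕ Unit)
      have h1 := z_pow_step o (ih (Fin N) (Fintype.card_fin N).le)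
      let e : I ≃ Fin N ⊕ Unit := (Fintype.equivFinOfCardEq h).trans (finSumUnit N).symm
      rw [← map_grMap_pow o (injMat e) (injMat_isom e.injective), h1, map_zero]
    · exact pow_eq_zero_of_le (Nat.le_succ N) (ih I (Nat.lt_succ_iff.mp h))

/-! ### The basis -/

/-- `1` is a universal basis of the cohomology of `Gr 0 I`. -/
theorem freeOn_gr_zero (I : Type) [Fintype I] (X : LC) [E.Good X] :
    Function.Bijective fun u : E.U X => E.cross u (E.oneU (LC.of (Gr 0 I))) := by
  have := good_gr_zero E I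
  have h1 := ((freeOn_unit (E := E) (T := Unit)).iso (grZeroIso I)) X
  have h2 : (fun u : E.U X => E.cross u (E.oneU (LC.of (Gr 0 I)))) =
      (E.comb (fun _ : Unit => E.map (grZeroIso I).hom E.one) X) ∘ fun u _ => u := by
    funext u
    rw [Function.comp_apply, comb_apply, Fintype.sum_unique]
    rfl
  rw [h2]
  exact h1.comp ⟨fun a b h => congrFun h (), fun f => ⟨f (), rfl⟩⟩

theorem collapse_injective (X : LC) [E.Good X] (I : Type) [Fintype I]
    [E.Good (LC.of (Gr 1 (I ⊕ Unit)))] :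
    Function.Injective (E.map (X ◁ Gr.collapse (n := 1) (I := I))) := by
  have := good_gr_zero E I
  refine map_injective_of_susp_surjective ((cofSeq_gr (n := 0) (I := I)).whiskerLeft X) ?_
  intro w
  refine ⟨E.map ((X ◁ Gr.retr I) ▷ RR) w, ?_⟩
  rw [← MultTheory.map_comp, ← MonoidalCategory.comp_whiskerRight,
    ← MonoidalCategory.whiskerLeft_comp, addOneHom_retr, MonoidalCategory.whiskerLeft_id,
    MonoidalCategory.id_whiskerRight, MultTheory.map_id]

theorem addOneHom_one (I : Type) [Fintype I] [E.Good (LC.of (Gr 1 (I ⊕ Unit)))] :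
    E.map (Gr.addOneHom (n := 0) (I := I)) (E.oneU (LC.of (Gr 1 (I ⊕ Unit)))) =
      E.oneU (LC.of (Gr 0 I)) := by
  have := good_gr_zero E I
  unfold oneU
  rw [← MultTheory.map_comp]
  refine congrArg (fun k => E.map k E.one) (LC.hom_ext fun x => ?_)
  rw [app_comp]
  have h1 : app (Gr.addOneHom (n := 0) (I := I)) (x : OnePoint (Gr 0 I)) =
    (Gr.addOne x : OnePoint (Gr 1 (I ⊕ Unit))) := app_addOneHom x
  rw [h1]
  rfl

theorem comb_succ {P : LC} [E.Good P] [CompactSpace P] (z : E.U P) (N : ℕ) (X : LC) [E.Good X]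
    (u : Fin (N + 1) → E.U X) :
    E.comb (fun i : Fin (N + 1) => z ^ (i : ℕ)) X u = E.cross (u 0) (E.oneU P) +
      ∑ i : Fin N, E.cross (u i.succ) (z ^ (i : ℕ) * z) := by
  rw [comb_apply, Fin.sum_univ_succ]
  congr 1

theorem freeOn_step (N : ℕ) (I : Type) [Fintype I] [E.Good (LC.of (Gr 1 I))]
    [E.Good (LC.of (Gr 1 (I ⊕ Unit)))]
    (h : E.FreeOn fun i : Fin N => o.z I ^ (i : ℕ)) :
    E.FreeOn fun i : Fin (N + 1) => o.z (I ⊕ Unit) ^ (i : ℕ) := by
  intro X _
  have := good_gr_zero E I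
  have := o.goodTh
  have hseq := (cofSeq_gr (n := 0) (I := I)).whiskerLeft X
  have key : ∀ u : Fin (N + 1) → E.U X,
      E.comb (fun i : Fin (N + 1) => o.z (I ⊕ Unit) ^ (i : ℕ)) X u =
        E.cross (u 0) (E.oneU (LC.of (Gr 1 (I ⊕ Unit)))) +
        E.map (X ◁ Gr.collapse) (o.psi X 1 I
          (E.comb (fun i : Fin N => o.z I ^ (i : ℕ)) X fun i => u i.succ)) := by
    intro u
    rw [comb_succ, comb_apply, map_sum, map_sum]
    congr 1
    refine Finset.sum_congr rfl fun i _ => ?_
    rw [← collapse_psi_cross, addZeroHom_z_pow]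
  have h0 : ∀ u : Fin (N + 1) → E.U X, E.map (X ◁ Gr.addOneHom (n := 0) (I := I))
      (E.comb (fun i : Fin (N + 1) => o.z (I ⊕ Unit) ^ (i : ℕ)) X u) =
        E.cross (u 0) (E.oneU (LC.of (Gr 0 I))) := by
    intro u
    rw [key, map_add, (exact_mid hseq _).mpr ⟨_, rfl⟩, add_zero, ← cross_map_right, addOneHom_one]
  constructor
  · rw [injective_iff_map_eq_zero]
    intro u hu
    have hu0 : u 0 = 0 := by
      have h1 := h0 u
      rw [hu, map_zero] at h1
      refine (freeOn_gr_zero (E := E) I X).1 ?_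
      change E.cross (u 0) (E.oneU (LC.of (Gr 0 I))) = E.cross 0 (E.oneU (LC.of (Gr 0 I)))
      rw [← h1, map_zero, AddMonoidHom.zero_apply]
    have h2 := key u
    rw [hu, hu0, map_zero, AddMonoidHom.zero_apply, zero_add] at h2
    have h3 := (psi_bijective o X 1 I).1 ((collapse_injective X I
      (h2.symm.trans (map_zero _).symm)).trans (map_zero _).symm)
    have h4 := (h X).1 (h3.trans (map_zero _).symm)
    funext i
    refine Fin.cases hu0 (fun j => ?_) i
    exact congrFun h4 j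
  · intro y
    obtain ⟨u0, hu0⟩ := (freeOn_gr_zero (E := E) I X).2
      (E.map (X ◁ Gr.addOneHom (n := 0) (I := I)) y)
    have h1 : E.map (X ◁ Gr.addOneHom (n := 0) (I := I))
        (y - E.cross u0 (E.oneU (LC.of (Gr 1 (I ⊕ Unit))))) = 0 := by
      rw [map_sub, ← cross_map_right, addOneHom_one, sub_eq_zero]
      exact hu0.symm
    obtain ⟨c, hc⟩ := (exact_mid hseq _).mp h1
    obtain ⟨t, rfl⟩ := (psi_bijective o X 1 I).2 c
    obtain ⟨u', rfl⟩ := (h X).2 t
    refine ⟨Fin.cons u0 u', ?_⟩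
    rw [key]
    simp only [Fin.cons_zero, Fin.cons_succ]
    rw [hc]
    abel

/-- `1, z, .., z ^ (|I| - 1)` is a universal basis of the cohomology of `Gr 1 I`. -/
theorem freeOn_z (N : ℕ) : ∀ (I : Type) [Fintype I] [E.Good (LC.of (Gr 1 I))],
    Fintype.card I = N → E.FreeOn fun i : Fin N => o.z I ^ (i : ℕ) := by
  classical
  induction N with
  | zero =>
    intro I _ _ hN X _
    have : IsEmpty I := Fintype.card_eq_zero_iff.mp hN
    have : IsEmpty (LC.of (Gr 1 I) : LC) := inferInstanceAs (IsEmpty (Gr (0 + 1) I))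
    have : IsEmpty (X ⊗ LC.of (Gr 1 I) : LC) := inferInstanceAs (IsEmpty (X × Gr 1 I))
    have := subsingleton_of_isEmpty (E := E) (X ⊗ LC.of (Gr 1 I))
    exact ⟨fun a b _ => Subsingleton.elim _ _, fun y => ⟨0, Subsingleton.elim _ _⟩⟩
  | succ N ih =>
    intro I _ _ hN
    have := good_gr_one o (Fin N)
    have := good_gr_one o (Fin N ⊕ Unit)
    have h1 := freeOn_step o N (Fin N) (ih (Fin N) (Fintype.card_fin N))
    let e : I ≃ Fin N ⊕ Unit := (Fintype.equivFinOfCardEq hN).trans (finSumUnit N).symm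
    have h2 := h1.iso (grReindex 1 e)
    convert h2 using 2 with i
    exact (map_grMap_pow o (injMat e) (injMat_isom e.injective) i).symm

/-- The left-handed version of `freeOn_z`. -/
theorem freeOn_z_left {N : ℕ} {I : Type} [Fintype I] [E.Good (LC.of (Gr 1 I))]
    (hN : Fintype.card I = N) (X : LC) [E.Good X] :
    Function.Bijective fun u : Fin N → E.U X => ∑ i : Fin N, E.cross (o.z I ^ (i : ℕ)) (u i) := by
  have h1 : (fun u : Fin N → E.U X => ∑ i : Fin N, E.cross (o.z I ^ (i : ℕ)) (u i)) =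
      E.map (β_ (LC.of (Gr 1 I)) X).hom ∘ E.comb (fun i : Fin N => o.z I ^ (i : ℕ)) X := by
    funext u
    rw [Function.comp_apply, comb_apply, map_sum]
    exact Finset.sum_congr rfl fun i _ => (cross_comm _ _).symm
  rw [h1]
  exact (map_iso_bijective (β_ (LC.of (Gr 1 I)) X)).comp (freeOn_z o N I hN X)

end theory

end Vale.Agent.P251.Q
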