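import Vale.Agent.P251.Q.Gen
import Vale.Agent.P251.G.Isom
import Mathlib.LinearAlgebra.Matrix.Rank

/-!
# P251, part Q: restriction maps between Thom spaces of Grassmannians are onto (LIM1)

`E.Onto f` : `E.map (X ◁ f)` is surjective for all good `X`.  Closed under composition, tensor
products, isomorphisms.

* `onto_addZero`, `onto_addOne` : `Gr n I → Gr n (I ⊕ Unit)`, `Gr n I → Gr (n + 1) (I ⊕ Unit)`;
* `onto_map` : `Th.map u : Th n I ⟶ Th n J` for every isometry `u`;
* `onto_sum_right`, `onto_sum_left` : the direct sum maps `Th n I ⊗ Th 1 Unit ⟶ Th p (I ⊕ Unit)`,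
  `Th 1 Unit ⊗ Th n I ⟶ Th p (Unit ⊕ I)`;
* `onto_susp_left`, `onto_susp_right` : the same with `ℂ` in place of `Th 1 Unit`.
-/

set_option linter.unusedSectionVars false
set_option linter.style.haveILetI false

open CategoryTheory MonoidalCategory OnePoint Topology Matrix
open Vale.Agent.P251.G Vale.Agent.P251.G.LC

universe v

noncomputable section

namespace Vale.Agent.P251.Q

variable {I J K : Type} [Fintype I] [Fintype J] [Fintype K] {n m p : ℕ}

/-! ### Morphisms inducing surjections -/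

namespace MultTheory

variable (E : MultTheory.{v})

/-- `f` induces surjections with all coefficients. -/
def Onto {A B : LC} (f : A ⟶ B) : Prop :=
  ∀ (X : LC) [E.Good X], Function.Surjective (E.map (X ◁ f))

variable {E}
variable {A B C D : LC} [E.Good A] [E.Good B] [E.Good C] [E.Good D]

theorem Onto.comp {f : A ⟶ B} {g : B ⟶ C} (hf : E.Onto f) (hg : E.Onto g) : E.Onto (f ≫ g) := by
  intro X _ a
  obtain ⟨b, rfl⟩ := hf X a
  obtain ⟨c, rfl⟩ := hg X b
  exact ⟨c, by rw [← MultTheory.map_comp, ← MonoidalCategory.whiskerLeft_comp]⟩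

theorem Onto.of_comp {f : A ⟶ B} {g : B ⟶ C} (h : E.Onto (f ≫ g)) : E.Onto f := by
  intro X _ a
  obtain ⟨c, hc⟩ := h X a
  refine ⟨E.map (X ◁ g) c, ?_⟩
  rw [← MultTheory.map_comp, ← MonoidalCategory.whiskerLeft_comp, hc]

theorem Onto.of_homotopic {f g : A ⟶ B} (h : E.Onto f) (hfg : Homotopic f g) : E.Onto g := by
  intro X _ a
  obtain ⟨b, rfl⟩ := h X a
  exact ⟨b, map_homotopic (hfg.symm.whiskerLeft X) b⟩

theorem Onto.of_iso (e : A ≅ B) : E.Onto e.hom := by
  intro X _ a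
  refine ⟨E.map (X ◁ e.inv) a, ?_⟩
  rw [← MultTheory.map_comp, ← MonoidalCategory.whiskerLeft_comp, Iso.hom_inv_id,
    MonoidalCategory.whiskerLeft_id, MultTheory.map_id]

theorem onto_id (A : LC) [E.Good A] : E.Onto (𝟙 A) := Onto.of_iso (Iso.refl A)

theorem Onto.whiskerLeft (C : LC) [E.Good C] {f : A ⟶ B} (h : E.Onto f) : E.Onto (C ◁ f) := by
  intro X _ a
  obtain ⟨b, hb⟩ := h (X ⊗ C) (E.map (α_ X C A).hom a)
  refine ⟨E.map (α_ X C B).inv b, ?_⟩
  rw [← MultTheory.map_comp]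
  have h1 : X ◁ C ◁ f ≫ (α_ X C B).inv = (α_ X C A).inv ≫ (X ⊗ C) ◁ f := by simp
  rw [h1, MultTheory.map_comp, hb, map_inv_hom]

theorem Onto.whiskerRight {f : A ⟶ B} (h : E.Onto f) (C : LC) [E.Good C] : E.Onto (f ▷ C) := by
  have h1 : f ▷ C = (β_ A C).hom ≫ (C ◁ f) ≫ (β_ B C).inv := by
    rw [← BraidedCategory.braiding_naturality_left_assoc, Iso.hom_inv_id, Category.comp_id]
  rw [h1]
  exact (Onto.of_iso (β_ A C)).comp ((h.whiskerLeft C).comp (Onto.of_iso (β_ B C).symm))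

theorem Onto.tensor {f : A ⟶ B} {g : C ⟶ D} (hf : E.Onto f) (hg : E.Onto g) :
    E.Onto (f ⊗ₘ g) := by
  rw [MonoidalCategory.tensorHom_def]
  exact (hf.whiskerRight C).comp (hg.whiskerLeft B)

theorem Onto.map_surjective {f : A ⟶ B} (h : E.Onto f) : Function.Surjective (E.map f) := by
  intro a
  obtain ⟨b, hb⟩ := h (𝟙_ LC) (E.map (λ_ A).hom a)
  refine ⟨E.map (λ_ B).inv b, ?_⟩
  rw [← MultTheory.map_comp, MonoidalCategory.leftUnitor_inv_naturality, MultTheory.map_comp, hb,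
    map_inv_hom]

/-- surjectivity in each degree -/
theorem Onto.exists_deg {f : A ⟶ B} (h : E.Onto f) {k : ℤ} {a : E.U A} (ha : a ∈ E.deg A k) :
    ∃ b ∈ E.deg B k, E.map f b = a := by
  obtain ⟨b, rfl⟩ := h.map_surjective a
  obtain ⟨b', hb', h1⟩ := exists_deg_of_map' f ha
  exact ⟨b', hb', h1⟩

end MultTheory

namespace Orientation

open MultTheory

variable {E : MultTheory.{v}} (o : Orientation E) [E.GoodGr]

include o

/-! ### Grassmannians -/

theorem onto_of_lift (f : C(LC.of (Gr n I), LC.of (Gr m J)))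
    (h : ∀ s ∈ o.chernAlg n I, ∃ t ∈ o.chernAlg m J, E.map (cmap f) t = s) :
    E.Onto (cmap f) := by
  intro X _ w
  have h1 : o.chernSpan n I X ≤ (E.map (X ◁ cmap f)).range := by
    unfold chernSpan
    rw [AddSubgroup.closure_le]
    rintro _ ⟨x, s, hs, rfl⟩
    obtain ⟨t, -, rfl⟩ := h s hs
    exact ⟨E.cross x t, (cross_map_right _ _ _).symm⟩
  exact h1 (o.mem_span n I X w)

theorem onto_addOne : E.Onto (Gr.addOneHom : LC.of (Gr n I) ⟶ LC.of (Gr (n + 1) (I ⊕ Unit))) := by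
  rw [← cmap_addOneC]
  exact o.onto_of_lift _ fun s hs => o.exists_lift_addOne hs

theorem onto_addZero : E.Onto (Gr.addZeroHom : LC.of (Gr n I) ⟶ LC.of (Gr n (I ⊕ Unit))) := by
  rw [← cmap_addZeroC]
  exact o.onto_of_lift _ fun s hs => o.exists_lift_addZero hs

/-! ### Thom spaces -/

omit [E.GoodGr] in
omit o in
theorem inj_delta [DecidableEq I] :
    Th.inj (n := n) (Sum.inl : I → I ⊕ Unit) Sum.inl_injective ≫ Th.delta =
      Th.delta ≫ (Gr.addZeroHom ⊗ₘ Th.inj (Sum.inl : I → I ⊕ Unit) Sum.inl_injective) := by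
  apply LC.hom_ext; intro x
  rw [app_comp, app_comp, Th.app_map_coe]
  have h1 : app (Th.delta (n := n) (I := I)) (x : OnePoint (Th n I)) =
    smash (x.gr : OnePoint (Gr n I)) (x : OnePoint (Th n I)) := rfl
  rw [h1, app_tensorHom_smash, Th.app_map_coe]
  have h2 : Th.gr (Th.mapFun (injMat (Sum.inl : I → I ⊕ Unit))
      (injMat_isom Sum.inl_injective) x) =
      Gr.addZero (n := n) (I := I) x.gr := Gr.ext (injMat_inl_conj (J := Unit) x.P)
  exact congrArg (fun a : Gr n (I ⊕ Unit) => smash (a : OnePoint (Gr n (I ⊕ Unit)))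
    ((Th.mapFun (injMat (Sum.inl : I → I ⊕ Unit)) (injMat_isom Sum.inl_injective) x :
      Th n (I ⊕ Unit)) : OnePoint (Th n (I ⊕ Unit)))) h2

omit [Fintype K] in
omit o [E.GoodGr] in
theorem whisker_tensor_assoc_inv (X : LC) {A A' B B' : LC} (f : A ⟶ A') (g : B ⟶ B') :
    X ◁ (f ⊗ₘ g) ≫ (α_ X A' B').inv = (α_ X A B).inv ≫ ((X ◁ f) ⊗ₘ g) := by
  rw [tensorHom_def, tensorHom_def]
  simp

theorem onto_inj [DecidableEq I] :
    E.Onto (Th.inj (n := n) (Sum.inl : I → I ⊕ Unit) Sum.inl_injective) := by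
  intro X _ w
  obtain ⟨u, rfl⟩ := (psi_bijective o X n I).2 w
  obtain ⟨t, rfl⟩ := o.onto_addZero X u
  refine ⟨o.psi X n (I ⊕ Unit) t, ?_⟩
  rw [psi_apply, psi_apply, ← MultTheory.map_comp, ← MonoidalCategory.whiskerLeft_comp_assoc,
    inj_delta, MonoidalCategory.whiskerLeft_comp_assoc, whisker_tensor_assoc_inv,
    ← Category.assoc, MultTheory.map_comp, ← cross_map]
  congr 2
  exact tau_map o n _ _

theorem onto_map_aux [DecidableEq I] (k : ℕ) : ∀ (J : Type) [Fintype J] [DecidableEq J]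
    (u : Matrix J I ℂ) (hu : uᴴ * u = 1), Fintype.card J = Fintype.card I + k →
    E.Onto (Th.map (n := n) u hu) := by
  induction k with
  | zero =>
    intro J _ _ u hu hJ
    have e : I ≃ J := Fintype.equivOfCardEq hJ.symm
    exact (Onto.of_iso (Th.reindex e)).of_homotopic (Th.map_homotopic_map _ _ _ _)
  | succ k ih =>
    intro J _ _ u hu hJ
    have e : (I ⊕ Fin k) ⊕ Unit ≃ J := Fintype.equivOfCardEq (by
      rw [Fintype.card_sum, Fintype.card_sum, Fintype.card_fin, Fintype.card_unit, hJ]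
      ring)
    have h1 := ih (I ⊕ Fin k) (injMat Sum.inl) (injMat_isom Sum.inl_injective)
      (by rw [Fintype.card_sum, Fintype.card_fin])
    have h2 := (h1.comp (o.onto_inj (I := I ⊕ Fin k) (n := n))).comp (Onto.of_iso (Th.reindex e))
    refine h2.of_homotopic ?_
    change Homotopic ((Th.map _ _ ≫ Th.map _ _) ≫ Th.map _ _) _
    rw [Th.map_comp, Th.map_comp]
    exact Th.map_homotopic_map _ _ _ _

/-- Every isometry induces surjections. -/
theorem onto_map [DecidableEq I] [DecidableEq J] (u : Matrix J I ℂ) (hu : uᴴ * u = 1) :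
    E.Onto (Th.map (n := n) u hu) := by
  have h1 : Fintype.card I ≤ Fintype.card J := by
    have h2 : (1 : Matrix I I ℂ).rank ≤ u.rank := by
      rw [← hu]
      exact Matrix.rank_mul_le_right _ _
    rw [Matrix.rank_one] at h2
    exact h2.trans u.rank_le_card_height
  obtain ⟨k, hk⟩ := Nat.exists_eq_add_of_le h1
  exact o.onto_map_aux k J u hu hk

/-! ### Adding a trivial line -/

omit o [E.GoodGr] in
theorem unit_P_eq_one (x : Th 1 Unit) : x.P = 1 := by
  have h3 := x.isProj.trace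
  ext i j
  rw [Subsingleton.elim i (), Subsingleton.elim j (), one_apply_eq]
  simpa [Matrix.trace] using h3

omit o [E.GoodGr] in
/-- `ℂ = Th 1 Unit` -/
def thUnitIso : LC.of ℂ ≅ LC.of (Th 1 Unit) :=
  ofHomeo (X := LC.of ℂ) (Y := LC.of (Th 1 Unit))
    { toFun := fun c => Th.mk 1 (fun _ => c) (by simpa using IsProj.one (I := Unit))
        (one_mulVec _)
      invFun := fun x => x.v ()
      left_inv := fun _ => rfl
      right_inv := fun x => Th.ext (unit_P_eq_one x).symm rfl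
      continuous_toFun := Continuous.subtype_mk
        (continuous_const.prodMk (continuous_pi fun _ => continuous_id)) _
      continuous_invFun := (continuous_apply ()).comp Th.continuous_v }

omit [E.GoodGr] in
theorem map_thUnitIso : E.map thUnitIso.hom (o.tau 1 Unit) = E.sg := by
  refine o.tau_one _ ?_
  intro c
  exact ⟨_, rfl, rfl, rfl⟩

theorem cross_tau_bijective (X : LC) [E.Good X] :
    Function.Bijective fun x : E.U X => E.cross x (o.tau 1 Unit) := by
  have h1 : o.tau 1 Unit = E.map thUnitIso.symm.hom E.sg := by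
    rw [← o.map_thUnitIso]
    exact (map_inv_hom thUnitIso _).symm
  rw [h1]
  exact cross_bijective_of_iso X thUnitIso.symm _ (sg_bijective X)

omit o [E.GoodGr] in
theorem sum_delta (h : n + 1 = n + 1) :
    Th.sum (I := I) (J := Unit) h ≫ Th.delta =
      (Th.delta ▷ LC.of (Th 1 Unit)) ≫ (α_ _ _ _).hom ≫ (Gr.addOneHom ⊗ₘ Th.sum h) := by
  apply tensor_ext; intro x y
  have h1 : app (Th.delta (n := n) (I := I)) (x : OnePoint (Th n I)) =
    smash (x.gr : OnePoint (Gr n I)) (x : OnePoint (Th n I)) := rfl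
  rw [app_comp, app_comp, Th.app_sum_smash, app_whiskerRight_smash, h1, app_comp,
    app_associator_smash, app_tensorHom_smash, Th.app_sum_smash]
  have h2 : Th.gr (Th.sumFun h x y) = Gr.addOne (n := n) (I := I) x.gr := by
    apply Gr.ext
    change fromBlocks x.P 0 0 y.P = fromBlocks x.P 0 0 1
    rw [unit_P_eq_one]
  exact congrArg (fun a : Gr (n + 1) (I ⊕ Unit) => smash (a : OnePoint (Gr (n + 1) (I ⊕ Unit)))
    ((Th.sumFun h x y : Th (n + 1) (I ⊕ Unit)) : OnePoint (Th (n + 1) (I ⊕ Unit)))) h2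

theorem onto_sum_right (h : n + 1 = p) : E.Onto (Th.sum (I := I) (J := Unit) h) := by
  classical
  subst h
  intro X _ w
  obtain ⟨w', hw'⟩ := (o.cross_tau_bijective (X ⊗ LC.of (Th n I))).2
    (E.map (α_ X (LC.of (Th n I)) (LC.of (Th 1 Unit))).hom w)
  obtain ⟨u, rfl⟩ := (psi_bijective o X n I).2 w'
  obtain ⟨t, rfl⟩ := o.onto_addOne X u
  refine ⟨o.psi X (n + 1) (I ⊕ Unit) t, ?_⟩
  have h1 : w = E.map (α_ X (LC.of (Th n I)) (LC.of (Th 1 Unit))).inv
      (E.cross (o.psi X n I (E.map (X ◁ Gr.addOneHom) t)) (o.tau 1 Unit)) := by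
    have h2 := congrArg (E.map (α_ X (LC.of (Th n I)) (LC.of (Th 1 Unit))).inv) hw'
    rw [map_inv_hom] at h2
    exact h2.symm
  rw [h1, psi_apply, psi_apply, ← MultTheory.map_comp, ← MonoidalCategory.whiskerLeft_comp_assoc,
    sum_delta, MonoidalCategory.whiskerLeft_comp_assoc, MonoidalCategory.whiskerLeft_comp_assoc,
    whisker_tensor_assoc_inv, cross_map_left, ← MultTheory.map_comp]
  have h3 : X ◁ (Th.delta (n := n) (I := I) ▷ LC.of (Th 1 Unit)) ≫ X ◁ (α_ _ _ _).hom ≫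
      (α_ X _ _).inv ≫ (X ◁ Gr.addOneHom ⊗ₘ Th.sum (rfl : n + 1 = n + 1)) =
      ((α_ X (LC.of (Th n I)) (LC.of (Th 1 Unit))).inv ≫
        (X ◁ Th.delta (n := n) (I := I) ≫ (α_ X _ _).inv) ▷ LC.of (Th 1 Unit) ≫ (α_ _ _ _).hom) ≫
        (X ◁ Gr.addOneHom ⊗ₘ Th.sum (rfl : n + 1 = n + 1)) := by
    simp
  rw [h3, MultTheory.map_comp _ (X ◁ Gr.addOneHom ⊗ₘ Th.sum (rfl : n + 1 = n + 1)), ← cross_map,
    Vale.Agent.P251.Q.tau_sum' o, ← Category.assoc, MultTheory.map_comp _ (α_ _ _ _).hom,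
    cross_assoc]

/-- the same on the left -/
theorem onto_sum_left [DecidableEq I] (h : 1 + n = p) :
    E.Onto (Th.sum (I := Unit) (J := I) h) := by
  have h' : n + 1 = p := by rw [add_comm]; exact h
  have h1 := (Onto.of_iso (E := E) (β_ (LC.of (Th 1 Unit)) (LC.of (Th n I)))).comp
    (o.onto_sum_right (I := I) h')
  rw [← Th.sum_comm h h'] at h1
  exact h1.of_comp

/-- **LIM1**, suspension on the left, followed by any isometry. -/
theorem onto_susp_left [DecidableEq I] [DecidableEq K] (h : 1 + n = p)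
    (u : Matrix K (Unit ⊕ I) ℂ) (hu : uᴴ * u = 1) :
    E.Onto ((thUnitIso.hom ▷ LC.of (Th n I)) ≫ Th.sum h ≫ Th.map u hu) :=
  ((Onto.of_iso thUnitIso).whiskerRight _).comp ((o.onto_sum_left h).comp (o.onto_map u hu))

/-- **LIM1**, suspension on the right, followed by any isometry. -/
theorem onto_susp_right [DecidableEq I] [DecidableEq K] (h : n + 1 = p)
    (u : Matrix K (I ⊕ Unit) ℂ) (hu : uᴴ * u = 1) :
    E.Onto ((LC.of (Th n I) ◁ thUnitIso.hom) ≫ Th.sum h ≫ Th.map u hu) :=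
  ((Onto.of_iso thUnitIso).whiskerLeft _).comp ((o.onto_sum_right h).comp (o.onto_map u hu))

end Orientation

end Vale.Agent.P251.Q
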