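import Vale.Agent.P251.Q.Exact

/-!
# P251, part Q: vanishing of products

* `mul_susp_eq_zero` : products in `U (Y ⊗ ℝ)` vanish;
* `map_coneConn_mul_eq_zero` : for a mapping cone `cone f` of `f : A ⟶ B`, a class coming from
  `A ⊗ ℝ` multiplies every class to zero;
* `mul_mul_cone_eq_zero` : if products vanish in `U B` then triple products vanish in `U (cone f)`.
-/

open CategoryTheory MonoidalCategory OnePoint Topology Limits
open Vale.Agent.P251.G Vale.Agent.P251.G.LC

universe v

namespace Vale.Agent.P251.Q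

section geometry

/-- The map `((y, t), r) ↦ ((y, t), (y, t + r))`. -/
noncomputable def shiftDiag (Y : LC) : (Y ⊗ RR) ⊗ HH ⟶ (Y ⊗ RR) ⊗ (Y ⊗ RR) :=
  ofClosed (X := LC.of ((Y × ℝ) × NNReal)) (Y := LC.of ((Y × ℝ) × (Y × ℝ)))
    (fun x => (x.1, (x.1.1, x.1.2 + (x.2 : ℝ))))
    (Function.LeftInverse.isClosedEmbedding
      (f := fun z : (Y × ℝ) × (Y × ℝ) => (z.1, Real.toNNReal (z.2.2 - z.1.2)))
      (fun x => by simp) (by fun_prop) (by fun_prop))

/-- the diagonal of a suspension factors through a contractible object -/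
theorem diag_susp (Y : LC) : diag (Y ⊗ RR) = coneBase (Y ⊗ RR) ≫ shiftDiag Y := by
  apply hom_ext
  rintro ⟨y, t⟩
  have h : (((y, t), (y, t + ((0 : NNReal) : ℝ))) : (Y × ℝ) × (Y × ℝ)) = ((y, t), (y, t)) := by
    simp
  exact (congrArg (fun z : (Y × ℝ) × (Y × ℝ) => (z : OnePoint ((Y × ℝ) × (Y × ℝ)))) h).symm

/-- The map `((a, b), r) ↦ ((a, b), (a, exp b + r))`. -/
noncomputable def shiftCone (A : LC) : (A ⊗ RR) ⊗ HH ⟶ (A ⊗ RR) ⊗ (A ⊗ HH) :=
  ofClosed (X := LC.of ((A × ℝ) × NNReal)) (Y := LC.of ((A × ℝ) × (A × NNReal)))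
    (fun x => (x.1, (x.1.1, expHH x.1.2 + x.2)))
    (Function.LeftInverse.isClosedEmbedding
      (f := fun z : (A × ℝ) × (A × NNReal) => (z.1, z.2.2 - expHH z.1.2))
      (fun x => by simp)
      (by
        have := isOpenEmbedding_expHH.continuous
        fun_prop)
      (by
        have := isOpenEmbedding_expHH.continuous
        fun_prop))

theorem coneBase_shiftCone (A : LC) :
    diag (A ⊗ HH) ≫ ((A ◁ collHH) ▷ (A ⊗ HH)) = (A ◁ collHH) ≫ coneBase (A ⊗ RR) ≫ shiftCone A := by
  apply hom_ext
  rintro ⟨a, h⟩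
  have e0 : (((a, h) : A × NNReal) : OnePoint (A × NNReal)) =
      smash (a : OnePoint A) (h : OnePoint NNReal) := rfl
  have e1 : app (diag (A ⊗ HH)) (((a, h) : A × NNReal) : OnePoint (A × NNReal)) =
      smash (smash (a : OnePoint A) (h : OnePoint NNReal))
        (smash (a : OnePoint A) (h : OnePoint NNReal)) := rfl
  have e2 : app (A ◁ collHH) (smash (a : OnePoint A) (h : OnePoint NNReal)) =
      smash (a : OnePoint A) (app collHH (h : OnePoint NNReal)) := app_whiskerLeft_smash _ _ _ _
  rw [app_comp, app_comp, e1, e0, e2, app_whiskerRight_smash, e2]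
  by_cases hh : h ∈ Set.range expHH
  · obtain ⟨b, rfl⟩ := hh
    have h1 : app collHH ((expHH b : NNReal) : OnePoint NNReal) = (b : OnePoint ℝ) :=
      app_ofOpen_coe (X := HH) (Y := RR) expHH isOpenEmbedding_expHH b
    rw [h1]
    have h3 : (((a, b), (a, expHH b + 0)) : (A × ℝ) × (A × NNReal)) =
        ((a, b), (a, expHH b)) := by simp
    exact (congrArg (fun z : (A × ℝ) × (A × NNReal) =>
      (z : OnePoint ((A × ℝ) × (A × NNReal)))) h3).symm
  · have h1 : app collHH (h : OnePoint NNReal) = ∞ :=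
      app_ofOpen_of_notMem (X := HH) (Y := RR) expHH isOpenEmbedding_expHH hh
    rw [h1, smash_infty_right, smash_infty_left]
    exact (app_infty (coneBase (A ⊗ RR) ≫ shiftCone A)).symm

theorem comp_diag {X Y : LC} (g : X ⟶ Y) : g ≫ diag Y = diag X ≫ (g ⊗ₘ g) := by
  apply hom_ext
  intro x
  rw [app_comp, app_comp, app_diag', app_diag, app_tensorHom_smash]

/-- the geometric content of `map_coneConn_mul_eq_zero` -/
theorem diag_coneConn {A B : LC} (f : A ⟶ B) :
    diag (LC.cone f) ≫ (coneConn f ▷ LC.cone f) =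
      coneConn f ≫ coneBase (A ⊗ RR) ≫ shiftCone A ≫ ((A ⊗ RR) ◁ coneInl f) := by
  apply cone_hom_ext
  · rw [← Category.assoc, comp_diag, Category.assoc, ← MonoidalCategory.tensorHom_id,
      MonoidalCategory.tensorHom_comp_tensorHom, coneInl_conn, Category.comp_id,
      MonoidalCategory.tensorHom_def, ← Category.assoc, coneBase_shiftCone, coneInl_conn_assoc]
    simp only [Category.assoc]
  · rw [← Category.assoc, comp_diag, Category.assoc, ← MonoidalCategory.tensorHom_id,
      MonoidalCategory.tensorHom_comp_tensorHom, coneInr_conn, Category.comp_id,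
      coneInr_conn_assoc, zero_comp]
    apply hom_ext
    intro x
    rw [app_comp, app_diag, app_tensorHom_smash, app_zero, smash_infty_left, app_zero]

end geometry

namespace MultTheory

variable {E : MultTheory.{v}} {A B Y X : LC} [hA : E.Good A] [hB : E.Good B] [hY : E.Good Y]

/-- products in the cohomology of a suspension vanish -/
theorem mul_susp_eq_zero (x y : E.U (Y ⊗ RR)) : x * y = 0 := by
  rw [mul_eq, diag_susp, map_comp, eq_zero_of_contr (contr_tensor_HH (Y ⊗ RR))
    (E.map (shiftDiag Y) _), map_zero]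

/-- products vanish in the cohomology of objects isomorphic to a suspension -/
theorem mul_eq_zero_of_iso [hX : E.Good X] (e : X ≅ Y ⊗ RR) (x y : E.U X) : x * y = 0 := by
  have h : E.map e.inv (x * y) = 0 := by rw [map_mul', mul_susp_eq_zero]
  rw [← map_hom_inv e (x * y), h, map_zero]

/-- products in `U ℝ` vanish -/
theorem mul_RR_eq_zero (x y : E.U RR) : x * y = 0 :=
  mul_eq_zero_of_iso (Y := 𝟙_ LC) (λ_ RR).symm x y

/-- classes of the mapping cone which come from `A ⊗ ℝ` multiply everything to zero -/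
theorem map_coneConn_mul_eq_zero (f : A ⟶ B) [E.Good (LC.cone f)] (u : E.U (A ⊗ RR))
    (z : E.U (LC.cone f)) : E.map (coneConn f) u * z = 0 := by
  rw [mul_eq, cross_map_left, ← map_comp, diag_coneConn, map_comp, map_comp, map_comp,
    eq_zero_of_contr (contr_tensor_HH (A ⊗ RR)) (E.map (shiftCone A) _), map_zero, map_zero]

/-- triple products in the mapping cone vanish if products in `U B` vanish -/
theorem mul_mul_cone_eq_zero (f : A ⟶ B) [E.Good (LC.cone f)]
    (hmul : ∀ x y : E.U B, x * y = 0) (x y z : E.U (LC.cone f)) : x * y * z = 0 := by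
  have h : E.map (coneInr f) (x * y) = 0 := by rw [map_mul', hmul]
  obtain ⟨u, hu⟩ := (exact_mid (CofSeq.cone f) _).mp h
  rw [← hu, map_coneConn_mul_eq_zero]

/-- triple products vanish in the cohomology of the mapping cone of a self map of the circle -/
theorem mul_mul_cone_RR_eq_zero (f : RR ⟶ RR) [E.Good (LC.cone f)] (x y z : E.U (LC.cone f)) :
    x * y * z = 0 :=
  mul_mul_cone_eq_zero f mul_RR_eq_zero x y z

end MultTheory

end Vale.Agent.P251.Q
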