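import Vale.Agent.P251.Q.Glue

/-!
# P251, part Q: Theorem Q for torsion spaces

`LensData.HasPowers X` : the power operation on classes of degree `≤ 0` of `X` (with vanishing
`p`-th powers in degree `0`).
`LensData.mem_R_of_torsion` : if moreover `p ^ m` kills `U X`, then `U X` is generated over `C` by its
elements of positive degree.
-/

open CategoryTheory MonoidalCategory Topology Finset
open Vale.Agent.P251.G Vale.Agent.P251.G.LC

universe v

namespace Vale.Agent.P251.Q

open MultTheory

variable {E : MultTheory.{v}} {C : Type} [CommRing C]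

namespace LensData

variable {D : CoeffData E C} {p : ℕ} (L : LensData E D p)

/-- The output of the power operation, for classes of degree `-q`. -/
def HasPowersAt (X : LC) [E.Good X] (q : ℕ) : Prop :=
  ∀ x ∈ E.deg X (-(q : ℤ)), ∃ n : ℕ, ∀ k : ℕ,
    ∃ P ∈ E.deg (L.B k ⊗ X) (-(p * q : ℤ)), (q = 0 → ptRes E (L.b k) X P = 0) ∧
      E.act (fstC (L.B k) X) (D.ev k (L.v k) (wSeries D.F p) ^ (n + q)) P -
        E.cross (D.ev k (L.v k) (wSeries D.F p) ^ n) x ∈ D.posPoly (L.v k) X (-(q : ℤ))

/-- `R` is a homogeneous subgroup. -/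
theorem isHomogSub_R (D : CoeffData E C) (X : LC) [E.Good X] (d : ℤ) :
    IsHomogSub (E.deg X) (D.R X d) := by
  let := D.mod X
  have h := isHomogSub_span (C := C) (gC := D.gC) (gU := E.deg X) D.total
    (fun i j c u hc hu => smul_deg (D.φ_deg i c hc) hu)
    {x | ∃ i : ℤ, d < i ∧ x ∈ E.deg X i} (fun u hu => ⟨hu.choose, hu.choose_spec.2⟩)
  have e : D.R X d = (Submodule.span C {x | ∃ i : ℤ, d < i ∧ x ∈ E.deg X i}).toAddSubgroup := by
    apply le_antisymm
    · unfold CoeffData.R
      rw [AddSubgroup.closure_le]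
      rintro x ⟨c, i, g, hi, hg, rfl⟩
      exact Submodule.smul_mem _ c (Submodule.subset_span ⟨i, hi, hg⟩)
    · intro x hx
      refine Submodule.span_induction ?_ ?_ ?_ ?_ hx
      · rintro x ⟨i, hi, hx⟩
        refine AddSubgroup.subset_closure ⟨1, i, x, hi, hx, ?_⟩
        rw [map_one, one_smul]
      · exact zero_mem _
      · intro x y _ _ hx hy; exact add_mem hx hy
      · intro a x _ hx
        change D.φ a • x ∈ D.R X d
        refine AddSubgroup.closure_induction ?_ ?_ ?_ ?_ hx
        · rintro x ⟨c, i, g, hi, hg, rfl⟩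
          refine AddSubgroup.subset_closure ⟨a * c, i, g, hi, hg, ?_⟩
          rw [map_mul, mul_smul]
        · rw [smul_zero]; exact zero_mem _
        · intro x y _ _ hx hy; rw [smul_add]; exact add_mem hx hy
        · intro x _ hx; rw [smul_neg]; exact neg_mem hx
  rw [e]
  exact h

/-- If `p ^ m` kills `U X` and `X` has power operations, then `U X = R`. -/
theorem mem_R_of_torsion (hp : p.Prime) (X : LC) [E.Good X] {m : ℕ}
    (hm : ∀ u : E.U X, (p ^ m) • u = 0) (hpow : ∀ q, L.HasPowersAt X q) (x : E.U X) :
    x ∈ D.R X 0 := by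
  -- classes of degree `-q`
  have key : ∀ q : ℕ, ∀ i : ℤ, -(q : ℤ) < i → ∀ u ∈ E.deg X i, u ∈ D.R X 0 := by
    intro q
    induction q with
    | zero =>
      intro i hi u hu
      refine AddSubgroup.subset_closure ⟨1, i, u, by simpa using hi, hu, ?_⟩
      rw [map_one, one_smul]
    | succ q ih =>
      intro i hi u hu
      rcases (show -(q : ℤ) ≤ i by push_cast at hi; omega).lt_or_eq with h | h
      · exact ih i h u hu
      · subst h
        have step : ∀ j : ℕ, ∀ u ∈ E.deg X (-(q : ℤ)), ∃ r ∈ D.R X 0,
            ∃ u' ∈ E.deg X (-(q : ℤ)), u = r + p ^ j • u' := by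
          intro j
          induction j with
          | zero => intro u hu; exact ⟨0, zero_mem _, u, hu, by simp⟩
          | succ j ihj =>
            intro u hu
            obtain ⟨r, hr, u', hu', h1⟩ := ihj u hu
            obtain ⟨r', hr', u'', hu'', h2⟩ := L.theoremQ_all hp X ih (hpow q) hu'
            refine ⟨r + p ^ j • r', add_mem hr (nsmul_mem hr' _), u'', hu'', ?_⟩
            rw [h1, h2, smul_add, add_assoc, smul_smul, ← pow_succ]
        obtain ⟨r, hr, u', _, h1⟩ := step m u hu
        rw [h1, hm, add_zero]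
        exact hr
  induction x using induction_deg with
  | h0 => exact zero_mem _
  | hadd x y hx hy => exact add_mem hx hy
  | hdeg i x hx => exact key (1 - i).toNat i (by omega) x hx

end LensData

end Vale.Agent.P251.Q
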