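import Vale.Agent.P251.Q.Moore
import Vale.Agent.P251.Q.Nilp
import Vale.Agent.P251.Q.QThm

/-!
# P251, part Q (Q7): the coefficients of a Thom theory modulo `p`

`ThomTheory.quillen` : if the power operations exist, then
* every element of `π_{ev} = E.A` is the sum of an element of the image of `C` and a multiple of `p`;
* `π_{ev}` and `π_{odd} = U ℝ` have no `p`-torsion;
* `π_{odd}` is `p`-divisible.
-/

open CategoryTheory MonoidalCategory OnePoint Limits
open Vale.Agent.P251.G Vale.Agent.P251.G.LC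

universe v

namespace Vale.Agent.P251.Q

open MultTheory

variable {C : Type} [CommRing C]

namespace LensData

variable {E : MultTheory.{v}} {D : CoeffData E C} {p : ℕ} (L : LensData E D p)

theorem R_eq_RR0 (D : CoeffData E C) (X : LC) (x : E.U X) :
    x ∈ D.R X 0 ↔ x ∈ RR0 E D.φ.range X := by
  have h : {u : E.U X | ∃ c ∈ D.φ.range, ∃ k : ℤ, 0 < k ∧ ∃ x ∈ E.deg X k, u = c • x} =
      {x | ∃ (c : C) (i : ℤ) (g : E.U X), 0 < i ∧ g ∈ E.deg X i ∧ x = D.φ c • g} := by
    ext u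
    constructor
    · rintro ⟨_, ⟨c, rfl⟩, k, hk, x, hx, rfl⟩
      exact ⟨c, k, x, hk, hx, rfl⟩
    · rintro ⟨c, k, x, hk, hx, rfl⟩
      exact ⟨_, ⟨c, rfl⟩, k, hk, x, hx, rfl⟩
  unfold CoeffData.R RR0
  rw [h]

include L in
/-- Theorem Q in the form of `StepHyp`. -/
theorem stepHyp (hp : p.Prime) (X : LC) [hX : E.Good X] (hpow : ∀ q, L.HasPowersAt X q) :
    StepHyp E D.φ.range p X := by
  intro q hq x hx
  have IH : ∀ i : ℤ, -(q : ℤ) < i → ∀ u ∈ E.deg X i, u ∈ D.R X 0 := by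
    intro i hi u hu
    rw [R_eq_RR0]
    rcases lt_or_ge 0 i with h | h
    · exact mem_RR0_of_pos h hu
    · obtain ⟨j, rfl⟩ : ∃ j : ℕ, i = -(j : ℤ) := ⟨i.natAbs, by omega⟩
      exact hq j (by omega) u hu
  obtain ⟨r, hr, u, hu, h⟩ := L.theoremQ_all hp X IH (hpow q) hx
  exact ⟨r, (R_eq_RR0 D X r).mp hr, u, hu, h⟩

end LensData

namespace ThomTheory

variable (E : ThomTheory.{v}) {D : CoeffData E.toMultTheory C} {p : ℕ}

/-- The power operations of all objects whose cohomology has vanishing triple products. -/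
def HasPowers (L : LensData E.toMultTheory D p) : Prop :=
  ∀ (X : LC) [E.toMultTheory.Good X], (∀ x y z : E.U X, x * y * z = 0) →
    ∀ q, L.HasPowersAt X q

/-- The theorem of Quillen modulo `p`. -/
theorem quillen (hp : p.Prime) (L : LensData E.toMultTheory D p) (hpow : E.HasPowers L)
    (h1 : ∀ a : ℤ, p • a • E.one = 0 → a • E.one = 0) :
    (∀ a : E.A, ∃ c : C, ∃ b, a = D.φ c + p • b) ∧ (∀ a : E.A, p • a = 0 → a = 0) ∧
      (∀ y : E.U RR, ∃ z, y = p • z) ∧ (∀ y : E.U RR, p • y = 0 → y = 0) := by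
  set M := LC.cone (mfold p) with hM
  have hMg : E.toMultTheory.Good M := Good.cone (E := E.toMultTheory) (mfold p)
  have hR : StepHyp E.toMultTheory D.φ.range p RR :=
    L.stepHyp hp RR (hpow RR fun x y z => mul_RR_eq_zero (x * y) z)
  have hM0 : StepHyp E.toMultTheory D.φ.range p M :=
    L.stepHyp hp M (hpow M fun x y z => mul_mul_cone_RR_eq_zero (mfold p) x y z)
  have hM1 : StepHyp E.toMultTheory D.φ.range p (M ⊗ 𝟙_ LC) := hM0.of_iso (ρ_ M).symm
  have hMR : StepHyp E.toMultTheory D.φ.range p (M ⊗ RR) :=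
    L.stepHyp hp (M ⊗ RR) (hpow (M ⊗ RR) fun x y z => mul_susp_eq_zero (x * y) z)
  have s1 : MooreSeq E.toMultTheory p M (coneInr (mfold p)) (coneConn (mfold p)) (𝟙_ LC) :=
    mooreSeq p
  have s2 : MooreSeq E.toMultTheory p M (coneInr (mfold p)) (coneConn (mfold p)) RR :=
    mooreSeq p
  refine ⟨?_, ?_, ?_, ?_⟩
  · intro a
    obtain ⟨_, ⟨c, rfl⟩, b, h⟩ := exists_add_nsmul s1 hM1 a
    exact ⟨c, b, h⟩
  · exact eq_zero_of_nsmul s2 h1 hR hMR
  · exact exists_nsmul_odd s2 h1 hR hMR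
  · exact eq_zero_of_nsmul_odd s1 hM1

end ThomTheory

end Vale.Agent.P251.Q
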