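import Vale.Agent.P251.Q.PowerQ
import Vale.Agent.P251.Q.Apply

/-!
# P251, part Q: the power operations of a Thom theory exist

`ThomTheory.hasPowers` : from frames on the lens spaces and the formula for `e(γ ⊗ ρ̄)` one gets the
hypothesis `HasPowers` of Theorem Q.
-/

open CategoryTheory MonoidalCategory OnePoint Topology
open Vale.Agent.P251.G Vale.Agent.P251.G.LC

universe v

namespace Vale.Agent.P251.Q

open MultTheory

variable {C : Type} [CommRing C]

/-- Sums of terms `c v ^ l`, `c` in `C`. -/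
def CoeffData.vspan {E : MultTheory.{v}} (D : CoeffData E C) {Y : LC} [E.Good Y] [CompactSpace Y]
    (v : E.U Y) : AddSubgroup (E.U Y) :=
  AddSubgroup.closure {z | ∃ (c : C) (l : ℕ), z = D.φ c • v ^ l}

theorem CoeffData.cross_mem_posPoly {E : MultTheory.{v}} (D : CoeffData E C) {Y : LC} [E.Good Y]
    [CompactSpace Y] (v : E.U Y) {X : LC} [E.Good X] {c : E.U Y} (hc : c ∈ D.vspan v) {d i : ℤ}
    (hi : d < i) {x : E.U X} (hx : x ∈ E.deg X i) : E.cross c x ∈ D.posPoly v X d := by
  refine AddSubgroup.closure_induction ?_ ?_ ?_ ?_ hc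
  · rintro z ⟨c, l, rfl⟩
    refine AddSubgroup.subset_closure ⟨c, l, i, x, hi, hx, ?_⟩
    rw [cross_smul_left]
  · rw [map_zero, AddMonoidHom.zero_apply]; exact zero_mem _
  · intro a b _ _ ha hb
    rw [map_add, AddMonoidHom.add_apply]; exact add_mem ha hb
  · intro a _ ha
    rw [map_neg, AddMonoidHom.neg_apply]; exact neg_mem ha

theorem ipow_eq_zero {E : MultTheory.{v}} {X : LC} [E.Good X] (h : ∀ x y z : E.U X, x * y * z = 0)
    (x : E.U X) {r : ℕ} (hr : 2 ≤ r) : ipow x r = 0 := by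
  obtain ⟨r, rfl⟩ : ∃ r', r = r' + 2 := ⟨r - 2, by omega⟩
  change x * (x * ipow x r) = 0
  rw [← mul_assoc]
  exact h _ _ _

/-- Frames on the lens spaces for which the formula for `e(γ ⊗ ρ̄)` holds. -/
structure FrameData {E : MultTheory.{v}} (o : Orientation E) {D : CoeffData E C} {p : ℕ}
    (L : LensData E D p) (r k : ℕ) where
  /-- the index type of the reduced regular representation -/
  κ' : Type
  [fin : Fintype κ']
  [dec : DecidableEq κ']
  /-- the frames -/
  F : Frames (L.B k) (Unit ⊕ κ') (Fin (r + 1))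
  /-- the reduced regular representation -/
  ρb : Bun (L.B k) κ'
  rank : ρb.IsRank r
  eq_sum : F.ρ = (Bun.triv (L.B k) Unit).sum ρb
  /-- the norm of the trivial vector -/
  c₀ : ℝ
  pos : 0 < c₀
  s_eq : ∀ b, F.s b = Sum.elim (fun _ => (c₀ : ℂ)) (fun _ => 0)
  good : ∀ N : ℕ, E.Good (F.ρW (Fin N)).tot
  goodB : E.Good (LC.of (L.B k))
  euler : ∀ (m : ℕ) (I : Type) [Fintype I],
    EulerForm o ρb rank (D.ev k (L.v k) (wSeries D.F p) : E.U (L.B k))
      (D.vspan (L.v k) : Set (E.U (L.B k))) m I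

attribute [instance] FrameData.fin FrameData.dec

namespace ThomTheory

variable (E : ThomTheory.{v}) {D : CoeffData E.toMultTheory C} {p : ℕ}

/-- The power operations exist. -/
theorem hasPowers {r : ℕ} (hr : p = r + 1) (hr2 : 2 ≤ r) (L : LensData E.toMultTheory D p)
    (hGr : ∀ (m : ℕ) (I : Type) [Fintype I], E.toMultTheory.Good (LC.of (Gr m I)))
    (H : ∀ k, FrameData E.o L r k) : E.HasPowers L := by
  subst hr
  intro X hX h3 q x hx
  obtain ⟨N, m, hmN, hP⟩ := power_exists E hGr hx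
  refine ⟨m, fun k => ?_⟩
  have hB := (H k).goodB
  obtain ⟨P, hPdeg, hPpt, T, hT, x', e, c, hx', he, hc, hkey⟩ :=
    hP (H k).F ((H k).good N) (H k).rank (H k).eq_sum (H k).pos (H k).s_eq
      (fun m I _ => (H k).euler m I)
  refine ⟨P, ?_, ?_, ?_⟩
  · exact hPdeg
  · intro hq
    exact (hPpt (L.b k)).trans (ipow_eq_zero h3 x hr2)
  · have hN : m + q = N := hmN
    have h1 : E.act (fstC (L.B k) X) (D.ev k (L.v k) (wSeries D.F (r + 1)) ^ (m + q)) P -
        E.cross (D.ev k (L.v k) (wSeries D.F (r + 1)) ^ m) x = ∑ t, E.cross (c t) (x' t) := by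
      rw [hN, sub_eq_iff_eq_add]
      exact hkey.trans (add_comm _ _)
    rw [h1]
    exact sum_mem fun t _ => D.cross_mem_posPoly (L.v k) (hc t) (he t) (hx' t)

end ThomTheory

end Vale.Agent.P251.Q
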