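import Vale.Agent.P251.Q.Q4Cls
import Vale.Agent.P251.Q.Powers

/-!
# P251, part Q: the formula for `e(γ ⊗ ρ̄)` (task Q4)

`eulerForm_lens` : over the lens spaces,
`e(γ ⊗ ρ̄) = 1 × w^m + ∑ g_t × c_t`, `g_t` of positive degree, `c_t` a polynomial in `v`.
-/

set_option linter.unusedSectionVars false
set_option linter.style.haveILetI false

open CategoryTheory MonoidalCategory OnePoint Topology Matrix
open Vale.Agent.P251.G Vale.Agent.P251.G.LC
open Vale.Agent.P217 Vale.Agent.P251.F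

universe v

noncomputable section

namespace Vale.Agent.P251.Q

open MultTheory

/-! ### Algebra -/

section algebra

variable {C A S : Type*} [CommRing C] [CommRing A] [CommRing S] [Algebra A S]

theorem val₂_compHom (φ : C →+* A) (K : ℕ) (f : ℕ → ℕ → C) (x y : S) :
    @val₂ C S _ _ (Algebra.compHom S φ) K f x y = val₂ K (fun k l => φ (f k l)) x y := rfl

theorem cls_compHom (φ : C →+* A) (K : ℕ) (f : ℕ → ℕ → C) {n : ℕ} (x : Fin n → S) (j : ℕ) :
    @cls C S _ _ (Algebra.compHom S φ) K f n x j = cls K (fun k l => φ (f k l)) x j := rfl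

/-- a power series, cut off at degree `n` -/
def cutOff (n : ℕ) (f : PowerSeries C) : Polynomial C :=
  ∑ l ∈ Finset.range n, Polynomial.monomial l (PowerSeries.coeff l f)

theorem aeval_cutOff [Algebra C S] (v : S) (n : ℕ) (f : PowerSeries C) :
    Polynomial.aeval v (cutOff n f) =
      ∑ l ∈ Finset.range n, PowerSeries.coeff l f • v ^ l := by
  rw [cutOff, map_sum]
  refine Finset.sum_congr rfl fun l _ => ?_
  rw [Polynomial.aeval_monomial, Algebra.smul_def]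

end algebra

/-! ### Bundles `V ⊗ ρ` over a product -/

section geometry

variable {E : MultTheory.{v}} (o : Orientation E) [E.GoodGr]
variable {X Y : LC} [CompactSpace X] [CompactSpace Y] [E.Good X] [E.Good Y]
variable {I J κ : Type} [Fintype I] [Fintype J] [Fintype κ] {n m : ℕ}

theorem eulerCl_eq_eu (V : Bun X I) (hV : V.IsRank n) : eulerCl o (Z := X) V hV = o.eu V hV := by
  have h1 : zeroCl (Z := X) V hV = cmap (Y := LC.of (Gr n I)) (V.toGr hV) ≫ Gr.zeroHom := by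
    apply LC.hom_ext; intro x; rfl
  unfold eulerCl Orientation.eu Orientation.eGr
  rw [← MultTheory.map_comp]
  exact congrArg (fun k => E.map k _) h1

/-- `V ⊗ ρ` over `Y × X` -/
def gT (V : Bun X I) (ρ : Bun Y κ) : Bun (Y ⊗ X : LC) (I × κ) :=
  (V.pullback (sndC Y X)).tensor (ρ.pullback (fstC Y X))

theorem gT_isRank {V : Bun X I} {ρ : Bun Y κ} (hV : V.IsRank n) (hρ : ρ.IsRank m) :
    (gT V ρ).IsRank (n * m) := (hV.pullback _).tensor (hρ.pullback _)

theorem gT_P (V : Bun X I) (ρ : Bun Y κ) (y : Y) (x : X) :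
    (gT V ρ).P ((y, x) : Y × X) = kroneckerMap (· * ·) (V.P x) (ρ.P y) := rfl

theorem eulerCl_gamRho {ρ : Bun Y κ} (hρ : ρ.IsRank m) (n : ℕ) (ι : Type) [Fintype ι] :
    (eulerCl o (gamRho (B := Y) n ι ρ) (gamRho_isRank n hρ) : E.U (LC.of (Gr n ι) ⊗ Y)) =
      E.mapAlg (swapC (LC.of (Gr n ι)) Y)
        (o.eu (gT (X := LC.of (Gr n ι)) (taut n ι) ρ) (gT_isRank (taut_isRank n ι) hρ)) := by
  rw [mapAlg_apply, o.map_eu]
  exact eulerCl_eq_eu o (X := LC.of (Gr n ι) ⊗ Y) (gamRho (B := Y) n ι ρ) (gamRho_isRank n hρ)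

variable [DecidableEq I] [DecidableEq J] [DecidableEq κ]

/-- the map on the products -/
def prC (Y : LC) (g : C(X, (LC.of (Gr n J) : LC))) :
    C((Y ⊗ X : LC), (Y ⊗ LC.of (Gr n J) : LC)) :=
  pairC (fstC Y X) (g.comp (sndC Y X))

theorem mapAlg_prC_eu (g : C(X, (LC.of (Gr n J) : LC))) {V : Bun X I} (hV : V.IsRank n)
    {ρ : Bun Y κ} (hρ : ρ.IsRank m) (u : Matrix J I ℂ) (hu : uᴴ * u = 1)
    (hP : ∀ x, Gr.P (g x : Gr n J) = u * V.P x * uᴴ) :
    E.mapAlg (prC Y g)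
      (o.eu (gT (X := LC.of (Gr n J)) (taut n J) ρ) (gT_isRank (taut_isRank n J) hρ)) =
      o.eu (gT V ρ) (gT_isRank hV hρ) := by
  rw [mapAlg_apply, o.map_eu]
  refine o.eu_isom (kroneckerMap (· * ·) u 1) (Orientation.kron_isom hu isom_one) _ _ _ _ ?_
  rintro ⟨y, x⟩
  rw [gT_P, ← Orientation.kron_conj]
  change kroneckerMap (· * ·) (Gr.P (g x : Gr n J)) (ρ.P y) = _
  rw [hP]
  congr 1
  simp

theorem mapAlg_cG (g : C(X, (LC.of (Gr n J) : LC))) {V : Bun X I} (hV : V.IsRank n)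
    (u : Matrix J I ℂ) (hu : uᴴ * u = 1) (hP : ∀ x, Gr.P (g x : Gr n J) = u * V.P x * uᴴ)
    (i : ℕ) : E.mapAlg g (o.cG n J i) = o.cc V hV i := by
  unfold Orientation.cG
  rw [mapAlg_apply, o.map_cc]
  exact o.cc_isom u hu _ _ _ _ hP i

theorem mapAlg_prC_snd (g : C(X, (LC.of (Gr n J) : LC))) (c : E.U (LC.of (Gr n J))) :
    E.mapAlg (prC Y g) (E.mapAlg (sndC Y (LC.of (Gr n J))) c) =
      E.mapAlg (sndC Y X) (E.mapAlg g c) := by
  rw [mapAlg_mapAlg, mapAlg_mapAlg]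
  rfl

theorem mapAlg_prC_fst (g : C(X, (LC.of (Gr n J) : LC))) (c : E.U Y) :
    E.mapAlg (prC Y g) (E.mapAlg (fstC Y (LC.of (Gr n J))) c) = E.mapAlg (fstC Y X) c := by
  rw [mapAlg_mapAlg]
  rfl

end geometry

/-! ### Degrees and spans -/

section span

variable {E : MultTheory.{v}} {X : LC} [CompactSpace X] [E.Good X]

theorem pow_deg' {x : E.U X} {k : ℤ} (hx : x ∈ E.deg X k) (n : ℕ) :
    x ^ n ∈ E.deg X (n * k) := by
  induction n with
  | zero =>
    rw [pow_zero, Nat.cast_zero, zero_mul]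
    exact oneU_deg X
  | succ n ih =>
    rw [pow_succ]
    have := mul_deg ih hx
    have e : ((n + 1 : ℕ) : ℤ) * k = n * k + k := by push_cast; ring
    rw [e]
    exact this

theorem prod_deg' {ι : Type} (s : Finset ι) (x : ι → E.U X) (k : ι → ℤ)
    (hx : ∀ i ∈ s, x i ∈ E.deg X (k i)) : ∏ i ∈ s, x i ∈ E.deg X (∑ i ∈ s, k i) := by
  classical
  induction s using Finset.induction_on with
  | empty =>
    rw [Finset.prod_empty, Finset.sum_empty]
    exact oneU_deg X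
  | insert i s hi ih =>
    rw [Finset.prod_insert hi, Finset.sum_insert hi]
    exact mul_deg (hx i (Finset.mem_insert_self i s))
      (ih fun j hj => hx j (Finset.mem_insert_of_mem hj))

variable {C : Type} [CommRing C] (D : CoeffData E C)

theorem aeval_mem_vspan (v : E.U X) (q : Polynomial C) :
    @Polynomial.aeval C (E.U X) _ _ (Algebra.compHom (E.U X) D.φ) v q ∈ D.vspan v := by
  let _ : Algebra C (E.U X) := Algebra.compHom (E.U X) D.φ
  change Polynomial.aeval v q ∈ D.vspan v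
  rw [Polynomial.aeval_eq_sum_range]
  exact sum_mem fun l _ => AddSubgroup.subset_closure ⟨q.coeff l, l, rfl⟩

end span

/-! ### The main theorem -/

section main

variable {E : MultTheory.{v}} (o : Orientation E)
variable {C : Type} [CommRing C] {D : CoeffData E C}

/-- the line bundle `L^(j+1)` over the lens space -/
abbrev lensT (p : ℕ) (κ : Type) [Fintype κ] (j : Fin (p - 1)) :
    Bun (LC.of (Lens p κ) : LC) (Fin ((j : ℕ) + 1) → κ) :=
  ((taut 1 κ).tpow ((j : ℕ) + 1)).pullback (Lens.toGr p κ)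

theorem lensT_isRank (p : ℕ) (κ : Type) [Fintype κ] (j : Fin (p - 1)) :
    (lensT p κ j).IsRank 1 := (lensL_isRank p κ).tpow1 ((j : ℕ) + 1)

theorem rhobar_eq (p : ℕ) (κ : Type) [Fintype κ] :
    rhobar p κ = Bun.sigma fun j : Fin (p - 1) => lensT p κ j := rfl

theorem e_lensT (hF : o.HasLaw (D.F.map D.φ)) {p : ℕ} {κ : Type} [Fintype κ] {k : ℕ}
    (hk : Fintype.card κ ≤ k + 1) (j : Fin (p - 1)) :
    o.e (B := LC.of (Lens p κ)) (lensT p κ j) (lensT_isRank p κ j) =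
      D.ev k (o.vL p κ) (multSeries D.F ((j : ℕ) + 1)) :=
  e_tpow_ev o hF (lensL p κ) (lensL_isRank p κ) hk ((j : ℕ) + 1)

theorem ev_wSeries {p : ℕ} {Y : LC} [CompactSpace Y] [E.Good Y] {v : E.U Y} {k : ℕ}
    (hv : v ^ (k + 1) = 0) :
    D.ev k v (wSeries D.F p) =
      ∏ j : Fin (p - 1), D.ev k v (multSeries D.F ((j : ℕ) + 1)) := by
  rw [wSeries]
  have h2 : ∀ s : Finset ℕ, D.ev k v (∏ i ∈ s, multSeries D.F (i + 1)) =
      ∏ i ∈ s, D.ev k v (multSeries D.F (i + 1)) := by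
    intro s
    induction s using Finset.cons_induction with
    | empty => rw [Finset.prod_empty, Finset.prod_empty, CoeffData.ev_one]
    | cons a s ha ih => rw [Finset.prod_cons, Finset.prod_cons, CoeffData.ev_mul hv, ih]
  rw [h2, ← Fin.prod_univ_eq_prod_range (fun i => D.ev k v (multSeries D.F (i + 1))) (p - 1)]

/-- The Euler class of `γ' ⊗ ρ̄` over `L × (CP^(N-1))^m`, `γ'` the sum of the tautological line
bundles. -/
theorem eu_gT_blk [E.GoodGr] (hF : o.HasLaw (D.F.map D.φ)) {p : ℕ} {κ : Type} [Fintype κ]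
    {k : ℕ} (hk : Fintype.card κ ≤ k + 1) (N m : ℕ) {K : ℕ} (hN : N ≤ K)
    (hK : ∀ j : Fin (p - 1), D.ev k (o.vL p κ) (multSeries D.F ((j : ℕ) + 1)) ^ K = 0) :
    o.eu (gT (Y := LC.of (Lens p κ)) (blk N m) (rhobar p κ))
      (gT_isRank (blk_isRank N m) (rhobar_isRank p κ)) =
      ∏ j : Fin (p - 1), ∏ a : Fin m, val₂ K (lawA D)
        (E.mapAlg (fstC (LC.of (Lens p κ)) (cpPow N m))
          (D.ev k (o.vL p κ) (multSeries D.F ((j : ℕ) + 1))))
        (E.mapAlg (sndC (LC.of (Lens p κ)) (cpPow N m)) (xcl o N m a)) := by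
  haveI h1 : GoodBase E (cpPow N m) := inferInstance
  haveI h2 : GoodBase E (LC.of (Lens p κ)) := inferInstance
  haveI h3 : GoodBase E (LC.of (Lens p κ) ⊗ cpPow N m) := inferInstance
  have hlam : ∀ a : Fin m, Bun.IsRank (X := (LC.of (Lens p κ) ⊗ cpPow N m : LC))
      ((Bun.lam (Fin N) a).pullback (sndC (LC.of (Lens p κ)) (cpPow N m))) 1 :=
    fun a => (Bun.lam_isRank a).pullback _
  have hT : ∀ j : Fin (p - 1), Bun.IsRank (X := (LC.of (Lens p κ) ⊗ cpPow N m : LC))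
      ((lensT p κ j).pullback (fstC (LC.of (Lens p κ)) (cpPow N m))) 1 :=
    fun j => (lensT_isRank p κ j).pullback _
  have e1 : ∀ a, o.e (B := LC.of (Lens p κ) ⊗ cpPow N m) _ (hlam a) =
      E.mapAlg (sndC (LC.of (Lens p κ)) (cpPow N m)) (xcl o N m a) := fun a => by
    rw [← e_lam]
    exact e_pull o (X := cpPow N m) _ _ _ _
  have e2 : ∀ j, o.e (B := LC.of (Lens p κ) ⊗ cpPow N m) _ (hT j) =
      E.mapAlg (fstC (LC.of (Lens p κ)) (cpPow N m))
        (D.ev k (o.vL p κ) (multSeries D.F ((j : ℕ) + 1))) := fun j => by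
    rw [← e_lensT o hF hk j]
    exact e_pull o (X := LC.of (Lens p κ)) _ _ _ _
  have hrank := gT_isRank (Y := LC.of (Lens p κ)) (X := cpPow N m) (blk_isRank N m)
    (rhobar_isRank p κ)
  haveI := h3.tot _ hrank
  rw [o.eu_eq_e]
  have h5 := e_blockSum_tensor_sigma o hF (Z := LC.of (Lens p κ) ⊗ cpPow N m) (m := m) _ hlam _
    (pullback_blk N m _) _ hT
    ((rhobar p κ).pullback (fstC (LC.of (Lens p κ)) (cpPow N m))) rfl hrank (K := K)
    (fun a => by rw [e1, ← map_pow, xcl_pow o N m hN, map_zero])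
    (fun j => by rw [e2, ← map_pow, hK, map_zero])
  refine h5.trans ?_
  simp only [e1, e2]

theorem exists_pow_eq_zero_of_fin {S : Type*} [CommRing S] {n : ℕ} (x : Fin n → S)
    (h : ∀ i, IsNilpotent (x i)) : ∃ L : ℕ, ∀ i, x i ^ L = 0 := by
  choose l hl using h
  exact ⟨∑ i, l i, fun i => pow_eq_zero_of_le (Finset.single_le_sum (f := l)
    (fun _ _ => Nat.zero_le _) (Finset.mem_univ i)) (hl i)⟩

/-- **The formula for `e(γ ⊗ ρ̄)` over the lens spaces**, over `L × Gr`. -/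
theorem eu_gT_form [E.GoodGr] (hF : o.HasLaw (D.F.map D.φ)) {p : ℕ} {κ : Type} [Fintype κ]
    {k : ℕ} (hk : Fintype.card κ ≤ k + 1) (m : ℕ) (I : Type) [Fintype I] :
    let _ : Algebra C (E.U (LC.of (Lens p κ))) := Algebra.compHom _ D.φ
    ∃ (T : Finset (Fin m →₀ ℕ)) (q : (Fin m →₀ ℕ) → Polynomial C), 0 ∉ T ∧
      o.eu (gT (Y := LC.of (Lens p κ)) (X := LC.of (Gr m I)) (taut m I) (rhobar p κ))
        (gT_isRank (taut_isRank m I) (rhobar_isRank p κ)) =
      E.mapAlg (fstC (LC.of (Lens p κ)) (LC.of (Gr m I)))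
        (D.ev k (o.vL p κ) (wSeries D.F p) ^ m) +
      ∑ t ∈ T, E.mapAlg (fstC (LC.of (Lens p κ)) (LC.of (Gr m I)))
        (Polynomial.aeval (o.vL p κ) (q t)) *
          ∏ i : Fin m, E.mapAlg (sndC (LC.of (Lens p κ)) (LC.of (Gr m I)))
            (o.cG m I (m - 1 - i)) ^ t i := by
  classical
  intro _
  haveI hY : GoodBase E (LC.of (Lens p κ)) := inferInstance
  obtain ⟨L, hL⟩ := exists_pow_eq_zero_of_fin
    (fun i : Fin m => E.mapAlg (sndC (LC.of (Lens p κ)) (LC.of (Gr m I)))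
      (o.cG m I (m - 1 - i))) (fun i => (o.isNilpotent_cG m I _ (by omega)).map _)
  obtain ⟨K₁, hK₁⟩ := exists_pow_eq_zero_of_fin
    (fun j : Fin (p - 1) => D.ev k (o.vL p κ) (multSeries D.F ((j : ℕ) + 1)))
    (fun j => by
      rw [← e_lensT o hF hk j]
      exact isNilpotent_e o (lensT p κ j) (lensT_isRank p κ j))
  have hv : o.vL p κ ^ (k + 1) = 0 := vL_pow_eq_zero o hk
  set N := m * (m * L) + 1 with hN
  set K := K₁ + N + m + 2 with hK
  let _ : Algebra C (E.U (LC.of (Lens p κ) ⊗ cpPow N m)) := Algebra.compHom _ D.φ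
  obtain ⟨J, _, _, u₁, u₂, hu₁, hu₂⟩ : ∃ (J : Type) (_ : Fintype J) (_ : DecidableEq J)
      (u₁ : Matrix J I ℂ) (u₂ : Matrix J (Fin N × Fin m) ℂ), u₁ᴴ * u₁ = 1 ∧ u₂ᴴ * u₂ = 1 :=
    ⟨I ⊕ (Fin N × Fin m), inferInstance, inferInstance, injMat Sum.inl, injMat Sum.inr,
      injMat_isom Sum.inl_injective, injMat_isom Sum.inr_injective⟩
  let g₁ : C((LC.of (Gr m I) : LC), (LC.of (Gr m J) : LC)) := grMapC m u₁ hu₁
  let g₂ : C((cpPow N m : LC), (LC.of (Gr m J) : LC)) :=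
    (grMapC m u₂ hu₂).comp ((blk N m).toGr (blk_isRank N m))
  have hg₁ : ∀ x, Gr.P (g₁ x : Gr m J) = u₁ * (taut m I).P x * u₁ᴴ := fun x => rfl
  have hg₂ : ∀ x, Gr.P (g₂ x : Gr m J) = u₂ * (blk N m).P x * u₂ᴴ := fun x => rfl
  obtain ⟨P, hP⟩ := o.exists_eval₂ m J (B := LC.of (Lens p κ))
    (o.eu (gT (Y := LC.of (Lens p κ)) (X := LC.of (Gr m J)) (taut m J) (rhobar p κ))
        (gT_isRank (taut_isRank m _) (rhobar_isRank p κ)))
  have hev : ∀ j : Fin (p - 1), Polynomial.aeval (o.vL p κ)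
      (cutOff (k + 1) (multSeries D.F ((j : ℕ) + 1))) =
        D.ev k (o.vL p κ) (multSeries D.F ((j : ℕ) + 1)) := fun j => aeval_cutOff _ _ _
  have hx : ∀ a : Fin m, coordClass (o.z (Fin N)) (LC.of (Lens p κ)) a =
      E.mapAlg (sndC (LC.of (Lens p κ)) (cpPow N m)) (xcl o N m a) := by
    intro a
    rw [xcl, mapAlg_mapAlg, coordClass]
  have key := q4_ring (C := C)
    (E.mapAlg (fstC (LC.of (Lens p κ)) (LC.of (Gr m I)))).toRingHom
    (E.mapAlg (fstC (LC.of (Lens p κ)) (LC.of (Gr m J)))).toRingHom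
    (E.mapAlg (fstC (LC.of (Lens p κ)) (cpPow N m))).toRingHom
    (fun a => (E.mapAlg (fstC (LC.of (Lens p κ)) (cpPow N m))).commutes (D.φ a))
    (n := m) (K := K) (m := N) (by omega) (fcoef D.F) (fcoef_zero_zero D.F)
    (fcoef_one_zero D.F) (fcoef_zero_one D.F) (fun k hk => fcoef_zero_right D.F hk)
    (o.vL p κ) (fun j : Fin (p - 1) => cutOff (k + 1) (multSeries D.F ((j : ℕ) + 1)))
    (fun i => E.mapAlg (sndC (LC.of (Lens p κ)) (LC.of (Gr m J))) (o.cG m J (m - 1 - i)))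
    (o.eu (gT (Y := LC.of (Lens p κ)) (X := LC.of (Gr m J)) (taut m J) (rhobar p κ))
        (gT_isRank (taut_isRank m _) (rhobar_isRank p κ)))
    (MvPolynomial.rename Fin.rev P) ?_
    (coordClass (o.z (Fin N)) (LC.of (Lens p κ)))
    (E.mapAlg (prC (LC.of (Lens p κ)) g₂)).toRingHom ?_ ?_ ?_ ?_
    (fun i => E.mapAlg (sndC (LC.of (Lens p κ)) (LC.of (Gr m I))) (o.cG m I (m - 1 - i)))
    (o.eu (gT (Y := LC.of (Lens p κ)) (X := LC.of (Gr m I)) (taut m I) (rhobar p κ))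
        (gT_isRank (taut_isRank m I) (rhobar_isRank p κ)))
    (E.mapAlg (prC (LC.of (Lens p κ)) g₁)).toRingHom ?_ ?_ ?_ hL (by omega)
  · -- the conclusion
    obtain ⟨T, q, hT, hkey⟩ := key
    refine ⟨T, q, hT, ?_⟩
    rw [ev_wSeries hv]
    simp only [hev] at hkey
    exact hkey
  · -- generation
    rw [hP, MvPolynomial.eval₂_rename]
    congr 1
    funext i
    change _ = E.mapAlg (sndC (LC.of (Lens p κ)) (LC.of (Gr m J)))
      (o.cG m J (m - 1 - (Fin.rev i : Fin m)))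
    have h1 : m - 1 - ((Fin.rev i : Fin m) : ℕ) = i := by
      rw [Fin.val_rev]
      omega
    rw [h1]
    rfl
  · ext c
    exact mapAlg_prC_fst g₂ c
  · intro i
    change E.mapAlg (prC (LC.of (Lens p κ)) g₂) (E.mapAlg (sndC (LC.of (Lens p κ))
      (LC.of (Gr m J))) (o.cG m J (m - 1 - i))) = _
    rw [mapAlg_prC_snd, mapAlg_cG o g₂ (blk_isRank N m) u₂ hu₂ hg₂,
      cc_blk o hF N m (K := K) (M := m) (by omega) (by omega) (by omega)]
    have h1 := map_cls (E.mapAlg (sndC (LC.of (Lens p κ)) (cpPow N m))) K (lawA D) (xcl o N m)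
      (m - 1 - i)
    rw [h1]
    simp only [← hx]
    rfl
  · change E.mapAlg (prC (LC.of (Lens p κ)) g₂) (o.eu _ _) = _
    rw [mapAlg_prC_eu o g₂ (blk_isRank N m) (rhobar_isRank p κ) u₂ hu₂ hg₂,
      eu_gT_blk o hF hk N m (K := K) (by omega)
        (fun j => pow_eq_zero_of_le (by omega) (hK₁ j))]
    refine Finset.prod_congr rfl fun j _ => Finset.prod_congr rfl fun a _ => ?_
    rw [← hx, hev]
    rfl
  · intro q hq
    exact mem_J_of_eval₂_eq_zero (freeOn_z o N (Fin N) (Fintype.card_fin N))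
      (z_pow_eq_zero o N (Fin N) (Fintype.card_fin N).le) q hq
  · ext c
    exact mapAlg_prC_fst g₁ c
  · intro i
    change E.mapAlg (prC (LC.of (Lens p κ)) g₁) (E.mapAlg (sndC (LC.of (Lens p κ))
      (LC.of (Gr m J))) (o.cG m J (m - 1 - i))) = _
    rw [mapAlg_prC_snd, mapAlg_cG o (X := LC.of (Gr m I)) g₁ (taut_isRank m I) u₁ hu₁ hg₁]
    rfl
  · exact mapAlg_prC_eu o g₁ (taut_isRank m I) (rhobar_isRank p κ) u₁ hu₁ hg₁

/-- **The formula for `e(γ ⊗ ρ̄)` over the lens spaces.** -/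
theorem eulerForm_lens (hF : o.HasLaw (D.F.map D.φ)) {p : ℕ} {κ : Type} [Fintype κ] {k : ℕ}
    (hk : Fintype.card κ ≤ k + 1) (m : ℕ) (I : Type) [Fintype I] :
    EulerForm o (rhobar p κ) (rhobar_isRank p κ) (D.ev k (o.vL p κ) (wSeries D.F p))
      (D.vspan (o.vL p κ) : Set (E.U (LC.of (Lens p κ)))) m I := by
  classical
  haveI := o.goodGr
  haveI hY : GoodBase E (LC.of (Lens p κ)) := inferInstance
  obtain ⟨T, q, hT, hq⟩ := eu_gT_form o hF (p := p) (κ := κ) hk m I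
  refine ⟨{t // t ∈ T}, inferInstance, fun t => ∏ i : Fin m, o.cG m I (m - 1 - i) ^ t.1 i,
    fun t => ∑ i : Fin m, ((t.1 i : ℕ) : ℤ) * ((i : ℕ) + 1),
    fun t => @Polynomial.aeval C (E.U (LC.of (Lens p κ))) _ _
      (Algebra.compHom (E.U (LC.of (Lens p κ))) D.φ) (o.vL p κ) (q t.1), ?_, ?_, ?_, ?_⟩
  · intro t
    refine prod_deg' _ _ _ fun i _ => pow_deg' ?_ _
    have h1 := o.cG_deg (n := m) (I := I) (m - 1 - i)
    have h2 : (m : ℤ) - ((m - 1 - (i : ℕ) : ℕ) : ℤ) = (i : ℕ) + 1 := by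
      have := i.2
      omega
    rw [h2] at h1
    exact h1
  · rintro ⟨t, ht⟩
    have ht0 : t ≠ 0 := fun h => hT (h ▸ ht)
    obtain ⟨i, hi⟩ := DFunLike.ne_iff.mp ht0
    have hi' : 0 < t i := Nat.pos_of_ne_zero hi
    refine Finset.sum_pos' (fun j _ => by positivity) ⟨i, Finset.mem_univ i, ?_⟩
    have : (0 : ℤ) < (t i : ℕ) := by exact_mod_cast hi'
    positivity
  · intro t
    exact aeval_mem_vspan D (o.vL p κ) (q t.1)
  · rw [eulerCl_gamRho o (Y := LC.of (Lens p κ)) (rhobar_isRank p κ) m I, hq, map_add, map_sum,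
      ← Finset.sum_coe_sort]
    congr 1
    · rw [mapAlg_mapAlg, oneU_cross']
      rfl
    · refine Finset.sum_congr rfl fun t _ => ?_
      rw [cross_eq_mul, map_mul, mapAlg_mapAlg, map_prod, map_prod, mul_comm]
      congr 1
      refine Finset.prod_congr rfl fun i _ => ?_
      rw [map_pow, map_pow, mapAlg_mapAlg]
      rfl

end main

end Vale.Agent.P251.Q
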