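import Vale.Agent.P251.Q.Inj
import Vale.Agent.P251.Q.LazWt
import Vale.Agent.P251.F.LazPoly
import Mathlib.RingTheory.Filtration
import Mathlib.RingTheory.MvPolynomial.WeightedHomogeneous

/-!
# P251, part Q: injectivity of `Laz / p → A / p`

`A` is a graded ring with a homogeneous formal group law such that every homogeneous element is in the
image of `Laz` modulo `p`, with a graded homomorphism `A → ℤ[b_0, b_1, …]` (ordinary homology of `MU`)
under which the law becomes `strictMk b • (x + y)`.  Then `Laz / p → A / p` is injective in each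
degree.
-/

namespace Vale.Agent.P251.Q

open MvPowerSeries Vale.Agent.P217 Vale.Agent.P251.F

section fg

variable {L P Z : Type*} [AddCommGroup L] [AddCommGroup P] [AddCommGroup Z]

/-- If `P = φ(L) + p P`, `Z` is finitely generated and `h ∘ φ : L → Z` is injective, then
`φ a ∈ p P` implies `a ∈ p L`. -/
theorem inj_mod_p_fg [Module.Finite ℤ Z] {p : ℕ} (φ : L →+ P) (h : P →+ Z)
    (hinj : Function.Injective fun l => h (φ l)) (hgen : ∀ x : P, ∃ l y, x = φ l + p • y)
    {a : L} {b : P} (hab : φ a = p • b) : ∃ c, a = p • c := by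
  set N : Submodule ℤ Z := AddSubgroup.toIntSubmodule (h.comp φ).range with hN
  set I : Ideal ℤ := Ideal.span {(p : ℤ)} with hI
  -- the image of `h b` in `Z / N` is infinitely divisible by `p`
  have h1 : (N.mkQ (h b)) ∈ (⨅ k : ℕ, I ^ k • (⊤ : Submodule ℤ (Z ⧸ N))) := by
    rw [Submodule.mem_iInf]
    intro k
    obtain ⟨l, y, hl⟩ := surj_mod_pow φ hgen k b
    have h2 : N.mkQ (h b) = ((p : ℤ) ^ k) • N.mkQ (h y) := by
      rw [hl, map_add, map_nsmul, map_add]
      have h3 : N.mkQ (h (φ l)) = 0 := by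
        rw [Submodule.mkQ_apply, Submodule.Quotient.mk_eq_zero]
        exact ⟨l, rfl⟩
      rw [h3, zero_add, map_nsmul, ← Nat.cast_smul_eq_nsmul ℤ, Nat.cast_pow]
    rw [h2]
    refine Submodule.smul_mem_smul ?_ Submodule.mem_top
    rw [hI, Ideal.span_singleton_pow]
    exact Ideal.mem_span_singleton_self _
  rw [Ideal.mem_iInf_smul_pow_eq_bot_iff] at h1
  obtain ⟨⟨r, hr⟩, hr'⟩ := h1
  obtain ⟨s, hs⟩ := Ideal.mem_span_singleton'.1 hr
  have h4 : N.mkQ (h b - (s * p) • h b) = 0 := by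
    rw [map_sub, map_smul, sub_eq_zero, hs]
    exact hr'.symm
  rw [Submodule.mkQ_apply, Submodule.Quotient.mk_eq_zero] at h4
  obtain ⟨l, hl⟩ := h4
  have hl' : h (φ l) = h b - (s * p) • h b := hl
  refine ⟨l + s • a, hinj ?_⟩
  show h (φ a) = h (φ (p • (l + s • a)))
  rw [map_nsmul, map_nsmul, map_add, map_add, map_zsmul, map_zsmul, hl', hab, map_nsmul,
    ← Nat.cast_smul_eq_nsmul ℤ, ← Nat.cast_smul_eq_nsmul ℤ]
  module

end fg

/-- The weight `w` part of `ℤ[b_0, b_1, …]`, `b_n` of weight `n + 1`. -/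
noncomputable abbrev bWt (w : ℕ) : Submodule ℤ (MvPolynomial ℕ ℤ) :=
  MvPolynomial.weightedHomogeneousSubmodule ℤ (fun n : ℕ => n + 1) w

theorem finite_bWt (w : ℕ) : Module.Finite ℤ (bWt w) := by
  have hfin : Set.Finite {d : ℕ →₀ ℕ | Finsupp.weight (fun n : ℕ => n + 1) d = w} := by
    refine Set.Finite.subset ((Finset.range (w + 1)).finsupp
      (fun _ => Finset.range (w + 1))).finite_toSet ?_
    intro d hd
    have hd' : d.sum (fun n e => e * (n + 1)) = w := by
      have := hd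
      rw [Set.mem_ofPred_eq, Finsupp.weight_apply] at this
      simpa [smul_eq_mul] using this
    have hle : ∀ n ∈ d.support, d n * (n + 1) ≤ w := by
      intro n hn
      rw [← hd']
      exact Finset.single_le_sum (f := fun n => d n * (n + 1)) (fun _ _ => Nat.zero_le _) hn
    rw [Finset.mem_coe, Finset.mem_finsupp_iff]
    constructor
    · intro n hn
      have h1 := hle n hn
      have h2 : 1 ≤ d n := Nat.one_le_iff_ne_zero.2 (Finsupp.mem_support_iff.1 hn)
      rw [Finset.mem_range]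
      nlinarith
    · intro n _
      rw [Finset.mem_range]
      by_cases hn : n ∈ d.support
      · have h1 := hle n hn
        nlinarith
      · rw [Finsupp.notMem_support_iff.1 hn]; omega
  have := hfin.to_subtype
  unfold bWt
  rw [MvPolynomial.weightedHomogeneousSubmodule_eq_finsupp_supported]
  exact Module.Finite.of_basis (MvPolynomial.basisRestrictSupport ℤ
    {d : ℕ →₀ ℕ | Finsupp.weight (fun n : ℕ => n + 1) d = w})

/-- `Laz / p → A / p` is injective. -/
theorem laz_inj_mod_p {A : Type*} [CommRing A] {gA : ℤ → AddSubgroup A} (hA : IsMulGr gA)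
    {F : Law A} (hF : HomPS gA 1 F.ps) {p : ℕ}
    (hgen : ∀ (w : ℤ), ∀ x ∈ gA (-w), ∃ c : Laz, Cob.IsWt w (MvPolynomial.C c : Cob Laz 0) ∧
      ∃ y ∈ gA (-w), x = Laz.lift F c + p • y)
    (h : A →+* MvPolynomial ℕ ℤ) (hdeg : ∀ (w : ℕ), ∀ x ∈ gA (-(w : ℤ)), h x ∈ bWt w)
    (hh : h.comp (Laz.lift F) = Laz.toB)
    {w : ℤ} {c : Laz} (hc : Cob.IsWt w (MvPolynomial.C c : Cob Laz 0)) {y : A} (hy : y ∈ gA (-w))
    (hcy : Laz.lift F c = p • y) :
    ∃ c' : Laz, Cob.IsWt w (MvPolynomial.C c' : Cob Laz 0) ∧ c = p • c' := by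
  rcases lt_or_ge w 0 with hw | hw
  · -- no elements of negative weight
    obtain ⟨P, hP, rfl⟩ := exists_mk_of_isWt hc
    have hP0 : P = 0 := by
      by_contra hne
      obtain ⟨d, hd⟩ := MvPolynomial.support_nonempty.2 hne
      have := hP d hd
      omega
    refine ⟨0, ?_, by rw [hP0, map_zero, smul_zero]⟩
    rw [map_zero]
    exact Cob.isWt_zero w
  · obtain ⟨n, rfl⟩ := Int.eq_ofNat_of_zero_le hw
    have := finite_bWt n
    let φ : lazDeg (-(n : ℤ)) →+ gA (-(n : ℤ)) :=
      ((Laz.lift F).toAddMonoidHom.comp (lazDeg (-(n : ℤ))).subtype).codRestrict _ fun x => by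
        have := lift_mem_of_isWt hA hF (mem_lazDeg.1 x.2)
        rwa [neg_neg] at this
    let hn : gA (-(n : ℤ)) →+ bWt n :=
      { toFun := fun x => ⟨h x, hdeg n x x.2⟩
        map_zero' := Subtype.ext (by simp)
        map_add' := fun x y => Subtype.ext (by simp) }
    have hcoe : ∀ l : lazDeg (-(n : ℤ)), (hn (φ l) : MvPolynomial ℕ ℤ) = Laz.toB l := fun l => by
      rw [← hh]; rfl
    have key := inj_mod_p_fg φ hn (fun l l' hll => Subtype.ext (Laz.toB_injective (by
      rw [← hcoe, ← hcoe]; exact congrArg Subtype.val hll))) (fun x => by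
        obtain ⟨c, hc, y, hy, h2⟩ := hgen n x x.2
        refine ⟨⟨c, ?_⟩, ⟨y, hy⟩, Subtype.ext h2⟩
        rw [mem_lazDeg, neg_neg]; exact hc)
      (a := ⟨c, by rw [mem_lazDeg, neg_neg]; exact hc⟩) (b := ⟨y, hy⟩) (Subtype.ext hcy)
    obtain ⟨c', hc'⟩ := key
    refine ⟨c', ?_, congrArg Subtype.val hc'⟩
    have := mem_lazDeg.1 c'.2
    rwa [neg_neg] at this

end Vale.Agent.P251.Q
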