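import Vale.Agent.P251.Q.Thom
import Vale.Agent.P251.Q.Ring
import Vale.Agent.P251.G.SphereBundle
import Vale.Agent.P251.G.Gauge
import Vale.Agent.P251.G.BunSigma

/-!
# P251, part Q: the Euler operator, Euler classes, linearity of the Thom map

For an oriented theory `(E, o)`, a good object `Z` of `LC` and a bundle `V` of rank `n` over `Z`:
* `o.euler V hV : E.U Z →+ E.U Z`, the zero section followed by the Thom map;
* `map_sec_phi`: every section may be used; `euler_natural`, `euler_isom`, `euler_sum`;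
* `euler_eq_zero`: vanishing if there is a section of norm one;
* `phi_cross_left`, `phi_cross_right`, `phi_act` and the same for `euler`;
* for compact `Z`: `o.thom V hV : E.U V.tot`, `o.e V hV : E.U Z`.
-/

set_option linter.style.haveILetI false
set_option linter.unusedSectionVars false

open CategoryTheory MonoidalCategory Matrix Topology

universe v

noncomputable section

namespace Vale.Agent.P251.Q

open Vale.Agent.P251.G Vale.Agent.P251.G.LC Vale.Agent.P251.G.Bun MultTheory

variable {E : MultTheory.{v}} (o : Orientation E) {Z Z' A Y : LC} {ι κ : Type} [Fintype ι]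
  [Fintype κ] {n m : ℕ}

/-! ### Sections -/

section sections

/-- The zero section, as a morphism out of the object `Z`. -/
def zeroMor (V : Bun Z ι) : Z ⟶ V.tot :=
  LC.ofClosed (X := Z) (Y := V.tot) V.zeroSec V.isClosedEmbedding_zeroSec

theorem zeroMor_eq (V : Bun Z ι) : zeroMor V = V.zeroHom := rfl

theorem app_zeroMor (V : Bun Z ι) (z : Z) :
    app (zeroMor V) (z : OnePoint Z) = (V.zeroSec z : OnePoint V.E) := rfl

/-- A continuous section of a bundle. -/
structure Sec (V : Bun Z ι) where
  /-- the section -/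
  s : Z → ι → ℂ
  cont : Continuous s
  mem : ∀ z, V.P z *ᵥ s z = s z

namespace Sec

variable {V : Bun Z ι}

/-- the section as a map to the total space -/
def toE (s : Sec V) (z : Z) : V.E := V.mkE z (s.s z) (s.mem z)

theorem continuous_toE (s : Sec V) : Continuous s.toE := continuous_mkE continuous_id s.cont _

theorem isClosedEmbedding_toE (s : Sec V) : IsClosedEmbedding s.toE :=
  Function.LeftInverse.isClosedEmbedding (f := (base : V.E → Z)) (fun _ => rfl) continuous_base
    s.continuous_toE

/-- the section as a morphism -/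
def mor (s : Sec V) : Z ⟶ V.tot := LC.ofClosed (X := Z) (Y := V.tot) s.toE s.isClosedEmbedding_toE

theorem app_mor (s : Sec V) (z : Z) :
    app s.mor (z : OnePoint Z) = (s.toE z : OnePoint V.E) := rfl

/-- Every section is homotopic to the zero section. -/
theorem homotopic (s : Sec V) : Homotopic (zeroMor V) s.mor := by
  refine LC.homotopic_of_leftInverse (X := Z) (Y := V.tot)
    (fun q => V.mkE q.1 (((q.2 : ℝ) : ℂ) • s.s q.1) (by rw [mulVec_smul, s.mem])) ?_
    (fun q => base q.1) (continuous_base.comp continuous_fst) (fun _ _ => rfl) ?_ ?_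
  · refine continuous_mkE continuous_fst ?_ _
    exact (Complex.continuous_ofReal.comp (continuous_subtype_val.comp continuous_snd)).smul
      (s.cont.comp continuous_fst)
  · intro z
    rw [app_zeroMor]
    congr 1
    exact E_ext rfl (by simp)
  · intro z
    rw [app_mor]
    congr 1
    exact E_ext rfl (by simp [toE])

/-- the closed half line bundle spanned by a section of norm one -/
def ray (s : Sec V) (hs : ∀ z, nsq (s.s z) = 1) : Z ⊗ HH ⟶ V.tot :=
  LC.ofClosed (X := LC.of (Z × NNReal)) (Y := V.tot)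
    (fun q => V.mkE q.1 (((q.2 : ℝ) : ℂ) • s.s q.1) (by rw [mulVec_smul, s.mem])) (by
    refine Function.LeftInverse.isClosedEmbedding
      (f := fun p : V.E => (base p, Real.toNNReal (Real.sqrt (nsq (vec p))))) ?_ ?_ ?_
    · rintro ⟨z, r⟩
      refine Prod.ext rfl ?_
      change Real.toNNReal (Real.sqrt (nsq (((r : ℝ) : ℂ) • s.s z))) = r
      rw [nsq_smul, hs, mul_one, Complex.normSq_ofReal, Real.sqrt_mul_self r.coe_nonneg,
        Real.toNNReal_coe]
    · exact continuous_base.prodMk (continuous_real_toNNReal.comp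
        (Real.continuous_sqrt.comp (continuous_nsq.comp continuous_vec)))
    · refine continuous_mkE continuous_fst ?_ _
      exact (Complex.continuous_ofReal.comp (NNReal.continuous_coe.comp continuous_snd)).smul
        (s.cont.comp continuous_fst))

/-- The zero section is null homotopic if there is a section of norm one. -/
theorem zeroMor_homotopic_zero (s : Sec V) (hs : ∀ z, nsq (s.s z) = 1) :
    Homotopic (zeroMor V) 0 := by
  have h1 : zeroMor V = ((ρ_ Z).inv ≫ Z ◁ point (X := HH) 0) ≫ (Z ◁ 𝟙 HH) ≫ s.ray hs := by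
    apply LC.hom_ext
    intro z
    rw [app_zeroMor]
    change _ = ((V.mkE z ((((0 : NNReal) : ℝ) : ℂ) • s.s z) _ : V.E) : OnePoint V.E)
    congr 1
    exact E_ext rfl (by simp)
  have h2 : ((ρ_ Z).inv ≫ Z ◁ point (X := HH) 0) ≫ (Z ◁ (0 : HH ⟶ HH)) ≫ s.ray hs = 0 := by
    apply LC.hom_ext
    intro z
    rfl
  rw [h1, ← h2]
  exact Homotopic.comp_left _ ((contr_HH.whiskerLeft Z).comp_right _)

end Sec

end sections

/-! ### The Euler operator -/

section euler

/-- The Euler operator. -/
def Orientation.euler (V : Bun Z ι) (hV : V.IsRank n) : E.U Z →+ E.U Z :=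
  (E.map (zeroMor V)).comp (o.phi V hV)

theorem euler_apply (V : Bun Z ι) (hV : V.IsRank n) (u : E.U Z) :
    o.euler V hV u = E.map (zeroMor V) (o.phi V hV u) := rfl

theorem euler_deg [E.Good Z] (V : Bun Z ι) [E.Good V.tot] (hV : V.IsRank n) {k : ℤ} {u : E.U Z}
    (hu : u ∈ E.deg Z k) : o.euler V hV u ∈ E.deg Z (k + n) :=
  map_deg _ (phi_deg o V hV hu)

/-- The Euler operator may be computed with any section. -/
theorem map_sec_phi [E.Good Z] (V : Bun Z ι) [E.Good V.tot] (hV : V.IsRank n) (s : Sec V)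
    (u : E.U Z) : E.map s.mor (o.phi V hV u) = o.euler V hV u :=
  (map_homotopic s.homotopic _).symm

/-- If the theory maps the zero morphism to zero. -/
theorem map_zeroHom [E.Good Z] [E.Good Z'] (u : E.U Z') : E.map (0 : Z ⟶ Z') u = 0 := by
  have h1 : (0 : Z ⟶ Z') = (0 : Z ⟶ LC.of Empty) ≫ (0 : LC.of Empty ⟶ Z') :=
    Limits.comp_zero.symm
  rw [h1, MultTheory.map_comp, E.empty' (E.map (0 : LC.of Empty ⟶ Z') u), map_zero]

theorem euler_eq_zero [E.Good Z] (V : Bun Z ι) [E.Good V.tot] (hV : V.IsRank n) (s : Sec V)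
    (hs : ∀ z, nsq (s.s z) = 1) (u : E.U Z) : o.euler V hV u = 0 := by
  rw [euler_apply, map_homotopic (s.zeroMor_homotopic_zero hs), map_zeroHom]

theorem zeroMor_totMap (f : Z ⟶ Z') {V : Bun Z ι} {V' : Bun Z' ι} (h : Over f V V') :
    zeroMor V ≫ totMap f h = f ≫ zeroMor V' := by
  apply LC.hom_ext
  intro z
  rw [app_comp, app_comp, app_zeroMor]
  rcases hz : app f (z : OnePoint Z) with _ | z'
  · rw [app_totMap_of_infty f h (V.zeroSec z) hz]
    exact (app_infty _).symm
  · rw [app_totMap_of_coe f h (V.zeroSec z) z' hz]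
    rfl

theorem euler_natural [E.Good Z] [E.Good Z'] (f : Z ⟶ Z') {V : Bun Z ι} {V' : Bun Z' ι}
    [E.Good V.tot] [E.Good V'.tot] (h : Over f V V') (hV : V.IsRank n) (hV' : V'.IsRank n)
    (u : E.U Z') : o.euler V hV (E.map f u) = E.map f (o.euler V' hV' u) := by
  rw [euler_apply, phi_natural o f h hV hV', euler_apply, ← MultTheory.map_comp,
    ← MultTheory.map_comp, zeroMor_totMap]

theorem euler_isom [E.Good Z] {V : Bun Z ι} {V' : Bun Z κ} [E.Good V.tot] [E.Good V'.tot]
    (φ : V.Isom V') (hV : V.IsRank n) (hV' : V'.IsRank n) (u : E.U Z) :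
    o.euler V hV u = o.euler V' hV' u := by
  have h1 : zeroMor V ≫ φ.iso.hom = zeroMor V' := by
    apply LC.hom_ext
    intro z
    rw [app_comp, app_zeroMor, app_zeroMor, Bun.Isom.app_iso_hom_coe]
    congr 1
    exact E_ext rfl (by simp)
  rw [euler_apply, phi_isom o φ hV hV', ← MultTheory.map_comp, h1]
  rfl

/-- The Euler operator of a direct sum. -/
theorem euler_sum [E.Good Z] (V : Bun Z ι) (W : Bun Z κ) [E.Good V.tot] [E.Good W.tot]
    [E.Good (V.sum W).tot] (hV : V.IsRank n) (hW : W.IsRank m) {p : ℕ}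
    (h : n + m = p) (u : E.U Z) :
    o.euler (V.sum W) (isRank_sum hV hW h) u = o.euler W hW (o.euler V hV u) := by
  haveI : E.Good (W.pullback (⟨base, continuous_base⟩ : C(V.E, Z))).tot :=
    MultTheory.Good.of_iso E (sumIso V W)
  have h1 : zeroMor (V.sum W) ≫ (sumIso V W).hom =
      zeroMor V ≫ zeroMor (Z := V.tot) (W.pullback (⟨base, continuous_base⟩ : C(V.E, Z))) := by
    apply LC.hom_ext
    intro z
    rfl
  have h2 : Over (zeroMor V) W (W.pullback (⟨base, continuous_base⟩ : C(V.E, Z))) := by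
    intro z z' hz
    have h3 : V.zeroSec z = z' := OnePoint.coe_injective hz
    rw [← h3]
    rfl
  rw [euler_apply, phi_sum o V W hV hW h, ← MultTheory.map_comp, h1, MultTheory.map_comp]
  exact (euler_natural o (zeroMor V) h2 hW (isRank_pullback_base hW) (o.phi V hV u)).symm

end euler

/-! ### Linearity -/

section linear

/-- pull back along the second projection `A ⊗ Z → Z` -/
abbrev pullSnd (A : LC) (V : Bun Z ι) : Bun (A ⊗ Z : LC) ι := V.pullback (sndC A Z)
/-- pull back along the first projection `Z ⊗ A → Z` -/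
abbrev pullFst (A : LC) (V : Bun Z ι) : Bun (Z ⊗ A : LC) ι := V.pullback (fstC Z A)

/-- the total space over `A ⊗ Z` -/
def sndTIso (A : LC) (V : Bun Z ι) : (pullSnd A V).tot ≅ A ⊗ V.tot :=
  ofHomeo (X := (pullSnd A V).tot) (Y := LC.of (A × V.E)) (Bun.sndHomeo V A)

/-- the total space over `Z ⊗ A` -/
def fstTIso (A : LC) (V : Bun Z ι) : (pullFst A V).tot ≅ V.tot ⊗ A :=
  ofHomeo (X := (pullFst A V).tot) (Y := LC.of (V.E × A)) (Bun.fstHomeo V A)

instance good_pullSnd (A : LC) (V : Bun Z ι) [E.Good A] [E.Good V.tot] :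
    E.Good (pullSnd A V).tot := MultTheory.Good.of_iso E (sndTIso A V).symm

instance good_pullFst (A : LC) (V : Bun Z ι) [E.Good A] [E.Good V.tot] :
    E.Good (pullFst A V).tot := MultTheory.Good.of_iso E (fstTIso A V).symm

theorem isRank_pullS {V : Bun Z ι} (hV : V.IsRank n) : (pullSnd A V).IsRank n :=
  fun p => hV p.2
theorem isRank_pullF {V : Bun Z ι} (hV : V.IsRank n) : (pullFst A V).IsRank n :=
  fun p => hV p.1

theorem phi_cross_left [E.Good A] [E.Good Z] (V : Bun Z ι) [E.Good V.tot] (hV : V.IsRank n)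
    (a : E.U A) (u : E.U Z) :
    o.phi (pullSnd A V) (isRank_pullS hV) (E.cross a u) =
      E.map (sndTIso A V).hom (E.cross a (o.phi V hV u)) := by
  haveI := o.goodTh
  have h1 : thomMor (pullSnd A V) (isRank_pullS hV) =
      ((sndTIso A V).hom ≫ (A ◁ thomMor V hV)) ≫ (α_ A Z (ThO n ι)).inv := by
    apply LC.hom_ext
    intro p
    rfl
  rw [phi_apply, phi_apply, cross_map_right, ← MultTheory.map_comp, h1, MultTheory.map_comp,
    cross_assoc_inv]

theorem phi_cross_right [E.Good A] [E.Good Z] (V : Bun Z ι) [E.Good V.tot] (hV : V.IsRank n)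
    (u : E.U Z) (a : E.U A) :
    o.phi (pullFst A V) (isRank_pullF hV) (E.cross u a) =
      E.map (fstTIso A V).hom (E.cross (o.phi V hV u) a) := by
  haveI := o.goodTh
  have h0 : E.cross (E.cross u a) (o.tau n ι) =
      E.map ((α_ Z A (ThO n ι)).hom ≫ (Z ◁ (β_ A (ThO n ι)).hom) ≫ (α_ Z (ThO n ι) A).inv)
        (E.cross (E.cross u (o.tau n ι)) a) := by
    rw [MultTheory.map_comp, MultTheory.map_comp, cross_assoc_inv, ← cross_map_right, cross_comm,
      cross_assoc]
  rw [phi_apply, phi_apply, cross_map_left, ← MultTheory.map_comp, h0, ← MultTheory.map_comp]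
  refine congrArg (fun k => E.map k _) ?_
  apply LC.hom_ext
  intro p
  rfl

theorem euler_cross_left [E.Good A] [E.Good Z] (V : Bun Z ι) [E.Good V.tot] (hV : V.IsRank n)
    (a : E.U A) (u : E.U Z) :
    o.euler (pullSnd A V) (isRank_pullS hV) (E.cross a u) = E.cross a (o.euler V hV u) := by
  have h1 : zeroMor (pullSnd A V) ≫ (sndTIso A V).hom = A ◁ zeroMor V := by
    apply LC.hom_ext
    intro p
    rfl
  rw [euler_apply, phi_cross_left, ← MultTheory.map_comp, h1, ← cross_map_right]
  rfl

theorem euler_cross_right [E.Good A] [E.Good Z] (V : Bun Z ι) [E.Good V.tot] (hV : V.IsRank n)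
    (u : E.U Z) (a : E.U A) :
    o.euler (pullFst A V) (isRank_pullF hV) (E.cross u a) = E.cross (o.euler V hV u) a := by
  have h1 : zeroMor (pullFst A V) ≫ (fstTIso A V).hom = zeroMor V ▷ A := by
    apply LC.hom_ext
    intro p
    rfl
  rw [euler_apply, phi_cross_right, ← MultTheory.map_comp, h1, ← cross_map_left]
  rfl

theorem over_graph (f : C(Z, Y)) (V : Bun Z ι) : Over (graph f) V (pullSnd Y V) := by
  intro z q hq
  have h1 : ((f z, z) : Y × Z) = q := OnePoint.coe_injective hq
  rw [← h1]
  rfl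

/-- the base as a continuous map -/
def tcb (V : Bun Z ι) : C(V.tot, Z) := ⟨base, continuous_base⟩

/-- Linearity of the Thom map. -/
theorem phi_act [E.Good Y] [E.Good Z] (f : C(Z, Y)) (V : Bun Z ι) [E.Good V.tot]
    (hV : V.IsRank n) (y : E.U Y) (u : E.U Z) :
    o.phi V hV (E.act f y u) = E.act (f.comp (tcb V)) y (o.phi V hV u) := by
  have h1 : totMap (graph f) (over_graph f V) ≫ (sndTIso Y V).hom = graph (f.comp (tcb V)) := by
    apply LC.hom_ext
    intro p
    rw [app_comp, app_totMap_of_coe (graph f) (over_graph f V) p ((f (base p), base p) : Y × Z)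
      rfl]
    rfl
  rw [act_apply, phi_natural o (graph f) (over_graph f V) hV (isRank_pullS hV),
    phi_cross_left, ← MultTheory.map_comp, h1, act_apply]

theorem euler_act [E.Good Y] [E.Good Z] (f : C(Z, Y)) (V : Bun Z ι) [E.Good V.tot]
    (hV : V.IsRank n) (y : E.U Y) (u : E.U Z) :
    o.euler V hV (E.act f y u) = E.act f y (o.euler V hV u) := by
  rw [euler_apply, phi_act, map_act (zeroMor V) (f.comp (tcb V)) f]
  · rfl
  · intro z p hp
    have h1 : V.zeroSec z = p := OnePoint.coe_injective hp
    rw [← h1]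
    rfl

/-- The Euler operator is linear over `E.U Z`. -/
theorem euler_mul [E.Good Z] (V : Bun Z ι) [E.Good V.tot] (hV : V.IsRank n) (x u : E.U Z) :
    o.euler V hV (x * u) = x * o.euler V hV u := euler_act o _ V hV x u

theorem phi_smul [E.Good Z] (V : Bun Z ι) [E.Good V.tot] (hV : V.IsRank n) (a : E.A)
    (u : E.U Z) : o.phi V hV (a • u) = a • o.phi V hV u := by
  rw [smul_eq_act, smul_eq_act, phi_act]
  rfl

theorem euler_smul [E.Good Z] (V : Bun Z ι) [E.Good V.tot] (hV : V.IsRank n) (a : E.A)
    (u : E.U Z) : o.euler V hV (a • u) = a • o.euler V hV u := by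
  rw [smul_eq_act, smul_eq_act, euler_act]

end linear

/-! ### Thom class and Euler class over a compact base -/

section compact

variable {B : LC} [CompactSpace B]

/-- The Thom class of a bundle over a compact space. -/
def Orientation.thom (V : Bun B ι) (hV : V.IsRank n) : E.U V.tot := o.phi V hV (E.oneU B)

/-- The Euler class of a bundle over a compact space. -/
def Orientation.e (V : Bun B ι) (hV : V.IsRank n) : E.U B := o.euler V hV (E.oneU B)

/-- The map to the Thom space of the tautological bundle. -/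
def toThHom (V : Bun B ι) (hV : V.IsRank n) : V.tot ⟶ ThO n ι :=
  Th.hom (X := V.tot) (fun p => V.P (base p)) vec (V.cont.comp continuous_base) continuous_vec
    (fun p => V.isProj hV (base p)) P_vec (by
      have h1 : Filter.Tendsto (fun p : V.E => nsq (Subtype.val p : B × (ι → ℂ)).2)
          (Filter.cocompact V.E) Filter.atTop := by
        have h2 : Filter.Tendsto (nsq : (ι → ℂ) → ℝ) (Filter.cocompact (ι → ℂ)) Filter.atTop := by
          rw [cocompact_vec]
          exact Filter.tendsto_comap
        exact h2.comp (tendsto_snd_cocompact.comp V.isClosedEmbedding_val.tendsto_cocompact)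
      exact h1)

theorem app_toThHom (V : Bun B ι) (hV : V.IsRank n) (p : V.E) :
    app (toThHom V hV) (p : OnePoint V.E) = (V.toTh hV p : OnePoint (Th n ι)) := rfl

/-- The Thom class is the pull back of the universal Thom class. -/
theorem thom_eq [E.Good B] (V : Bun B ι) [E.Good V.tot] (hV : V.IsRank n) :
    o.thom V hV = E.map (toThHom V hV) (o.tau n ι) := by
  haveI := o.goodTh
  have h1 : E.cross (E.oneU B) (o.tau n ι) =
      E.map ((cmap (toPt B) ▷ ThO n ι) ≫ (λ_ (ThO n ι)).hom) (o.tau n ι) := by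
    unfold MultTheory.oneU
    rw [cross_map_left, one_cross, ← MultTheory.map_comp]
  rw [Orientation.thom, phi_apply, h1, ← MultTheory.map_comp]
  refine congrArg (fun k => E.map k _) ?_
  apply LC.hom_ext
  intro p
  rfl

theorem thom_deg [E.Good B] (V : Bun B ι) [E.Good V.tot] (hV : V.IsRank n) :
    o.thom V hV ∈ E.deg V.tot n := by
  have h := phi_deg o V hV (oneU_deg (E := E) B)
  rwa [zero_add] at h

theorem e_deg [E.Good B] (V : Bun B ι) [E.Good V.tot] (hV : V.IsRank n) :
    o.e V hV ∈ E.deg B n := by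
  have h := euler_deg o V hV (oneU_deg (E := E) B)
  rwa [zero_add] at h

/-- The Euler class is the restriction of the Thom class to the zero section. -/
theorem map_zeroMor_thom (V : Bun B ι) (hV : V.IsRank n) :
    E.map (zeroMor V) (o.thom V hV) = o.e V hV := rfl

theorem map_sec_thom [E.Good B] (V : Bun B ι) [E.Good V.tot] (hV : V.IsRank n) (s : Sec V) :
    E.map s.mor (o.thom V hV) = o.e V hV := map_sec_phi o V hV s _

theorem over_graph' (f : C(Z, B)) (V : Bun B ι) :
    Over (graph f) (V.pullback f) (pullFst Z V) := by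
  intro z q hq
  have h1 : ((f z, z) : B × Z) = q := OnePoint.coe_injective hq
  rw [← h1]
  rfl

/-- the morphism `(f^* V).tot ⟶ V.tot ⊗ Z`, `(z, v) ↦ ((f z, v), z)` -/
def pullMor (f : C(Z, B)) (V : Bun B ι) : (V.pullback f).tot ⟶ V.tot ⊗ Z :=
  LC.ofClosed (X := (V.pullback f).tot) (Y := LC.of (V.E × Z))
    (fun p => (V.mkE (f (base p)) (vec p) (P_vec p), base p)) (by
    refine Function.LeftInverse.isClosedEmbedding
      (f := fun q : V.E × Z => (V.pullback f).ofVec q.2 (vec q.1)) ?_ ?_ ?_
    · intro p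
      exact E_ext rfl (P_vec p)
    · exact (V.pullback f).continuous_ofVec.comp
        (continuous_snd.prodMk (continuous_vec.comp continuous_fst))
    · exact (continuous_mkE (f.continuous.comp continuous_base) continuous_vec _).prodMk
        continuous_base)

theorem totMap_graph (f : C(Z, B)) (V : Bun B ι) :
    totMap (graph f) (over_graph' f V) ≫ (fstTIso Z V).hom = pullMor f V := by
  apply LC.hom_ext
  intro p
  rw [app_comp, app_totMap_of_coe (graph f) (over_graph' f V) p ((f (base p), base p) : B × Z) rfl]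
  rfl

theorem eq_map_graph_cross [E.Good B] [E.Good Z] (f : C(Z, B)) (u : E.U Z) :
    u = E.map (graph f) (E.cross (E.oneU B) u) := by
  rw [← act_apply, act_oneU]

/-- The Thom map over a space `Z` over a compact `B` is the product with the Thom class. -/
theorem phi_pullback [E.Good B] [E.Good Z] (f : C(Z, B)) (V : Bun B ι) [E.Good V.tot]
    [E.Good (V.pullback f).tot] (hV : V.IsRank n) (hV' : (V.pullback f).IsRank n) (u : E.U Z) :
    o.phi (V.pullback f) hV' u = E.map (pullMor f V) (E.cross (o.thom V hV) u) := by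
  conv_lhs => rw [eq_map_graph_cross f u]
  rw [phi_natural o (graph f) (over_graph' f V) hV' (isRank_pullF hV), phi_cross_right,
    ← MultTheory.map_comp, totMap_graph]
  rfl

theorem phi_eq_act_thom [E.Good B] (V : Bun B ι) [E.Good V.tot] (hV : V.IsRank n) (u : E.U B) :
    o.phi V hV u = E.act (tcb V) u (o.thom V hV) := by
  conv_lhs => rw [← act_oneU (E := E) (ContinuousMap.id B) u]
  have h1 : E.act (ContinuousMap.id B) (E.oneU B) u = E.act (ContinuousMap.id B) u (E.oneU B) := by
    rw [← mul_def, ← mul_def, mul_comm]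
  rw [h1, phi_act]
  rfl

/-- The Euler operator over a space `Z` over a compact `B` is the action of the Euler class. -/
theorem euler_pullback [E.Good B] [E.Good Z] (f : C(Z, B)) (V : Bun B ι) [E.Good V.tot]
    [E.Good (V.pullback f).tot] (hV : V.IsRank n) (hV' : (V.pullback f).IsRank n) (u : E.U Z) :
    o.euler (V.pullback f) hV' u = E.act f (o.e V hV) u := by
  conv_lhs => rw [eq_map_graph_cross f u]
  rw [euler_natural o (graph f) (over_graph' f V) hV' (isRank_pullF hV), euler_cross_right,
    act_apply]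
  rfl

theorem euler_eq_mul [E.Good B] (V : Bun B ι) [E.Good V.tot] (hV : V.IsRank n) (u : E.U B) :
    o.euler V hV u = o.e V hV * u := by
  have h := euler_mul o V hV u (E.oneU B)
  have h1 : u * E.oneU B = u := mul_one u
  rw [h1] at h
  rw [h, mul_comm]
  rfl

/-- The Euler class of a pull back. -/
theorem e_pullback {B' : LC} [CompactSpace B'] [E.Good B] [E.Good B'] (f : C(B', B))
    (V : Bun B ι) [E.Good V.tot] [E.Good (V.pullback f).tot] (hV : V.IsRank n)
    (hV' : (V.pullback f).IsRank n) : o.e (V.pullback f) hV' = E.map (cmap f) (o.e V hV) := by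
  rw [Orientation.e, euler_pullback o f V hV hV', act_eq_mul]
  exact mul_one _

theorem e_pullback_alg {B' : LC} [CompactSpace B'] [E.Good B] [E.Good B'] (f : C(B', B))
    (V : Bun B ι) [E.Good V.tot] [E.Good (V.pullback f).tot] (hV : V.IsRank n)
    (hV' : (V.pullback f).IsRank n) : o.e (V.pullback f) hV' = E.mapAlg f (o.e V hV) :=
  e_pullback o f V hV hV'

/-- The Euler class of a direct sum. -/
theorem e_sum [E.Good B] (V : Bun B ι) (W : Bun B κ) [E.Good V.tot] [E.Good W.tot]
    [E.Good (V.sum W).tot] (hV : V.IsRank n) (hW : W.IsRank m) {p : ℕ}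
    (h : n + m = p) : o.e (V.sum W) (isRank_sum hV hW h) = o.e V hV * o.e W hW := by
  rw [Orientation.e, euler_sum o V W hV hW h, euler_eq_mul, mul_comm]
  rfl

theorem e_isom [E.Good B] {V : Bun B ι} {V' : Bun B κ} [E.Good V.tot] [E.Good V'.tot]
    (φ : V.Isom V') (hV : V.IsRank n) (hV' : V'.IsRank n) :
    o.e V hV = o.e V' hV' := euler_isom o φ hV hV' _

theorem e_eq_zero [E.Good B] (V : Bun B ι) [E.Good V.tot] (hV : V.IsRank n) (s : Sec V)
    (hs : ∀ z, nsq (s.s z) = 1) : o.e V hV = 0 := euler_eq_zero o V hV s hs _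

end compact

/-! ### Finite direct sums -/

section sigma

/-- A bundle is isomorphic to itself with another index type. -/
def isomReindex {X : Type} [TopologicalSpace X] (V : Bun X ι) (f : ι ≃ κ) :
    V.Isom (V.reindex f) where
  u x := (V.P x).submatrix f.symm id
  cont := V.cont.matrix_submatrix _ _
  left x := by
    rw [conjTranspose_submatrix, V.herm, submatrix_mul_equiv, V.idem]
    simp
  right x := by
    have h1 : ((V.P x).submatrix f.symm id)ᴴ = (V.P x).submatrix id f.symm := by
      rw [conjTranspose_submatrix, V.herm]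
    rw [h1, reindex_P]
    have h2 := Matrix.submatrix_mul (V.P x) (V.P x) f.symm id f.symm Function.bijective_id
    rw [V.idem] at h2
    exact h2.symm

theorem isProj_zero_eq {P : Matrix ι ι ℂ} (h : IsProj 0 P) : P = 0 := by
  have h1 : (0 : ℝ) = ∑ i, nsq (P i) := by
    have h2 : ((0 : ℝ) : ℂ) = ((∑ i, nsq (P i) : ℝ) : ℂ) := by
      have h3 := h.trace
      rw [Nat.cast_zero] at h3
      rw [Complex.ofReal_zero, ← h3, Complex.ofReal_sum]
      exact Finset.sum_congr rfl fun i _ => h.diag_eq i
    exact_mod_cast h2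
  have h4 := (Finset.sum_eq_zero_iff_of_nonneg fun i _ => nsq_nonneg (P i)).mp h1.symm
  ext i j
  exact congrFun (nsq_eq_zero.mp (h4 i (Finset.mem_univ i))) j

/-- The Euler operator of a bundle of rank zero is the identity. -/
theorem euler_rank_zero [E.Good Z] (V : Bun Z ι) [E.Good V.tot] (hV : V.IsRank 0) (u : E.U Z) :
    o.euler V hV u = u := by
  haveI := o.goodTh
  have h1 : zeroMor V ≫ thomMor V hV = (ρ_ Z).inv ≫ (Z ◁ Th.unit ι) := by
    apply LC.hom_ext
    intro z
    have h2 : V.toTh hV (V.zeroSec z) = Th.zeroPt ι := by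
      apply Th.ext
      · exact isProj_zero_eq (V.isProj hV z)
      · rfl
    exact congrArg (fun a : Th 0 ι => (((z, a) : Z × Th 0 ι) : OnePoint (Z × Th 0 ι))) h2
  have h3 : E.map (Th.unit ι) (o.tau 0 ι) = E.one := by
    refine o.tau_zero _ ?_
    intro x
    exact ⟨Th.zeroPt ι, rfl, rfl, rfl⟩
  rw [euler_apply, phi_apply, ← MultTheory.map_comp, h1, MultTheory.map_comp, ← cross_map_right,
    h3, cross_one, map_inv_hom]

theorem euler_congr_rank {V : Bun Z ι} {n n' : ℕ} (h : n = n') (hV : V.IsRank n)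
    (hV' : V.IsRank n') : o.euler V hV = o.euler V hV' := by
  subst h; rfl

/-- All bundles over `B` have good total spaces. -/
class GoodBase (E : MultTheory.{v}) (B : LC) : Prop extends E.Good B where
  tot : ∀ {κ : Type} [Fintype κ] {n : ℕ} (W : Bun B κ), W.IsRank n → E.Good W.tot

variable {B : LC} [CompactSpace B]

theorem e_congr_rank {V : Bun B ι} {n n' : ℕ} (h : n = n') (hV : V.IsRank n)
    (hV' : V.IsRank n') : o.e V hV = o.e V hV' := by
  subst h; rfl

theorem e_rank_zero [E.Good B] (V : Bun B ι) [E.Good V.tot] (hV : V.IsRank 0) :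
    o.e V hV = 1 := euler_rank_zero o V hV _

theorem e_sigma_fin [hB : GoodBase E B] {k : ℕ} : ∀ {κ : Fin k → Type} [∀ i, Fintype (κ i)]
    (V : ∀ i, Bun B (κ i)) (r : Fin k → ℕ) (hV : ∀ i, (V i).IsRank (r i)),
    o.e (Bun.sigma V) (IsRank.sigma hV) = ∏ i, o.e (V i) (hV i) := by
  induction k with
  | zero =>
    intro κ _ V r hV
    haveI := hB.tot _ (IsRank.sigma hV)
    have h0 : (∑ i : Fin 0, r i) = 0 := by simp
    have h1 : (Bun.sigma V).IsRank 0 := h0.subst (motive := fun n => (Bun.sigma V).IsRank n)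
      (IsRank.sigma hV)
    rw [e_congr_rank o h0 (IsRank.sigma hV) h1, e_rank_zero]
    exact (Finset.prod_eq_one fun i _ => i.elim0).symm
  | succ k ih =>
    intro κ hκ V r hV
    have hA : (Bun.sigma fun i : Fin k => V i.castSucc).IsRank (∑ i : Fin k, r i.castSucc) :=
      IsRank.sigma fun i : Fin k => hV i.castSucc
    haveI h1 := hB.tot _ (IsRank.sigma hV)
    haveI h2 := hB.tot _ hA
    haveI h3 := hB.tot _ (hV (Fin.last k))
    have hs : (∑ i : Fin k, r i.castSucc) + r (Fin.last k) = ∑ i, r i :=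
      (Fin.sum_univ_castSucc r).symm
    have hS := isRank_sum hA (hV (Fin.last k)) hs
    haveI h4 := hB.tot _ hS
    have φ : (Bun.sigma V).Isom ((Bun.sigma fun i : Fin k => V i.castSucc).sum
        (V (Fin.last k))) := by
      rw [← Bun.sigma_reindex]
      exact isomReindex _ _
    have e1 := e_isom o φ (IsRank.sigma hV) hS
    have e2 := e_sum o _ _ hA (hV (Fin.last k)) hs
    have e3 := ih (fun i : Fin k => V i.castSucc) (fun i => r i.castSucc)
      (fun i => hV i.castSucc)
    rw [e1, e2, e3, Fin.prod_univ_castSucc]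

/-- The Euler class of a finite direct sum. -/
theorem e_sigma [hB : GoodBase E B] {J : Type} [Fintype J] [DecidableEq J] {κ : J → Type}
    [∀ i, Fintype (κ i)] (V : ∀ i, Bun B (κ i)) (r : J → ℕ) (hV : ∀ i, (V i).IsRank (r i)) :
    o.e (Bun.sigma V) (IsRank.sigma hV) = ∏ i, o.e (V i) (hV i) := by
  let f : J ≃ Fin (Fintype.card J) := Fintype.equivFin J
  haveI h1 := hB.tot _ (IsRank.sigma hV)
  haveI h2 := hB.tot _ (IsRank.sigma fun i => hV (f.symm i))
  have hs : (∑ i, r (f.symm i)) = ∑ i, r i := Equiv.sum_comp f.symm r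
  let g : (Σ j, κ j) ≃ (Σ i, κ (f.symm i)) := (Equiv.sigmaCongrLeft f.symm).symm
  have φ : (Bun.sigma V).Isom (Bun.sigma fun i => V (f.symm i)) := by
    refine (isomReindex (Bun.sigma V) g).trans (Bun.Isom.ofEq ?_)
    intro x
    ext ⟨a, a'⟩ ⟨b, b'⟩
    rw [reindex_P, Matrix.submatrix_apply, sigma_P, sigma_P]
    have hg : ∀ (a : Fin (Fintype.card J)) (a' : κ (f.symm a)),
        g.symm ⟨a, a'⟩ = ⟨f.symm a, a'⟩ := fun a a' => rfl
    rw [hg, hg]
    by_cases h : a = b
    · subst h
      rw [Matrix.blockDiagonal'_apply_eq, Matrix.blockDiagonal'_apply_eq]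
    · rw [Matrix.blockDiagonal'_apply_ne _ _ _ h, Matrix.blockDiagonal'_apply_ne]
      exact fun h' => h (f.symm.injective h')
  have h3 : (Bun.sigma fun i => V (f.symm i)).IsRank (∑ i, r i) :=
    hs ▸ IsRank.sigma fun i => hV (f.symm i)
  rw [e_isom o φ (IsRank.sigma hV) h3, e_congr_rank o hs.symm h3
    (IsRank.sigma fun i => hV (f.symm i)), e_sigma_fin,
    ← Equiv.prod_comp f.symm fun i => o.e (V i) (hV i)]

end sigma

end Vale.Agent.P251.Q
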