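import Vale.Agent.P251.Q.CPn
import Vale.Agent.P251.Q.Euler
import Vale.Agent.P251.G.Segre

/-!
# P251, part Q: Euler classes on Grassmannians

* `GoodGr E` : the Grassmannians and their Thom spaces are good; `Orientation.goodGr`;
* `o.eGr n I` : the Euler class of the tautological bundle on `Gr n I`;
* `o.eu V h` : the Euler class of a bundle over a compact space; isometries, sums, pull backs;
* `eGr_eq_collapse` : `e(γ) = collapse^* τ` on `Gr n (I ⊕ Unit)`;
* `gr_induction` : induction over the stratification of Grassmannians.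
-/

set_option linter.unusedSectionVars false
set_option linter.style.haveILetI false

open CategoryTheory MonoidalCategory OnePoint Topology Matrix
open Vale.Agent.P251.G Vale.Agent.P251.G.LC

universe v

noncomputable section

namespace Vale.Agent.P251.Q

variable {I J K : Type} [Fintype I] [Fintype J] [Fintype K] {n m p : ℕ}

namespace MultTheory

/-- The Grassmannians and their Thom spaces are good. -/
class GoodGr (E : MultTheory.{v}) : Prop where
  gr : ∀ (n : ℕ) (I : Type) [Fintype I], E.good (LC.of (Gr n I))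
  th : ∀ (n : ℕ) (I : Type) [Fintype I], E.good (LC.of (Th n I))

variable (E : MultTheory.{v})

instance (n : ℕ) (I : Type) [Fintype I] [h : E.GoodGr] : E.Good (LC.of (Gr n I)) := ⟨h.gr n I⟩
instance (n : ℕ) (I : Type) [Fintype I] [h : E.GoodGr] : E.Good (LC.of (Th n I)) := ⟨h.th n I⟩

end MultTheory

/-! ### Direct sums -/

/-- the direct sum of subspaces -/
def grSumC (h : n + m = p) :
    C((LC.of (Gr n I) ⊗ LC.of (Gr m J) : LC), LC.of (Gr p (I ⊕ J))) where
  toFun x := ⟨fromBlocks (Gr.P x.1) 0 0 (Gr.P x.2),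
    h ▸ IsProj.fromBlocks (Gr.isProj x.1) (Gr.isProj x.2)⟩
  continuous_toFun := Continuous.subtype_mk
    ((Gr.continuous_P.comp continuous_fst).matrix_fromBlocks continuous_const continuous_const
      (Gr.continuous_P.comp continuous_snd)) _

theorem zeroHom_sum (h : n + m = p) :
    ((Gr.zeroHom : LC.of (Gr n I) ⟶ _) ⊗ₘ (Gr.zeroHom : LC.of (Gr m J) ⟶ _)) ≫ Th.sum h =
      cmap (grSumC h) ≫ Gr.zeroHom := by
  apply tensor_ext; intro x y
  have h1 : app (Gr.zeroHom : LC.of (Gr n I) ⟶ _) (x : OnePoint (Gr n I)) =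
    (Gr.zero x : OnePoint (Th n I)) := rfl
  have h2 : app (Gr.zeroHom : LC.of (Gr m J) ⟶ _) (y : OnePoint (Gr m J)) =
    (Gr.zero y : OnePoint (Th m J)) := rfl
  rw [app_comp, app_tensorHom_smash, h1, h2, Th.app_sum_smash, app_comp]
  refine congrArg _ (Th.ext rfl ?_)
  funext i
  rcases i with i | i <;> rfl

/-! ### Induction over Grassmannians -/

theorem gr_induction {P : ∀ (_ : ℕ) (I : Type) [Fintype I], Prop}
    (h0 : ∀ (I : Type) [Fintype I], P 0 I)
    (he : ∀ (n : ℕ) (I : Type) [Fintype I] [IsEmpty I], P (n + 1) I)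
    (hs : ∀ (n : ℕ) (I : Type) [Fintype I] [DecidableEq I], P n I → P (n + 1) I →
      P (n + 1) (I ⊕ Unit))
    (hr : ∀ (n : ℕ) (I J : Type) [Fintype I] [Fintype J] [DecidableEq I] [DecidableEq J],
      (I ≃ J) → P n I → P n J) :
    ∀ (n : ℕ) (I : Type) [Fintype I], P n I := by
  classical
  have main : ∀ (k : ℕ) (I : Type) [Fintype I], Fintype.card I = k → ∀ n : ℕ, P n I := by
    intro k
    induction k with
    | zero =>
      intro I _ hI n
      haveI : IsEmpty I := Fintype.card_eq_zero_iff.mp hI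
      rcases n with _ | n
      · exact h0 I
      · exact he n I
    | succ k ih =>
      intro I _ hI n
      have e : Fin k ⊕ Unit ≃ I := Fintype.equivOfCardEq (by
        rw [Fintype.card_sum, Fintype.card_fin, Fintype.card_unit, hI])
      refine hr n _ _ e ?_
      rcases n with _ | n
      · exact h0 _
      · exact hs n (Fin k) (ih (Fin k) (Fintype.card_fin k) n)
          (ih (Fin k) (Fintype.card_fin k) (n + 1))
  exact fun n I _ => main _ I rfl n

namespace Orientation

open MultTheory

variable {E : MultTheory.{v}} (o : Orientation E)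

include o in
theorem goodGr : E.GoodGr := by
  refine ⟨?_, o.good_Th⟩
  refine gr_induction (P := fun n I _ => E.good (LC.of (Gr n I))) ?_ ?_ ?_ ?_
  · intro I _
    haveI : Unique (LC.of (Gr 0 I)) := inferInstanceAs (Unique (Gr 0 I))
    exact E.good_of_FC (FC.of_unique _)
  · intro n I _ _
    haveI : IsEmpty (LC.of (Gr (n + 1) I)) := inferInstanceAs (IsEmpty (Gr (n + 1) I))
    exact E.good_of_FC (FC.of_isEmpty _)
  · intro n I _ _ h1 h2
    haveI : E.Good (LC.of (Gr n I)) := ⟨h1⟩
    haveI : E.Good (LC.of (Th (n + 1) I)) := ⟨o.good_Th (n + 1) I⟩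
    haveI : E.Good (cof (Gr.addOneHom : LC.of (Gr n I) ⟶ LC.of (Gr (n + 1) (I ⊕ Unit)))) :=
      MultTheory.Good.of_iso E Gr.cofAddOne.symm
    exact (MultTheory.Good.ext E (Gr.cofib_addOneHom (n := n) (I := I))).out
  · intro n I J _ _ _ _ e h
    haveI : E.Good (LC.of (Gr n I)) := ⟨h⟩
    exact (MultTheory.Good.of_iso E (X := LC.of (Gr n I)) (grReindex n e)).out

/-! ### Euler classes -/

/-- the Euler class of the tautological bundle -/
def eGr (n : ℕ) (I : Type) [Fintype I] : E.U (LC.of (Gr n I)) := E.map Gr.zeroHom (o.tau n I)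

variable [E.GoodGr]

theorem eGr_deg : o.eGr n I ∈ E.deg (LC.of (Gr n I)) n := map_deg _ (o.tau_deg n I)

theorem map_eGr [DecidableEq I] [DecidableEq J] (u : Matrix J I ℂ) (hu : uᴴ * u = 1) :
    E.map (grMap n u hu) (o.eGr n J) = o.eGr n I := by
  unfold eGr
  rw [← MultTheory.map_comp, ← zeroHom_map, MultTheory.map_comp, tau_map]

theorem eGr_sum (h : n + m = p) :
    E.map (cmap (grSumC h)) (o.eGr p (I ⊕ J)) = E.cross (o.eGr n I) (o.eGr m J) := by
  classical
  unfold eGr
  rw [← MultTheory.map_comp, ← zeroHom_sum, MultTheory.map_comp, tau_sum', cross_map]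

/-- the Euler class of the tautological bundle comes from the open cell bundle -/
theorem eGr_eq_collapse [DecidableEq I] :
    o.eGr n (I ⊕ Unit) = E.map Gr.collapse (o.tau n I) := by
  unfold eGr
  rw [map_homotopic Gr.zeroHom_homotopic, MultTheory.map_comp, tau_map]

section eu

variable {X Y : LC} [CompactSpace X] [CompactSpace Y] [E.Good X] [E.Good Y]

/-- the Euler class of a bundle over a compact space -/
def eu (V : Bun X I) (h : V.IsRank n) : E.U X :=
  E.map (cmap (Y := LC.of (Gr n I)) (V.toGr h)) (o.eGr n I)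

theorem eu_deg (V : Bun X I) (h : V.IsRank n) : o.eu V h ∈ E.deg X n := map_deg _ o.eGr_deg

theorem eu_taut : o.eu (X := LC.of (Gr n I)) (taut n I) (taut_isRank n I) = o.eGr n I := by
  unfold eu
  have h : cmap (X := LC.of (Gr n I)) (Y := LC.of (Gr n I)) ((taut n I).toGr (taut_isRank n I)) =
    𝟙 (LC.of (Gr n I)) := by
    apply LC.hom_ext; intro x; rfl
  rw [h, MultTheory.map_id]

theorem eu_congr {V V' : Bun X I} (hV : V = V') {n' : ℕ} (hn : n = n') (h : V.IsRank n)
    (h' : V'.IsRank n') : o.eu V h = o.eu V' h' := by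
  subst hV; subst hn; rfl

theorem cmap_comp' {Z : LC} (f : C(X, Y)) (g : C(Y, Z)) : cmap f ≫ cmap g = cmap (g.comp f) := by
  apply LC.hom_ext; intro x; rfl

theorem map_eu (f : C(X, Y)) (V : Bun Y I) (h : V.IsRank n) :
    E.map (cmap f) (o.eu V h) = o.eu (V.pullback f) (h.pullback f) := by
  unfold eu
  rw [← MultTheory.map_comp, cmap_comp']
  rfl

theorem eu_isom [DecidableEq I] [DecidableEq J] (u : Matrix J I ℂ) (hu : uᴴ * u = 1)
    (V : Bun X I) (h : V.IsRank n) (V' : Bun X J) (h' : V'.IsRank n)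
    (hP : ∀ x, V'.P x = u * V.P x * uᴴ) : o.eu V' h' = o.eu V h := by
  unfold eu
  have h1 : cmap (Y := LC.of (Gr n J)) (V'.toGr h') =
      cmap (Y := LC.of (Gr n I)) (V.toGr h) ≫ grMap n u hu := by
    apply LC.hom_ext; intro x
    exact congrArg (OnePoint.some) (Gr.ext (x := V'.toGr h' x)
      (y := grMapC n u hu (V.toGr h x)) (hP x))
  rw [h1, MultTheory.map_comp, o.map_eGr]

theorem eu_sum (V : Bun X I) (h : V.IsRank n) (W : Bun X J) (h' : W.IsRank m)
    (hs : (V.sum W).IsRank p) (hp : n + m = p) :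
    o.eu (V.sum W) hs = o.eu V h * o.eu W h' := by
  have h1 : cmap (Y := LC.of (Gr p (I ⊕ J))) ((V.sum W).toGr hs) =
      diag X ≫ (cmap (Y := LC.of (Gr n I)) (V.toGr h) ⊗ₘ cmap (Y := LC.of (Gr m J)) (W.toGr h')) ≫
        cmap (grSumC hp) := by
    apply LC.hom_ext; intro x
    rw [app_comp, app_diag, app_comp, app_tensorHom_smash]
    rfl
  unfold eu
  rw [h1, MultTheory.map_comp, MultTheory.map_comp, o.eGr_sum, mul_eq, cross_map]

/-- comparison with the Euler class defined by the Thom map -/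
theorem eu_eq_e (V : Bun X I) (h : V.IsRank n) [E.Good V.tot] : o.eu V h = o.e V h := by
  have h1 : cmap (Y := LC.of (Gr n I)) (V.toGr h) ≫ Gr.zeroHom = zeroMor V ≫ toThHom V h := by
    apply LC.hom_ext; intro x; rfl
  unfold eu eGr
  rw [← map_zeroMor_thom, thom_eq, ← MultTheory.map_comp, ← MultTheory.map_comp, h1]

end eu

end Orientation

end Vale.Agent.P251.Q
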