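import Vale.Agent.P251.Q.FGL
import Vale.Agent.P251.Q.GenEuler

/-!
# P251, part Q: reading off the `m`-series of the formal group law on a projective space

* `coeff_of_nev1_z` : comparison of coefficients in `E(ℂP^{N+1})`;
* `map_tensorPower` : the Euler class of the `m`-th tensor power of the tautological line bundle;
* `map_multiple` : the Euler class of `r` copies of the tautological line bundle is `z ^ r`;
* `coeff_multSeries_of_rel` : if the two differ by the factor `a : E.A`, for `r = N + 1` on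
  `ℂP^{N+1}`, then `[m](x) = a x^{N+1}` modulo `x^{N+2}`.
-/

open CategoryTheory MonoidalCategory OnePoint Matrix Topology
open Vale.Agent.P251.G Vale.Agent.P251.G.LC

universe v

set_option linter.unusedSectionVars false
set_option linter.style.haveILetI false

noncomputable section

namespace Vale.Agent.P251.Q

open MultTheory Vale.Agent.P217 Vale.Agent.P251.F

variable {E : MultTheory.{v}} (o : Orientation E)

theorem coeff_of_nev1_z (N : ℕ) [E.Good (CP (Fin (N + 2)))] (f : PowerSeries E.A) (a : E.A)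
    (h : nev1 (o.z (Fin (N + 2))) f = a • o.z (Fin (N + 2)) ^ (N + 1)) :
    (∀ l ≤ N, PowerSeries.coeff l f = 0) ∧ PowerSeries.coeff (N + 1) f = a := by
  rw [nev1_eq_sum (z_pow_eq_zero o (N + 2) (Fin (N + 2)) (by simp)), Finset.sum_range] at h
  have h3 : a • o.z (Fin (N + 2)) ^ (N + 1) =
      ∑ k : Fin (N + 2), (if (k : ℕ) = N + 1 then a else 0) • o.z (Fin (N + 2)) ^ (k : ℕ) := by
    rw [Finset.sum_eq_single (⟨N + 1, by omega⟩ : Fin (N + 2))]
    · rw [if_pos rfl]
    · intro k _ hk
      rw [if_neg fun h => hk (Fin.ext h), zero_smul]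
    · intro h
      exact absurd (Finset.mem_univ _) h
  have h4 := (freeOn_z o (N + 2) (Fin (N + 2)) (Fintype.card_fin _)).bijective_smul.1
    (a₁ := fun k : Fin (N + 2) => PowerSeries.coeff (k : ℕ) f)
    (a₂ := fun k : Fin (N + 2) => if (k : ℕ) = N + 1 then a else 0) (h.trans h3)
  constructor
  · intro l hl
    have h5 := congrFun h4 (⟨l, by omega⟩ : Fin (N + 2))
    exact h5.trans (if_neg (by simp only; omega))
  · have h5 := congrFun h4 (⟨N + 1, by omega⟩ : Fin (N + 2))
    exact h5.trans (if_pos rfl)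

section geom

variable {A : Type} [Fintype A]

/-- A map `X ⟶ Th n I` given by a bundle and the zero section. -/
theorem eq_zero_of_isPairMap {X : LC} [CompactSpace X] {n : ℕ} {I : Type} [Fintype I]
    (V : Bun X I) (hV : V.IsRank n) (f : X ⟶ LC.of (Th n I))
    (hf : IsPairMap V.P (fun _ => 0) f) :
    f = cmap (Y := LC.of (Gr n I)) (V.toGr hV) ≫ Gr.zeroHom := by
  apply LC.hom_ext
  intro x
  obtain ⟨y, hy, h1, h2⟩ := hf x
  refine hy.trans ?_
  have h3 : app (cmap (Y := LC.of (Gr n I)) (V.toGr hV) ≫ Gr.zeroHom) (x : OnePoint X) =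
      (Gr.zero (V.toGr hV x) : OnePoint (Th n I)) := rfl
  rw [h3]
  exact congrArg _ (Th.ext h1 h2)

theorem map_tensorPower (m : ℕ) (t : CP A ⟶ LC.of (Th 1 (Fin m → A)))
    (ht : IsPairMap (X := CP A) (fun x : Gr 1 A => tpow m x.P) (fun _ => 0) t) :
    E.map t (o.tau 1 (Fin m → A)) = o.lc (lineTpow m (ContinuousMap.id (CP A))) := by
  haveI := o.goodGr
  haveI : E.Good (CP A) := ⟨MultTheory.GoodGr.gr 1 A⟩
  have h1 : t = cmap (lineTpow m (ContinuousMap.id (CP A))) ≫ Gr.zeroHom := by
    apply LC.hom_ext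
    intro x
    obtain ⟨y, hy, h1, h2⟩ := ht x
    refine hy.trans ?_
    have h3 : app (cmap (lineTpow m (ContinuousMap.id (CP A))) ≫ Gr.zeroHom)
        (x : OnePoint (Gr 1 A)) =
      (Gr.zero (lineTpow m (ContinuousMap.id (CP A)) x : Gr 1 (Fin m → A)) :
        OnePoint (Th 1 (Fin m → A))) := rfl
    rw [h3]
    exact congrArg _ (Th.ext h1 h2)
  rw [h1, MultTheory.map_comp]
  rfl

/-- the sum of `r` copies of the tautological line bundle -/
def multB (r : ℕ) (A : Type) [Fintype A] : Bun (CP A) (Fin r × A) where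
  P x := Matrix.of fun i j => if i.1 = j.1 then Gr.P (x : Gr 1 A) i.2 j.2 else 0
  cont := by
    refine continuous_matrix fun i j => ?_
    simp only [Matrix.of_apply]
    split_ifs
    · exact Gr.continuous_P.matrix_elem _ _
    · exact continuous_const
  idem x := by
    ext i j
    rw [Matrix.mul_apply, Fintype.sum_prod_type]
    simp only [Matrix.of_apply]
    rw [Finset.sum_eq_single i.1]
    · by_cases h : i.1 = j.1
      · simp only [if_true, if_pos h]
        have h2 := congrFun (congrFun (Gr.isProj (x : Gr 1 A)).idem i.2) j.2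
        rw [Matrix.mul_apply] at h2
        exact h2
      · simp only [if_neg h, mul_zero, Finset.sum_const_zero]
    · intro k _ hk
      refine Finset.sum_eq_zero fun a _ => ?_
      rw [if_neg fun h => hk h.symm, zero_mul]
    · intro h
      exact absurd (Finset.mem_univ _) h
  herm x := by
    ext i j
    rw [Matrix.conjTranspose_apply]
    simp only [Matrix.of_apply]
    by_cases h : i.1 = j.1
    · rw [if_pos h, if_pos h.symm]
      have h2 := congrFun (congrFun (Gr.isProj (x : Gr 1 A)).herm i.2) j.2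
      rw [Matrix.conjTranspose_apply] at h2
      exact h2
    · rw [if_neg h, if_neg fun h' => h h'.symm, star_zero]

theorem multB_P (r : ℕ) (x : CP A) (i j : Fin r × A) :
    (multB r A).P x i j = if i.1 = j.1 then Gr.P (x : Gr 1 A) i.2 j.2 else 0 := rfl

theorem isRank_multB (r : ℕ) : (multB r A).IsRank r := by
  intro x
  rw [Matrix.trace, Fintype.sum_prod_type]
  have h : ∀ k : Fin r, ∑ a : A, ((multB r A).P x).diag (k, a) = 1 := by
    intro k
    have h2 := (Gr.isProj (x : Gr 1 A)).trace
    rw [Matrix.trace, Nat.cast_one] at h2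
    refine Eq.trans (Finset.sum_congr rfl fun a _ => ?_) h2
    rw [Matrix.diag_apply, Matrix.diag_apply, multB_P, if_pos rfl]
  rw [Finset.sum_congr rfl fun k _ => h k]
  simp

/-- adding one copy -/
def multEquiv (r : ℕ) (A : Type) : (Fin r × A) ⊕ A ≃ Fin (r + 1) × A where
  toFun := Sum.elim (fun q => (q.1.castSucc, q.2)) (fun a => (Fin.last r, a))
  invFun q := Fin.lastCases (motive := fun _ => (Fin r × A) ⊕ A) (Sum.inr q.2)
    (fun k => Sum.inl (k, q.2)) q.1
  left_inv q := by
    rcases q with ⟨k, a⟩ | a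
    · simp
    · simp
  right_inv q := by
    rcases q with ⟨k, a⟩
    refine Fin.lastCases ?_ (fun k => ?_) k
    · simp
    · simp

theorem multB_succ_P [DecidableEq A] (r : ℕ) (x : CP A) : (multB (r + 1) A).P x =
    injMat (multEquiv r A) * ((multB r A).sum (taut 1 A)).P x * (injMat (multEquiv r A))ᴴ := by
  rw [injMat_equiv_conj]
  ext i j
  obtain ⟨i, rfl⟩ := (multEquiv r A).surjective i
  obtain ⟨j, rfl⟩ := (multEquiv r A).surjective j
  rw [Matrix.submatrix_apply, Equiv.symm_apply_apply, Equiv.symm_apply_apply, multB_P]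
  rcases i with ⟨i, a⟩ | a <;> rcases j with ⟨j, b⟩ | b
  · rw [Bun.sum_P, Matrix.fromBlocks_apply₁₁, multB_P]
    by_cases h : i = j
    · exact (if_pos (congrArg Fin.castSucc h)).trans (if_pos h).symm
    · exact (if_neg fun h' => h (Fin.castSucc_injective r h')).trans (if_neg h).symm
  · rw [Bun.sum_P, Matrix.fromBlocks_apply₁₂]
    exact if_neg (Fin.castSucc_lt_last i).ne
  · rw [Bun.sum_P, Matrix.fromBlocks_apply₂₁]
    exact if_neg (Fin.castSucc_lt_last j).ne'
  · rw [Bun.sum_P, Matrix.fromBlocks_apply₂₂]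
    exact if_pos rfl

theorem multB_one_P [DecidableEq A] (x : CP A) : (multB 1 A).P x =
    injMat (Equiv.uniqueProd A (Fin 1)).symm * (taut 1 A).P x *
      (injMat (Equiv.uniqueProd A (Fin 1)).symm)ᴴ := by
  rw [injMat_equiv_conj]
  ext i j
  rw [Matrix.submatrix_apply, multB_P, if_pos (Subsingleton.elim _ _)]
  rfl

theorem eu_taut_one [E.GoodGr] : o.eu (X := CP A) (taut 1 A) (taut_isRank 1 A) = o.z A :=
  o.eu_taut

theorem eu_multB_one [E.GoodGr] : o.eu (multB 1 A) (isRank_multB 1) = o.z A := by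
  classical
  have hu := injMat_isom (Equiv.uniqueProd A (Fin 1)).symm.injective
  rw [← eu_taut_one]
  exact o.eu_isom (X := CP A) (injMat (Equiv.uniqueProd A (Fin 1)).symm) hu (taut 1 A)
    (taut_isRank 1 A) (multB 1 A) (isRank_multB 1) (fun x => multB_one_P x)

theorem eu_multB_succ [E.GoodGr] (r k : ℕ) (hk : r + 1 = k) (h : (multB (r + 1) A).IsRank k) :
    o.eu (multB (r + 1) A) h = o.eu (multB r A) (isRank_multB r) * o.z A := by
  classical
  have hs : ((multB r A).sum (taut 1 A)).IsRank k :=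
    isRank_sum (isRank_multB r) (taut_isRank 1 A) hk
  have h1 : o.eu (multB (r + 1) A) h = o.eu ((multB r A).sum (taut 1 A)) hs :=
    o.eu_isom (injMat (multEquiv r A)) (injMat_isom (Equiv.injective _))
      ((multB r A).sum (taut 1 A)) hs (multB (r + 1) A) h (multB_succ_P r)
  have h2 : o.eu ((multB r A).sum (taut 1 A)) hs =
      o.eu (multB r A) (isRank_multB r) * o.eu (X := CP A) (taut 1 A) (taut_isRank 1 A) :=
    o.eu_sum (X := CP A) (multB r A) (isRank_multB r) (taut 1 A) (taut_isRank 1 A) hs hk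
  rw [h1, h2, eu_taut_one]

theorem eu_multB [E.GoodGr] (r : ℕ) :
    o.eu (multB (r + 1) A) (isRank_multB (r + 1)) = o.z A ^ (r + 1) := by
  induction r with
  | zero =>
    rw [zero_add, pow_one]
    exact eu_multB_one o
  | succ r ih =>
    rw [eu_multB_succ o (r + 1) (r + 1 + 1) rfl, ih, ← pow_succ]

theorem map_multiple [E.GoodGr] (r : ℕ) (e : CP A ⟶ LC.of (Th (r + 1) (Fin (r + 1) × A)))
    (he : IsPairMap (X := CP A)
      (fun x i j => if i.1 = j.1 then Gr.P (x : Gr 1 A) i.2 j.2 else 0) (fun _ => 0) e) :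
    E.map e (o.tau (r + 1) (Fin (r + 1) × A)) = o.z A ^ (r + 1) := by
  rw [← eu_multB o r, eq_zero_of_isPairMap (multB (r + 1) A) (isRank_multB (r + 1)) e he,
    MultTheory.map_comp]
  rfl

end geom

/-- If the Euler class of the `m`-th tensor power of the tautological line bundle on `ℂP^{N+1}` is
`a` times the Euler class of `N + 1` copies of the tautological bundle, then
`[m](x) = a x^{N+1}` modulo `x^{N+2}`. -/
theorem coeff_multSeries_of_rel (m N : ℕ) (a : E.A)
    (t : CP (Fin (N + 2)) ⟶ LC.of (Th 1 (Fin m → Fin (N + 2))))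
    (ht : IsPairMap (X := CP (Fin (N + 2))) (fun x : Gr 1 (Fin (N + 2)) => tpow m x.P)
      (fun _ => 0) t)
    (e : CP (Fin (N + 2)) ⟶ LC.of (Th (N + 1) (Fin (N + 1) × Fin (N + 2))))
    (he : IsPairMap (X := CP (Fin (N + 2)))
      (fun x i j => if i.1 = j.1 then Gr.P (x : Gr 1 (Fin (N + 2))) i.2 j.2 else 0)
      (fun _ => 0) e)
    (h : haveI := o.goodGr
      E.map t (o.tau 1 (Fin m → Fin (N + 2))) =
        a • E.map e (o.tau (N + 1) (Fin (N + 1) × Fin (N + 2)))) :
    (∀ l ≤ N, PowerSeries.coeff l (multSeries o.law.toFG m) = 0) ∧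
      PowerSeries.coeff (N + 1) (multSeries o.law.toFG m) = a := by
  haveI := o.goodGr
  haveI : E.Good (CP (Fin (N + 2))) := ⟨MultTheory.GoodGr.gr 1 _⟩
  refine coeff_of_nev1_z o N _ a ?_
  rw [← map_multiple o N e he, ← h, map_tensorPower o m t ht, lc_tpow, lc_id]

end Vale.Agent.P251.Q
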