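import Vale.Agent.P251.Q.FreeOn

/-!
# P251, part Q: finite powers of a space

`LC.of (J → P)` for a finite type `J`: splitting off a factor, change of `J`, goodness.
-/

open CategoryTheory MonoidalCategory OnePoint
open Vale.Agent.P251.G Vale.Agent.P251.G.LC

universe v

namespace Vale.Agent.P251.Q

/-- the finite power of a space -/
abbrev powObj (P : LC) (J : Type) [Finite J] : LC := LC.of (J → P)

/-- splitting off a factor -/
def powOptionHomeo (P : Type) [TopologicalSpace P] (J : Type) :
    (Option J → P) ≃ₜ (J → P) × P where
  toFun f := (fun a => f (Option.some a), f none)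
  invFun q := fun a => a.elim q.2 q.1
  left_inv f := by
    funext a
    rcases a with _ | a <;> rfl
  right_inv q := rfl
  continuous_toFun := (continuous_pi fun a => continuous_apply _).prodMk (continuous_apply _)
  continuous_invFun := by
    refine continuous_pi fun a => ?_
    rcases a with _ | a
    · exact continuous_snd
    · exact (continuous_apply a).comp continuous_fst

/-- splitting off a factor, in `LC` -/
def powOptionIso (P : LC) (J : Type) [Finite J] :
    powObj P (Option J) ≅ powObj P J ⊗ P :=
  ofHomeo (X := powObj P (Option J)) (Y := LC.of ((J → P) × P)) (powOptionHomeo P J)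

/-- change of the index set -/
def powEquivHomeo (P : Type) [TopologicalSpace P] {J K : Type} (e : J ≃ K) :
    (K → P) ≃ₜ (J → P) where
  toFun f := fun a => f (e a)
  invFun f := fun a => f (e.symm a)
  left_inv f := by funext a; simp
  right_inv f := by funext a; simp
  continuous_toFun := continuous_pi fun a => continuous_apply _
  continuous_invFun := continuous_pi fun a => continuous_apply _

/-- change of the index set, in `LC` -/
def powEquivIso (P : LC) {J K : Type} [Finite J] [Finite K] (e : J ≃ K) :
    powObj P K ≅ powObj P J :=
  ofHomeo (X := powObj P K) (Y := powObj P J) (powEquivHomeo P e)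

/-- the empty power -/
def powEmptyHomeo (P : Type) [TopologicalSpace P] (J : Type) [IsEmpty J] :
    (J → P) ≃ₜ Unit where
  toFun _ := ()
  invFun _ := fun a => isEmptyElim a
  left_inv _ := Subsingleton.elim _ _
  right_inv _ := rfl
  continuous_toFun := continuous_const
  continuous_invFun := continuous_const

/-- the empty power, in `LC` -/
def powEmptyIso (P : LC) (J : Type) [Finite J] [IsEmpty J] : powObj P J ≅ 𝟙_ LC :=
  ofHomeo (X := powObj P J) (Y := LC.of Unit) (powEmptyHomeo P J)

namespace MultTheory

variable {E : MultTheory.{v}}

theorem good_powObj_aux (P : LC) [E.Good P] (J : Type) :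
    Finite J → ∀ _ : Finite J, E.Good (powObj P J) := by
  intro hJ
  refine Finite.induction_empty_option (P := fun J => ∀ _ : Finite J, E.Good (powObj P J))
    ?_ ?_ ?_ J
  · intro J K e ih hK
    have hJ : Finite J := Finite.of_equiv _ e.symm
    have := ih hJ
    exact Good.of_iso E (powEquivIso P e.symm)
  · intro _
    exact Good.of_iso E (powEmptyIso P PEmpty).symm
  · intro J hJ ih hJ'
    have := ih inferInstance
    exact Good.of_iso E (powOptionIso P J).symm

theorem good_powObj (P : LC) [E.Good P] (J : Type) [hJ : Finite J] : E.Good (powObj P J) :=
  good_powObj_aux P J hJ hJ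

instance (P : LC) [E.Good P] (J : Type) [Finite J] : E.Good (powObj P J) := good_powObj P J

instance (P : Type) [TopologicalSpace P] [LocallyCompactSpace P] [T2Space P]
    [h : E.Good (LC.of P)] (J : Type) [Finite J] :
    E.Good (LC.of (J → P)) := good_powObj (LC.of P) J

end MultTheory

end Vale.Agent.P251.Q
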