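import Vale.Agent.P251.G.CellTh
import Vale.Agent.P251.G.Lens
import Vale.Agent.P251.Q.Euler
import Vale.Agent.P251.Q.PowObj

/-!
# P251, part Q: compact bases whose bundles have good total spaces

`CellSp Y` : the space `Y` has a finite chain of cells (Grassmannians, lens spaces, sphere bundles,
finite products and powers).  Every such compact base `B` satisfies `GoodBase E B` for every
multiplicative theory `E`.
-/

open CategoryTheory MonoidalCategory Topology Set
open Vale.Agent.P251.G Vale.Agent.P251.G.LC

universe v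

namespace Vale.Agent.P251.G

/-- a space with a finite chain of cells -/
class CellSp (Y : Type) [TopologicalSpace Y] : Prop where
  chain : ∃ D : Set ℕ, Cell.CellChain D ∅ (univ : Set Y)

namespace CellSp

variable {Y Z : Type} [TopologicalSpace Y] [TopologicalSpace Z]

theorem of_homeo (e : Y ≃ₜ Z) [h : CellSp Y] : CellSp Z := by
  obtain ⟨D, hD⟩ := h.chain
  have h1 := hD.image (f := e) e.continuous.continuousOn e.injective.injOn
  rw [image_empty, image_univ, e.surjective.range_eq] at h1
  exact ⟨D, h1⟩

instance : CellSp Unit := ⟨_, Cell.chain_unit⟩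

instance : CellSp Empty := ⟨∅, by
  rw [show (univ : Set Empty) = ∅ from by ext x; exact x.elim]
  exact Cell.CellChain.refl _⟩

instance (n : ℕ) (I : Type) [Fintype I] : CellSp (Gr n I) := ⟨_, Cell.chain_gr n I⟩

instance [hY : CellSp Y] [hZ : CellSp Z] : CellSp (Y × Z) := by
  obtain ⟨D, hD⟩ := hY.chain
  obtain ⟨D', hD'⟩ := hZ.chain
  exact ⟨_, Cell.chain_prod_univ hD hD'⟩

instance {X Y : LC} [CellSp X] [CellSp Y] : CellSp (X ⊗ Y : LC) :=
  inferInstanceAs (CellSp (X × Y))

instance : CellSp (𝟙_ LC : LC) := inferInstanceAs (CellSp Unit)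

/-- sphere bundles -/
theorem sph {ι : Type} [Fintype ι] (V : Bun Y ι) {r : ℕ} (hV : V.IsRank r) [h : CellSp Y] :
    CellSp V.Sph := by
  classical
  obtain ⟨D, hD⟩ := h.chain
  exact ⟨_, Cell.chain_Sph V hV hD⟩

theorem _root_.Vale.Agent.P251.G.Bun.IsRank.tpow1 {X κ : Type} [TopologicalSpace X] [Fintype κ]
    {V : Bun X κ} (hV : V.IsRank 1) (p : ℕ) : (V.tpow p).IsRank 1 := by
  have h := hV.tpow p
  rwa [one_pow] at h

instance lens (p : ℕ) (κ : Type) [Fintype κ] : CellSp (Lens p κ) :=
  sph _ ((taut_isRank 1 κ).tpow1 p)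

theorem pow_aux (P : Type) [TopologicalSpace P] [CellSp P] (J : Type) [hJ : Finite J] :
    CellSp (J → P) := by
  refine Finite.induction_empty_option (P := fun J => CellSp (J → P)) ?_ ?_ ?_ J
  · intro J K e ih
    exact of_homeo (Q.powEquivHomeo P e.symm)
  · exact of_homeo (Q.powEmptyHomeo P PEmpty).symm
  · intro J hJ ih
    exact of_homeo (Q.powOptionHomeo P J).symm

instance (P : Type) [TopologicalSpace P] [CellSp P] (J : Type) [Finite J] : CellSp (J → P) :=
  pow_aux P J

instance (P : LC) [CellSp P] (J : Type) [Finite J] : CellSp (Q.powObj P J : LC) :=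
  pow_aux P J

/-- a compact space with cells is a finite cell space -/
theorem fc {B : LC} [CompactSpace B] [h : CellSp B] : FC B := by
  obtain ⟨D, hD⟩ := h.chain
  exact (Cell.cells_of_compact (Y := B) hD).fc

/-- the total space of a bundle over a compact space with cells is a finite cell space -/
theorem fc_tot {B : LC} [CompactSpace B] [h : CellSp B] {κ : Type} [Fintype κ] {n : ℕ}
    (W : Bun B κ) (hW : W.IsRank n) : FC W.tot := by
  classical
  obtain ⟨D, hD⟩ := h.chain
  exact (Cell.cells_tot (Y := B) W hW hD).fc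

end CellSp

end Vale.Agent.P251.G

namespace Vale.Agent.P251.Q

open MultTheory

variable {E : MultTheory.{v}}

instance goodBase_of_cellSp {B : LC} [CompactSpace B] [CellSp B] : GoodBase E B where
  out := E.good_of_FC CellSp.fc
  tot W hW := Good.of_FC E (CellSp.fc_tot W hW)

end Vale.Agent.P251.Q
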