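import Vale.Agent.P251.Q.Tower

/-!
# P251, part Q: from the power operation to Theorem Q

`LensData.theoremQ` : the algebraic theorem of `Q/Core.lean` for a multiplicative theory with lens
data; the input is a class `P` such that `w ^ (n+q) P - w ^ n x` is a sum of terms `c v^l × g`,
`g` homogeneous of degree `> -q`.

`LensData.theoremQ_of_power` : the same from the formula for the power operation
`w^N P = σ^{-N} f^* (e(ρ̄ ⊗ γ) τ)` and `e(ρ̄ ⊗ γ) = w^n + (terms of positive degree)`.
-/

open CategoryTheory MonoidalCategory Topology Finset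
open Vale.Agent.P251.G Vale.Agent.P251.G.LC

universe v

namespace Vale.Agent.P251.Q

open MultTheory

variable {E : MultTheory.{v}} {C : Type} [CommRing C]

namespace CoeffData

variable (D : CoeffData E C)

/-- Sums of products of coefficients (from `C`) with homogeneous elements of degree `> d`. -/
def R (X : LC) (d : ℤ) : AddSubgroup (E.U X) :=
  AddSubgroup.closure {x | ∃ (c : C) (i : ℤ) (g : E.U X), d < i ∧ g ∈ E.deg X i ∧ x = D.φ c • g}

/-- Sums of terms `c v ^ l × g`, `c` in `C`, `g` homogeneous of degree `> d`. -/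
def posPoly {Y : LC} [E.Good Y] [CompactSpace Y] (v : E.U Y) (X : LC) (d : ℤ) :
    AddSubgroup (E.U (Y ⊗ X)) :=
  AddSubgroup.closure {z | ∃ (c : C) (l : ℕ) (i : ℤ) (g : E.U X), d < i ∧ g ∈ E.deg X i ∧
    z = D.φ c • E.cross (v ^ l) g}

/-- the value of a power series at a class `v` with `v ^ (k+1) = 0` -/
noncomputable def ev {Y : LC} [E.Good Y] [CompactSpace Y] (k : ℕ) (v : E.U Y)
    (f : PowerSeries C) : E.U Y :=
  ∑ l ∈ range (k + 1), D.φ (PowerSeries.coeff l f) • v ^ l

section ev

variable {D}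
variable {Y : LC} [E.Good Y] [CompactSpace Y] {k : ℕ} {v : E.U Y}

theorem ev_eq_act (f : PowerSeries C) :
    letI := D.mod Y
    D.ev k v f = act k ({ toFun := fun z => v * z
                          map_add' := mul_add v
                          map_smul' := fun c z => mul_smul_right (D.φ c) v z } :
                        E.U Y →ₗ[C] E.U Y) f 1 := by
  let := D.mod Y
  rw [act_apply]
  refine sum_congr rfl fun l _ => ?_
  rw [Module.End.pow_apply]
  have : ∀ l : ℕ, (fun z => v * z)^[l] 1 = v ^ l := by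
    intro l
    induction l with
    | zero => simp
    | succ l ih => rw [Function.iterate_succ_apply', ih, pow_succ']
  exact congrArg _ (this l).symm

theorem ev_one : D.ev k v 1 = 1 := by
  let := D.mod Y
  rw [ev_eq_act, act_one]; rfl

theorem ev_add (f g : PowerSeries C) : D.ev k v (f + g) = D.ev k v f + D.ev k v g := by
  unfold ev
  rw [← sum_add_distrib]
  exact sum_congr rfl fun l _ => by rw [map_add, map_add, add_smul]

theorem ev_mul (hv : v ^ (k + 1) = 0) (f g : PowerSeries C) :
    D.ev k v (f * g) = D.ev k v f * D.ev k v g := by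
  let := D.mod Y
  set T : E.U Y →ₗ[C] E.U Y := { toFun := fun z => v * z
                                 map_add' := mul_add v
                                 map_smul' := fun c z => mul_smul_right (D.φ c) v z } with hT
  have hmul : ∀ (f : PowerSeries C) (z : E.U Y), act k T f z = D.ev k v f * z := by
    intro f z
    rw [act_apply, ev, sum_mul]
    refine sum_congr rfl fun l _ => ?_
    rw [Module.End.pow_apply, MultTheory.smul_mul']
    have : ∀ l : ℕ, (fun z => v * z)^[l] z = v ^ l * z := by
      intro l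
      induction l with
      | zero => simp
      | succ l ih => rw [Function.iterate_succ_apply', ih, pow_succ', mul_assoc]
    exact congrArg _ (this l)
  have hT0 : T ^ (k + 1) = 0 := by
    ext z
    rw [Module.End.pow_apply]
    have : ∀ l : ℕ, (fun z => v * z)^[l] z = v ^ l * z := by
      intro l
      induction l with
      | zero => simp
      | succ l ih => rw [Function.iterate_succ_apply', ih, pow_succ', mul_assoc]
    exact (this (k + 1)).trans (by rw [hv, zero_mul]; rfl)
  have h1 := hmul (f * g) 1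
  rw [Q.act_mul k T hT0, Module.End.mul_apply, hmul, hmul, mul_one, mul_one] at h1
  exact h1.symm

theorem ev_pow (hv : v ^ (k + 1) = 0) (f : PowerSeries C) (n : ℕ) :
    D.ev k v (f ^ n) = D.ev k v f ^ n := by
  induction n with
  | zero => rw [pow_zero, pow_zero, ev_one]
  | succ n ih => rw [pow_succ, pow_succ, ev_mul hv, ih]

theorem ev_C (c : C) : D.ev k v (PowerSeries.C c) = D.φ c • 1 := by
  unfold ev
  rw [sum_eq_single 0]
  · simp
  · intro l _ hl
    rw [PowerSeries.coeff_C, if_neg hl, map_zero, zero_smul]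
  · intro h; exact absurd (mem_range.2 (Nat.succ_pos k)) h

theorem ev_X (hv : v ^ (k + 1) = 0) : D.ev k v PowerSeries.X = v := by
  rcases k with _ | k
  · have hv0 : v = 0 := by simpa using hv
    subst hv0
    unfold ev
    simp
  · unfold ev
    rw [sum_eq_single 1]
    · simp
    · intro l _ hl
      rw [PowerSeries.coeff_X, if_neg hl, map_zero, zero_smul]
    · intro h; exact absurd (mem_range.2 (by omega)) h

/-- Any ring homomorphism on power series with the right values on constants and on the variable is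
`ev`. -/
theorem eq_ev (hv : v ^ (k + 1) = 0) (ρ : PowerSeries C →+* E.U Y)
    (hC : ∀ c, ρ (PowerSeries.C c) = D.φ c • 1) (hX : ρ PowerSeries.X = v) (f : PowerSeries C) :
    ρ f = D.ev k v f := by
  have hf : f = ∑ l ∈ range (k + 1), PowerSeries.C (PowerSeries.coeff l f) * PowerSeries.X ^ l +
      PowerSeries.X ^ (k + 1) * PowerSeries.mk fun l => PowerSeries.coeff (l + (k + 1)) f := by
    ext m
    rw [map_add, map_sum, PowerSeries.coeff_X_pow_mul']
    have h1 : ∀ l ∈ range (k + 1), PowerSeries.coeff m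
        (PowerSeries.C (PowerSeries.coeff l f) * PowerSeries.X ^ l) =
        if m = l then PowerSeries.coeff l f else 0 := by
      intro l _
      rw [PowerSeries.coeff_C_mul, PowerSeries.coeff_X_pow]
      split_ifs <;> simp
    rw [sum_congr rfl h1, sum_ite_eq]
    by_cases hm : m < k + 1
    · rw [if_pos (mem_range.2 hm), if_neg (by omega), add_zero]
    · rw [if_neg (by rwa [mem_range]), if_pos (by omega), zero_add, PowerSeries.coeff_mk,
        Nat.sub_add_cancel (by omega)]
  have h2 : ρ f = ρ (∑ l ∈ range (k + 1), PowerSeries.C (PowerSeries.coeff l f) *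
      PowerSeries.X ^ l) := by
    conv_lhs => rw [hf]
    rw [map_add, map_mul, map_pow, hX, hv, zero_mul, add_zero]
  rw [h2, map_sum, ev]
  refine sum_congr rfl fun l _ => ?_
  rw [map_mul, hC, map_pow, hX, MultTheory.smul_mul', one_mul]

end ev

end CoeffData

namespace LensData

variable {D : CoeffData E C} {p : ℕ} (L : LensData E D p)

theorem act_tower (X : LC) [E.Good X] (k : ℕ) (f : PowerSeries C) (z : E.U (L.B k ⊗ X)) :
    (letI := D.mod X; letI : ∀ k, Module C (E.U (L.B k ⊗ X)) := fun _ => D.mod _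
      act k ((L.tower X).v k) f z) = E.act (fstC (L.B k) X) (D.ev k (L.v k) f) z := by
  let := D.mod X
  let : ∀ k, Module C (E.U (L.B k ⊗ X)) := fun _ => D.mod _
  rw [act_apply, CoeffData.ev, map_sum, AddMonoidHom.finsetSum_apply]
  refine sum_congr rfl fun l _ => ?_
  rw [Module.End.pow_apply, act_smul_left, ← iterate_act]
  rfl

theorem R_tower (X : LC) [E.Good X] (d : ℤ) (x : E.U X) :
    x ∈ (let := D.mod X; let : ∀ k, Module C (E.U (L.B k ⊗ X)) := fun _ => D.mod _
      (L.tower X).R d) ↔ x ∈ D.R X d := by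
  let := D.mod X
  let : ∀ k, Module C (E.U (L.B k ⊗ X)) := fun _ => D.mod _
  constructor
  · intro h
    change x ∈ (L.tower X).R d at h
    unfold LensTower.R at h
    refine Submodule.span_induction ?_ ?_ ?_ ?_ h
    · intro x hx
      obtain ⟨⟨i, hi⟩, hx⟩ := Set.mem_iUnion.1 hx
      refine AddSubgroup.subset_closure ⟨1, i, x, hi, hx, ?_⟩
      rw [map_one, one_smul]
    · exact zero_mem _
    · intro x y _ _ hx hy; exact add_mem hx hy
    · intro a x _ hx
      change D.φ a • x ∈ D.R X d
      refine AddSubgroup.closure_induction ?_ ?_ ?_ ?_ hx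
      · rintro x ⟨c, i, g, hi, hg, rfl⟩
        refine AddSubgroup.subset_closure ⟨a * c, i, g, hi, hg, ?_⟩
        rw [map_mul, mul_smul]
      · rw [smul_zero]; exact zero_mem _
      · intro x y _ _ hx hy; rw [smul_add]; exact add_mem hx hy
      · intro x _ hx; rw [smul_neg]; exact neg_mem hx
  · intro h
    change x ∈ (L.tower X).R d
    refine AddSubgroup.closure_induction ?_ ?_ ?_ ?_ h
    · rintro x ⟨c, i, g, hi, hg, rfl⟩
      exact Submodule.smul_mem _ c ((L.tower X).mem_R_of_mem hi hg)
    · exact zero_mem _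
    · intro x y _ _ hx hy; exact add_mem hx hy
    · intro x _ hx; exact neg_mem hx

/-- An element of `posPoly` is a polynomial in `v` with coefficients in `R`. -/
theorem exists_poly (X : LC) [E.Good X] (k : ℕ) (d : ℤ) {z : E.U (L.B k ⊗ X)}
    (hz : z ∈ D.posPoly (L.v k) X d) : ∃ r : ℕ → E.U X, (∀ l, r l ∈ D.R X d) ∧
      z = ∑ l ∈ range (k + 1), E.act (fstC (L.B k) X) (L.v k ^ l) (pull E (L.B k) X (r l)) := by
  refine AddSubgroup.closure_induction ?_ ?_ ?_ ?_ hz
  · rintro z ⟨c, l, i, g, hi, hg, rfl⟩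
    refine ⟨fun m => if m = l then D.φ c • g else 0, fun m => ?_, ?_⟩
    · dsimp only
      split_ifs
      · exact AddSubgroup.subset_closure ⟨c, i, g, hi, hg, rfl⟩
      · exact zero_mem _
    · have hterm : E.act (fstC (L.B k) X) (L.v k ^ l) (pull E (L.B k) X (D.φ c • g)) =
          D.φ c • E.cross (L.v k ^ l) g := by
        unfold pull
        rw [cross_smul_right, act_smul_right]
        congr 1
        have := act_cross_left (ContinuousMap.id (L.B k)) (L.v k ^ l) (E.oneU (L.B k)) g
        have h2 : E.act (ContinuousMap.id (L.B k)) (L.v k ^ l) (E.oneU (L.B k)) = L.v k ^ l := by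
          rw [← MultTheory.mul_def, ← one_def, mul_one]
        rw [h2] at this
        exact this
      by_cases hl : l < k + 1
      · rw [sum_eq_single l]
        · beta_reduce
          rw [if_pos rfl, hterm]
        · intro m _ hm
          beta_reduce
          rw [if_neg hm, map_zero, map_zero]
        · intro h; exact absurd (mem_range.2 hl) h
      · have hv : L.v k ^ l = 0 := by
          obtain ⟨m, rfl⟩ := Nat.exists_eq_add_of_le (not_lt.1 hl)
          rw [pow_add, L.v_pow, zero_mul]
        rw [hv, map_zero, AddMonoidHom.zero_apply, smul_zero, eq_comm]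
        refine sum_eq_zero fun m hm => ?_
        have : m ≠ l := by rw [mem_range] at hm; omega
        beta_reduce
        rw [if_neg this, map_zero, map_zero]
  · exact ⟨fun _ => 0, fun _ => zero_mem _, by simp⟩
  · rintro x y _ _ ⟨r, hr, rfl⟩ ⟨r', hr', rfl⟩
    refine ⟨fun l => r l + r' l, fun l => add_mem (hr l) (hr' l), ?_⟩
    rw [← sum_add_distrib]
    exact sum_congr rfl fun l _ => by rw [map_add, map_add]
  · rintro x _ ⟨r, hr, rfl⟩
    refine ⟨fun l => -r l, fun l => neg_mem (hr l), ?_⟩
    rw [← sum_neg_distrib]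
    exact sum_congr rfl fun l _ => by rw [map_neg, map_neg]

/-- **Theorem Q** for a multiplicative theory with lens data. -/
theorem theoremQ (hp : p.Prime) (X : LC) [E.Good X] {q : ℕ}
    (IH : ∀ i : ℤ, -(q : ℤ) < i → ∀ u ∈ E.deg X i, u ∈ D.R X 0) {x : E.U X}
    (hx : x ∈ E.deg X (-(q : ℤ))) {n k : ℕ} (hk : 2 * ((p - 1) * n) ≤ k)
    {P : E.U (L.B k ⊗ X)} (hPdeg : P ∈ E.deg (L.B k ⊗ X) (-(p * q : ℤ)))
    (hP0 : q = 0 → ptRes E (L.b k) X P = 0)
    (hP : E.act (fstC (L.B k) X) (D.ev k (L.v k) (wSeries D.F p) ^ (n + q)) P -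
      E.act (fstC (L.B k) X) (D.ev k (L.v k) (wSeries D.F p) ^ n) (pull E (L.B k) X x) ∈
        D.posPoly (L.v k) X (-(q : ℤ))) :
    ∃ r ∈ D.R X 0, ∃ u ∈ E.deg X (-(q : ℤ)), x = r + p • u := by
  let := D.mod X
  let : ∀ k, Module C (E.U (L.B k ⊗ X)) := fun _ => D.mod _
  have hf : (L.tower X).IsHom 0 (fSeries D.F p) := coeff_fSeries_mem D.mulGr D.homF p
  have key : (L.tower X).IsPoly ((L.tower X).R (-(q : ℤ))) k (-(q : ℤ) + ((p - 1) * n : ℕ))
      (Q.act k ((L.tower X).v k) ((PowerSeries.X ^ (p - 1) * fSeries D.F p) ^ (n + q)) P -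
        Q.act k ((L.tower X).v k) ((PowerSeries.X ^ (p - 1) * fSeries D.F p) ^ n)
          ((L.tower X).pull k x)) := by
    have hw : (L.tower X).IsHom ((p - 1 : ℕ) : ℤ) (PowerSeries.X ^ (p - 1) * fSeries D.F p) := by
      have hX : (L.tower X).IsHom 1 (PowerSeries.X : PowerSeries C) := by
        intro l
        rw [PowerSeries.coeff_X]
        split_ifs with h
        · subst h
          have h1 : (1 : C) ∈ D.gC (1 - ((1 : ℕ) : ℤ)) := by simpa using D.mulGr.one_mem
          exact h1
        · exact zero_mem _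
      have := (hX.pow (p - 1)).mul hf
      simpa using this
    obtain ⟨r, hr, hz⟩ := L.exists_poly X k _ hP
    refine LensTower.IsPoly.of_total (T := L.tower X) ?_ ((L.tower X).isHomogSub_R D.total _) ?_ r
      (fun l => (L.R_tower X _ _).2 (hr l)) ?_
    · exact (internal (E := E) (L.B k ⊗ X)).addSubgroup_iSupIndep
    · refine sub_mem ?_ ?_
      · have := LensTower.act_deg (hw.pow (n + q)) hPdeg
        have e : -(q : ℤ) + (((p - 1) * n : ℕ) : ℤ) =
            ((n + q : ℕ) : ℤ) * ((p - 1 : ℕ) : ℤ) + -(p * q : ℤ) := by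
          push_cast [Nat.cast_sub hp.one_lt.le]; ring
        rw [e]; exact this
      · have := LensTower.act_deg (hw.pow n) ((L.tower X).pull_deg k _ _ hx)
        have e : -(q : ℤ) + (((p - 1) * n : ℕ) : ℤ) =
            (n : ℤ) * ((p - 1 : ℕ) : ℤ) + -(q : ℤ) := by push_cast; ring
        rw [e]; exact this
    · rw [L.act_tower, L.act_tower, ← wSeries_eq, CoeffData.ev_pow (L.v_pow k),
        CoeffData.ev_pow (L.v_pow k)]
      refine hz.trans (sum_congr rfl fun l _ => ?_)
      rw [Module.End.pow_apply]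
      exact (iterate_act X (L.v k) l _).symm
  obtain ⟨r, hr, u, hu, h⟩ := (L.tower X).quillen hp hf (coeff_zero_fSeries D.F p)
    (fun i hi u hu => (L.R_tower X 0 u).2 (IH i hi u hu)) hx hk hPdeg hP0 key
  refine ⟨r, (L.R_tower X 0 r).1 hr, u, hu, ?_⟩
  rw [h]
  congr 1
  change D.φ (p : C) • u = p • u
  rw [map_natCast, Nat.cast_smul_eq_nsmul]

/-- **Theorem Q**, all classes of degree `-q`. -/
theorem theoremQ_all (hp : p.Prime) (X : LC) [E.Good X] {q : ℕ}
    (IH : ∀ i : ℤ, -(q : ℤ) < i → ∀ u ∈ E.deg X i, u ∈ D.R X 0)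
    (hpow : ∀ x ∈ E.deg X (-(q : ℤ)), ∃ n : ℕ, ∀ k : ℕ,
      ∃ P ∈ E.deg (L.B k ⊗ X) (-(p * q : ℤ)), (q = 0 → ptRes E (L.b k) X P = 0) ∧
        E.act (fstC (L.B k) X) (D.ev k (L.v k) (wSeries D.F p) ^ (n + q)) P -
          E.cross (D.ev k (L.v k) (wSeries D.F p) ^ n) x ∈
            D.posPoly (L.v k) X (-(q : ℤ)))
    {x : E.U X} (hx : x ∈ E.deg X (-(q : ℤ))) :
    ∃ r ∈ D.R X 0, ∃ u ∈ E.deg X (-(q : ℤ)), x = r + p • u := by
  obtain ⟨n, hn⟩ := hpow x hx
  obtain ⟨P, hPdeg, hP0, hP⟩ := hn (2 * ((p - 1) * n))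
  refine L.theoremQ hp X IH hx le_rfl hPdeg hP0 ?_
  have h : E.act (fstC (L.B (2 * ((p - 1) * n))) X)
      (D.ev (2 * ((p - 1) * n)) (L.v (2 * ((p - 1) * n))) (wSeries D.F p) ^ n)
      (pull E (L.B (2 * ((p - 1) * n))) X x) =
      E.cross (D.ev (2 * ((p - 1) * n)) (L.v (2 * ((p - 1) * n))) (wSeries D.F p) ^ n) x := by
    unfold pull
    set w := D.ev (2 * ((p - 1) * n)) (L.v (2 * ((p - 1) * n))) (wSeries D.F p) ^ n
    have := act_cross_left (ContinuousMap.id (L.B (2 * ((p - 1) * n)))) w
      (E.oneU (L.B (2 * ((p - 1) * n)))) x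
    have h2 : E.act (ContinuousMap.id (L.B (2 * ((p - 1) * n)))) w
        (E.oneU (L.B (2 * ((p - 1) * n)))) = w := by
      rw [← MultTheory.mul_def, ← one_def, mul_one]
    rw [h2] at this
    exact this
  rw [h]
  exact hP

end LensData

end Vale.Agent.P251.Q
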