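import Vale.Agent.P251.Q.TPowIsom
import Vale.Agent.P251.Q.GoodBase
import Vale.Agent.P251.Q.CPn
import Vale.Agent.P251.Q.FGLAlg
import Vale.Agent.P251.Q.Glue
import Vale.Agent.P251.G.LensFrames

/-!
# P251, part Q: Euler classes of powers of a line bundle

* `o.HasLaw F` : `e (L ⊗ L') = F (e L, e L')` for line bundles over compact bases;
* `e_taut_z` : `e (taut 1 I) = z I`; `e_pow_eq_zero` : the Euler class of a line bundle is nilpotent;
* `e_tpow` : `e (V^{⊗n}) = [n]_F (e V)`; `e_tpow_ev` : the same for the law over `C`;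
* `e_rhobar_ev` : the Euler class of `ρ̄` over the lens space is the value of `wSeries`.
-/

set_option linter.unusedSectionVars false
set_option linter.style.haveILetI false

open CategoryTheory MonoidalCategory Matrix Topology Finset
open Vale.Agent.P251.G Vale.Agent.P251.G.LC Vale.Agent.P251.G.Bun
open Vale.Agent.P217 Vale.Agent.P251.F

universe v

namespace Vale.Agent.P251.Q

open MultTheory

/-! ### Algebra -/

section algebra

variable {A S : Type*} [CommRing A] [CommRing S] [Algebra A S]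

/-- The values of `[n]_F`. -/
theorem eq_nev_multSeries (F : FormalGroup A) {z : S} (hz : IsNilpotent z) (x : ℕ → S)
    (h0 : x 0 = 0) (hs : ∀ n, x (n + 1) = nev ![x n, z] F.toPowerSeries) (n : ℕ) :
    x n = nev (fun _ : Unit => z) (multSeries F n) := by
  have hz' : ∀ _ : Unit, IsNilpotent z := fun _ => hz
  induction n with
  | zero =>
    have h1 : multSeries F 0 = 0 := rfl
    rw [h0, h1]
    exact (nev_zero (A := A) hz').symm
  | succ n ih =>
    have hsub : MvPowerSeries.HasSubst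
        ![(multSeries F n : MvPowerSeries Unit A), (PowerSeries.X : PowerSeries A)] := by
      refine MvPowerSeries.hasSubst_of_constantCoeff_zero fun i => ?_
      fin_cases i
      · exact constantCoeff_multSeries F n
      · exact PowerSeries.constantCoeff_X
    rw [hs, multSeries_succ, nev_subst hz' hsub]
    congr 1
    funext i
    fin_cases i
    · exact ih
    · exact (nev_X hz' ()).symm

/-- The value of a power series in one variable as a finite sum. -/
theorem nev_unit_eq_sum {z : S} {N : ℕ} (hz : z ^ N = 0) (f : PowerSeries A) :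
    nev (fun _ : Unit => z) f = ∑ l ∈ range N, PowerSeries.coeff l f • z ^ l := by
  rw [nev_eq_sum (fun _ => hz)]
  refine Finset.sum_bij' (fun g _ => g ()) (fun l _ _ => l) ?_ ?_ ?_ ?_ ?_
  · intro g hg
    exact Fintype.mem_piFinset.mp hg ()
  · intro l hl
    exact Fintype.mem_piFinset.mpr fun _ => hl
  · intro g _
    funext a
    rfl
  · intro l _
    rfl
  · intro g _
    have h1 : Finsupp.equivFunOnFinite.symm g = Finsupp.single () (g ()) := by
      ext
      simp
    rw [Fintype.prod_unique, h1]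
    rfl

end algebra

/-! ### Euler classes of line bundles -/

section theory

variable {E : MultTheory.{v}} (o : Orientation E)

/-- `F` is the formal group law of the orientation. -/
def _root_.Vale.Agent.P251.Q.Orientation.HasLaw (F : FormalGroup E.A) : Prop :=
  ∀ (B : LC) [CompactSpace B] [GoodBase E B] (ι κ : Type) [Fintype ι] [Fintype κ]
    (L : Bun B ι) (L' : Bun B κ) (hL : L.IsRank 1) (hL' : L'.IsRank 1)
    (hLL : (L.tensor L').IsRank 1),
    o.e (L.tensor L') hLL = nev ![o.e L hL, o.e L' hL'] F.toPowerSeries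

theorem e_taut_z (I : Type) [Fintype I] :
    o.e (B := LC.of (Gr 1 I)) (taut 1 I) (taut_isRank 1 I) = o.z I := by
  haveI := o.goodTh
  haveI h1 : GoodBase E (LC.of (Gr 1 I)) := inferInstance
  haveI : E.Good (Bun.tot (X := (LC.of (Gr 1 I) : LC)) (taut 1 I)) := h1.tot _ (taut_isRank 1 I)
  rw [← map_zeroMor_thom, thom_eq, ← MultTheory.map_comp, Orientation.z]
  exact congrArg (fun k => E.map k _) (LC.hom_ext fun _ => rfl)

variable {B : LC} [CompactSpace B] [hB : GoodBase E B] {ι : Type} [Fintype ι]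

/-- the classifying map of a line bundle -/
def lineCls (V : Bun B ι) (hV : V.IsRank 1) : C(B, (LC.of (Gr 1 ι) : LC)) where
  toFun := fun b => (⟨V.P b, V.isProj hV b⟩ : Gr 1 ι)
  continuous_toFun := V.cont.subtype_mk _

theorem e_eq_map_z (V : Bun B ι) (hV : V.IsRank 1) :
    o.e V hV = E.mapAlg (lineCls V hV) (o.z ι) := by
  haveI h1 : GoodBase E (LC.of (Gr 1 ι)) := inferInstance
  haveI : E.Good (Bun.tot (X := (LC.of (Gr 1 ι) : LC)) (taut 1 ι)) := h1.tot _ (taut_isRank 1 ι)
  haveI h2 : E.Good V.tot := hB.tot V hV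
  haveI h3 : E.Good (Bun.tot (X := B) ((taut 1 ι).pullback (lineCls V hV))) := hB.tot V hV
  rw [← e_taut_z]
  exact e_pullback_alg o (B := LC.of (Gr 1 ι)) (lineCls V hV) (taut 1 ι) (taut_isRank 1 ι) hV

theorem e_pow_eq_zero (V : Bun B ι) (hV : V.IsRank 1) {N : ℕ} (hN : Fintype.card ι ≤ N) :
    o.e V hV ^ N = 0 := by
  rw [e_eq_map_z, ← map_pow, z_pow_eq_zero o N ι hN, map_zero]

theorem isNilpotent_e (V : Bun B ι) (hV : V.IsRank 1) : IsNilpotent (o.e V hV) :=
  ⟨_, e_pow_eq_zero o V hV le_rfl⟩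

/-- The Euler class of the trivial line bundle vanishes. -/
theorem e_tpow_zero (V : Bun B ι) (hV : V.IsRank 1) : o.e (V.tpow 0) (hV.tpow1 0) = 0 := by
  haveI := hB.tot _ (hV.tpow1 0)
  refine e_eq_zero o _ _ ⟨fun _ _ => 1, continuous_const, fun z => ?_⟩ fun z => ?_
  · ext s
    rw [mulVec, dotProduct, Finset.sum_eq_single s]
    · rw [tpow_P, tpow_apply]
      simp
    · intro t _ hts
      exact absurd (Subsingleton.elim t s) hts
    · intro h
      exact absurd (Finset.mem_univ s) h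
  · change nsq (fun _ : Fin 0 → ι => (1 : ℂ)) = 1
    rw [nsq]
    simp

/-- `e (V^{⊗n}) = [n]_F (e V)` -/
theorem e_tpow {F : FormalGroup E.A} (hF : o.HasLaw F) (V : Bun B ι) (hV : V.IsRank 1) (n : ℕ) :
    o.e (V.tpow n) (hV.tpow1 n) = nev (fun _ : Unit => o.e V hV) (multSeries F n) := by
  refine eq_nev_multSeries F (isNilpotent_e o V hV) (fun n => o.e (V.tpow n) (hV.tpow1 n))
    (e_tpow_zero o V hV) (fun n => ?_) n
  have h1 : ((V.tpow n).tensor V).IsRank 1 := (Bun.Isom.tpowSucc V n).isRank (hV.tpow1 (n + 1))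
  haveI := hB.tot _ (hV.tpow1 (n + 1))
  haveI := hB.tot _ h1
  rw [e_isom o (Bun.Isom.tpowSucc V n) (hV.tpow1 (n + 1)) h1]
  exact hF B _ _ _ _ (hV.tpow1 n) hV h1

variable {C : Type} [CommRing C] {D : CoeffData E C}

theorem ev_eq_nev {v : E.U B} {k : ℕ} (hv : v ^ (k + 1) = 0) (f : PowerSeries C) :
    D.ev k v f = nev (fun _ : Unit => v) (PowerSeries.map D.φ f) := by
  rw [nev_unit_eq_sum hv, CoeffData.ev]
  refine Finset.sum_congr rfl fun l _ => ?_
  rw [PowerSeries.coeff_map]

/-- `e (V^{⊗n}) = [n] (e V)`, for the law over `C` -/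
theorem e_tpow_ev (hF : o.HasLaw (D.F.map D.φ)) (V : Bun B ι) (hV : V.IsRank 1) {k : ℕ}
    (hk : Fintype.card ι ≤ k + 1) (n : ℕ) :
    o.e (V.tpow n) (hV.tpow1 n) = D.ev k (o.e V hV) (multSeries D.F n) := by
  rw [e_tpow o hF, ev_eq_nev (e_pow_eq_zero o V hV hk), map_multSeries]

end theory

section rhobar

variable {E : MultTheory.{v}} (o : Orientation E)
variable {C : Type} [CommRing C] {D : CoeffData E C} {p : ℕ} {κ : Type} [Fintype κ]

/-- the pull back of the tautological line bundle to the lens space -/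
abbrev lensL (p : ℕ) (κ : Type) [Fintype κ] : Bun (LC.of (Lens p κ) : LC) κ :=
  (taut 1 κ).pullback (Lens.toGr p κ)

theorem lensL_isRank (p : ℕ) (κ : Type) [Fintype κ] : (lensL p κ).IsRank 1 :=
  fun _ => taut_isRank 1 κ _

/-- the Euler class `v` of the lens space -/
noncomputable def _root_.Vale.Agent.P251.Q.Orientation.vL (o : Orientation E) (p : ℕ) (κ : Type)
    [Fintype κ] : E.U (LC.of (Lens p κ)) := o.e (lensL p κ) (lensL_isRank p κ)

theorem vL_pow_eq_zero {N : ℕ} (hN : Fintype.card κ ≤ N) : o.vL p κ ^ N = 0 :=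
  e_pow_eq_zero o (lensL p κ) (lensL_isRank p κ) hN

theorem vL_deg : o.vL p κ ∈ E.deg (LC.of (Lens p κ)) 1 := by
  haveI h1 : GoodBase E (LC.of (Lens p κ)) := inferInstance
  haveI : E.Good (lensL p κ).tot := h1.tot _ (lensL_isRank p κ)
  exact e_deg o (lensL p κ) (lensL_isRank p κ)

/-- The Euler class of `ρ̄` is the value of `wSeries`. -/
theorem e_rhobar_ev (hF : o.HasLaw (D.F.map D.φ)) {k : ℕ} (hk : Fintype.card κ ≤ k + 1) :
    o.e (B := LC.of (Lens p κ)) (rhobar p κ) (rhobar_isRank p κ) =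
      D.ev k (o.vL p κ) (wSeries D.F p) := by
  have hv : o.vL p κ ^ (k + 1) = 0 := vL_pow_eq_zero o hk
  have hr : ∀ i : Fin (p - 1), Bun.IsRank (X := (LC.of (Lens p κ) : LC))
      (((taut 1 κ).tpow ((i : ℕ) + 1)).pullback (Lens.toGr p κ)) 1 :=
    fun i => (lensL_isRank p κ).tpow1 ((i : ℕ) + 1)
  have hsum : (∑ _i : Fin (p - 1), 1) = p - 1 := by simp
  have h1 : o.e (B := LC.of (Lens p κ)) (rhobar p κ) (rhobar_isRank p κ) =
      ∏ i : Fin (p - 1), o.e (B := LC.of (Lens p κ))
        (((taut 1 κ).tpow ((i : ℕ) + 1)).pullback (Lens.toGr p κ)) (hr i) := by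
    rw [← e_sigma o (B := LC.of (Lens p κ)) _ (fun _ => 1) hr]
    exact e_congr_rank o hsum.symm _ _
  rw [h1, wSeries]
  have h2 : ∀ s : Finset ℕ, D.ev k (o.vL p κ) (∏ i ∈ s, multSeries D.F (i + 1)) =
      ∏ i ∈ s, D.ev k (o.vL p κ) (multSeries D.F (i + 1)) := by
    intro s
    induction s using Finset.cons_induction with
    | empty => rw [Finset.prod_empty, Finset.prod_empty, CoeffData.ev_one]
    | cons a s ha ih => rw [Finset.prod_cons, Finset.prod_cons, CoeffData.ev_mul hv, ih]
  rw [h2, ← Fin.prod_univ_eq_prod_range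
    (fun i => D.ev k (o.vL p κ) (multSeries D.F (i + 1))) (p - 1)]
  refine Finset.prod_congr rfl fun i _ => ?_
  exact e_tpow_ev o hF (lensL p κ) (lensL_isRank p κ) hk ((i : ℕ) + 1)

end rhobar

end Vale.Agent.P251.Q
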