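import Vale.Agent.P251.Q.ThomIsom
import Vale.Agent.P251.G.BlockSum
import Vale.Agent.P251.G.BunSigma

/-!
# P251, part Q: isomorphisms of bundles for tensor products of sums

* `Bun.Isom.reindex`, `Bun.Isom.tensor`, `Bun.Isom.tensorComm`;
* `Bun.Isom.sigmaTensor`, `Bun.Isom.tensorSigma`, `Bun.Isom.blockSumSigma` : distributivity.
-/

open Matrix Filter Topology CategoryTheory

namespace Vale.Agent.P251.G

variable {X Y : Type} [TopologicalSpace X] [TopologicalSpace Y]
variable {ι κ μ ν : Type} [Fintype ι] [Fintype κ] [Fintype μ] [Fintype ν]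

namespace Bun

theorem sigma_tensor {J : Type} [Fintype J] [DecidableEq J] {κ : J → Type} [∀ j, Fintype (κ j)]
    (V : ∀ j, Bun X (κ j)) (W : Bun X μ) :
    ((sigma V).tensor W).reindex (Equiv.sigmaProdDistrib κ μ) =
      sigma fun j => (V j).tensor W := by
  refine Bun.ext ?_
  funext x
  ext ⟨i, a, k⟩ ⟨j, b, l⟩
  simp only [reindex_P, tensor_P, sigma_P, submatrix_apply, kroneckerMap_apply]
  by_cases h : i = j
  · subst h
    rw [blockDiagonal'_apply_eq]
    change blockDiagonal' _ ⟨i, a⟩ ⟨i, b⟩ * _ = _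
    rw [blockDiagonal'_apply_eq]
    rfl
  · rw [blockDiagonal'_apply_ne _ _ _ h]
    change blockDiagonal' _ ⟨i, a⟩ ⟨j, b⟩ * _ = _
    rw [blockDiagonal'_apply_ne _ _ _ h, zero_mul]

/-- `μ × (Σ j, κ j) ≃ Σ j, μ × κ j` -/
def prodSigmaDistrib' {J : Type} (μ : Type) (κ : J → Type) :
    μ × (Σ j, κ j) ≃ Σ j, μ × κ j where
  toFun p := ⟨p.2.1, p.1, p.2.2⟩
  invFun p := (p.2.1, ⟨p.1, p.2.2⟩)
  left_inv _ := rfl
  right_inv _ := rfl

theorem tensor_sigma {J : Type} [Fintype J] [DecidableEq J] {κ : J → Type} [∀ j, Fintype (κ j)]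
    (W : Bun X μ) (V : ∀ j, Bun X (κ j)) :
    (W.tensor (sigma V)).reindex (prodSigmaDistrib' μ κ) =
      sigma fun j => W.tensor (V j) := by
  refine Bun.ext ?_
  funext x
  ext ⟨i, k, a⟩ ⟨j, l, b⟩
  simp only [reindex_P, tensor_P, sigma_P, submatrix_apply, kroneckerMap_apply]
  by_cases h : i = j
  · subst h
    rw [blockDiagonal'_apply_eq]
    change _ * blockDiagonal' _ ⟨i, a⟩ ⟨i, b⟩ = _
    rw [blockDiagonal'_apply_eq]
    rfl
  · rw [blockDiagonal'_apply_ne _ _ _ h]
    change _ * blockDiagonal' _ ⟨i, a⟩ ⟨j, b⟩ = _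
    rw [blockDiagonal'_apply_ne _ _ _ h, mul_zero]

/-- `ι × J ≃ Σ _ : J, ι` -/
def prodEquivSigma' (ι J : Type) : ι × J ≃ Σ _ : J, ι where
  toFun p := ⟨p.2, p.1⟩
  invFun p := (p.2, p.1)
  left_inv _ := rfl
  right_inv _ := rfl

theorem blockSum_reindex_sigma {J : Type} [Fintype J] [DecidableEq J] (V : J → Bun X ι) :
    (blockSum V).reindex (prodEquivSigma' ι J) = sigma V := by
  refine Bun.ext ?_
  funext x
  ext ⟨a, i⟩ ⟨b, j⟩
  simp only [reindex_P, blockSum_P, sigma_P, submatrix_apply]
  by_cases h : a = b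
  · subst h
    rw [blockDiagonal'_apply_eq]
    change blockDiagonal _ (i, a) (j, a) = _
    rw [blockDiagonal_apply_eq]
  · rw [blockDiagonal'_apply_ne _ _ _ h]
    change blockDiagonal _ (i, a) (j, b) = _
    rw [blockDiagonal_apply_ne _ _ _ h]

namespace Isom

variable {V : Bun X ι} {V' : Bun X κ} {W : Bun X μ} {W' : Bun X ν}

/-- change of the index type -/
@[simps] def reindex (V : Bun X ι) (e : ι ≃ κ) : V.Isom (V.reindex e) where
  u x := (V.P x).submatrix e.symm id
  cont := V.cont.matrix_submatrix _ _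
  left x := by
    rw [conjTranspose_submatrix, V.herm]
    rw [submatrix_mul_equiv, V.idem, submatrix_id_id]
  right x := by
    rw [conjTranspose_submatrix, V.herm]
    change (V.P x).submatrix e.symm (Equiv.refl ι) * (V.P x).submatrix (Equiv.refl ι) e.symm = _
    rw [submatrix_mul_equiv, V.idem]
    rfl

/-- tensor product of isomorphisms -/
@[simps] def tensor (φ : V.Isom V') (ψ : W.Isom W') : (V.tensor W).Isom (V'.tensor W') where
  u x := kroneckerMap (· * ·) (φ.u x) (ψ.u x)
  cont := by
    refine continuous_matrix fun i j => ?_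
    simp only [kroneckerMap_apply]
    exact (φ.cont.matrix_elem _ _).mul (ψ.cont.matrix_elem _ _)
  left x := by
    rw [conjTranspose_kronecker, ← mul_kronecker_mul, φ.left, ψ.left]
    rfl
  right x := by
    rw [conjTranspose_kronecker, ← mul_kronecker_mul, φ.right, ψ.right]
    rfl

/-- commutativity of the tensor product -/
def tensorComm (V : Bun X ι) (W : Bun X μ) : (V.tensor W).Isom (W.tensor V) :=
  (reindex (V.tensor W) (Equiv.prodComm ι μ)).trans (ofEq fun x => by
    ext ⟨i, j⟩ ⟨k, l⟩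
    simp [mul_comm])

/-- associativity of the tensor product -/
def tensorAssoc (V : Bun X ι) (V' : Bun X κ) (W : Bun X μ) :
    ((V.tensor V').tensor W).Isom (V.tensor (V'.tensor W)) :=
  (reindex ((V.tensor V').tensor W) (Equiv.prodAssoc ι κ μ)).trans (ofEq fun x => by
    ext ⟨i, j, k⟩ ⟨i', j', k'⟩
    simp [mul_assoc])

section sigma

variable {J : Type} [Fintype J] [DecidableEq J] {k k' : J → Type} [∀ j, Fintype (k j)]
  [∀ j, Fintype (k' j)]

/-- the sum of a family tensored with a bundle -/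
def sigmaTensor (V : ∀ j, Bun X (k j)) (W : Bun X μ) :
    ((Bun.sigma V).tensor W).Isom (Bun.sigma fun j => (V j).tensor W) :=
  (reindex ((Bun.sigma V).tensor W) (Equiv.sigmaProdDistrib k μ)).trans
    (ofEq fun x => by rw [sigma_tensor])

/-- a bundle tensored with the sum of a family -/
def tensorSigma (W : Bun X μ) (V : ∀ j, Bun X (k j)) :
    (W.tensor (Bun.sigma V)).Isom (Bun.sigma fun j => W.tensor (V j)) :=
  (reindex (W.tensor (Bun.sigma V)) (prodSigmaDistrib' μ k)).trans
    (ofEq fun x => by rw [tensor_sigma])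

/-- the block sum is the sum of the family -/
def blockSumSigma (V : J → Bun X ι) : (Bun.blockSum V).Isom (Bun.sigma V) :=
  (reindex (Bun.blockSum V) (prodEquivSigma' ι J)).trans
    (ofEq fun x => by rw [blockSum_reindex_sigma])

/-- sums of isomorphisms -/
@[simps] def sigma {V : ∀ j, Bun X (k j)} {V' : ∀ j, Bun X (k' j)} (φ : ∀ j, (V j).Isom (V' j)) :
    (Bun.sigma V).Isom (Bun.sigma V') where
  u x := blockDiagonal' fun j => (φ j).u x
  cont := (continuous_pi fun j => (φ j).cont).matrix_blockDiagonal'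
  left x := by
    rw [Matrix.blockDiagonal'_conjTranspose, ← Matrix.blockDiagonal'_mul]
    simp only [(φ _).left, sigma_P]
  right x := by
    rw [Matrix.blockDiagonal'_conjTranspose, ← Matrix.blockDiagonal'_mul]
    simp only [(φ _).right, sigma_P]

/-- the block sum tensored with a bundle -/
def blockSumTensor (V : J → Bun X ι) (W : Bun X μ) :
    ((Bun.blockSum V).tensor W).Isom (Bun.sigma fun j => (V j).tensor W) :=
  (tensor (blockSumSigma V) (refl W)).trans (sigmaTensor V W)

/-- a bundle tensored with a block sum -/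
def tensorBlockSum (W : Bun X μ) (V : J → Bun X ι) :
    (W.tensor (Bun.blockSum V)).Isom (Bun.sigma fun j => W.tensor (V j)) :=
  (tensor (refl W) (blockSumSigma V)).trans (tensorSigma W V)

/-- the sum of a family tensored with a block sum -/
def sigmaTensorBlockSum {K : Type} [Fintype K] [DecidableEq K]
    (V : ∀ j, Bun X (k j)) (W : K → Bun X ι) :
    ((Bun.sigma V).tensor (Bun.blockSum W)).Isom
      (Bun.sigma fun j => Bun.sigma fun a => (V j).tensor (W a)) :=
  (sigmaTensor V (Bun.blockSum W)).trans (sigma fun j => tensorBlockSum (V j) W)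

/-- a block sum tensored with the sum of a family -/
def blockSumTensorSigma {K : Type} [Fintype K] [DecidableEq K]
    (W : K → Bun X ι) (V : ∀ j, Bun X (k j)) :
    ((Bun.blockSum W).tensor (Bun.sigma V)).Isom
      (Bun.sigma fun a => Bun.sigma fun j => (W a).tensor (V j)) :=
  (blockSumTensor W (Bun.sigma V)).trans (sigma fun a => tensorSigma (W a) V)

end sigma

end Isom

end Bun

end Vale.Agent.P251.G
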