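import Vale.Agent.P251.Q.Unip
import Mathlib.RingTheory.Polynomial.Vieta

/-!
# P251, part Q: the classes `c'` on products of projective spaces (task Q4)

`Fpoly K f x = F(x, T)` as a polynomial in `T` (terms with an exponent `≥ K` dropped).
`cpoly K f n i` = coefficient of `T ^ (n - 1 - i)` in `∏ a, F(x a, T)`: it is
`e_(i+1) + (higher degree)`.
-/

open Finset MvPolynomial

namespace Vale.Agent.P251.Q

section defs

variable {C A B : Type*} [CommRing C] [CommRing A] [CommRing B] [Algebra C A] [Algebra C B]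

/-- `F(x, T)` as a polynomial in `T`, terms with an exponent `≥ K` dropped. -/
noncomputable def Fpoly (K : ℕ) (f : ℕ → ℕ → C) (x : A) : Polynomial A :=
  ∑ k ∈ range K, ∑ l ∈ range K, Polynomial.C (f k l • x ^ k) * Polynomial.X ^ l

/-- The coefficient of `T ^ j` in `∏ a, F(x a, T)`. -/
noncomputable def cls (K : ℕ) (f : ℕ → ℕ → C) {n : ℕ} (x : Fin n → A) (j : ℕ) : A :=
  (∏ a, Fpoly K f (x a)).coeff j

/-- The universal case: `c i = e_(i+1) + ...` is the coefficient of `T ^ (n - 1 - i)` in
`∏ a, F(x a, T)`. -/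
noncomputable def cpoly (K : ℕ) (f : ℕ → ℕ → C) (n : ℕ) (i : Fin n) : MvPolynomial (Fin n) C :=
  cls K f (fun a => (MvPolynomial.X a : MvPolynomial (Fin n) C)) (n - 1 - i)

theorem map_Fpoly (φ : A →ₐ[C] B) (K : ℕ) (f : ℕ → ℕ → C) (x : A) :
    (Fpoly K f x).map (φ : A →+* B) = Fpoly K f (φ x) := by
  simp only [Fpoly, Polynomial.map_sum, Polynomial.map_mul, Polynomial.map_C, Polynomial.map_pow,
    Polynomial.map_X, RingHom.coe_coe, map_smul, map_pow]

theorem map_cls (φ : A →ₐ[C] B) (K : ℕ) (f : ℕ → ℕ → C) {n : ℕ} (x : Fin n → A) (j : ℕ) :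
    φ (cls K f x j) = cls K f (fun a => φ (x a)) j := by
  unfold cls
  have h := Polynomial.coeff_map (φ : A →+* B) (p := ∏ a, Fpoly K f (x a)) j
  rw [RingHom.coe_coe] at h
  rw [← h, Polynomial.map_prod]
  simp only [map_Fpoly]

theorem aeval_cpoly (K : ℕ) (f : ℕ → ℕ → C) (n : ℕ) (i : Fin n) (x : Fin n → A) :
    aeval x (cpoly K f n i) = cls K f x (n - 1 - i) := by
  unfold cpoly
  rw [map_cls]
  simp only [aeval_X]

theorem cls_comp_equiv (K : ℕ) (f : ℕ → ℕ → C) {n : ℕ} (x : Fin n → A) (j : ℕ)
    (e : Equiv.Perm (Fin n)) : cls K f (fun a => x (e a)) j = cls K f x j := by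
  unfold cls
  rw [Equiv.prod_comp e (fun a => Fpoly K f (x a))]

theorem cpoly_isSymmetric (K : ℕ) (f : ℕ → ℕ → C) (n : ℕ) (i : Fin n) :
    (cpoly K f n i).IsSymmetric := by
  intro e
  have h1 := map_cls (rename e : MvPolynomial (Fin n) C →ₐ[C] MvPolynomial (Fin n) C) K f
    (fun a => (MvPolynomial.X a : MvPolynomial (Fin n) C)) (n - 1 - i)
  simp only [rename_X] at h1
  exact h1.trans (cls_comp_equiv K f (fun a => (MvPolynomial.X a : MvPolynomial (Fin n) C)) _ e)

end defs

section filtration

variable {R : Type*} [CommRing R] {σ : Type*} {w : σ → ℕ}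

/-- Polynomials in `T` over `R[x]` all of whose terms have total weight `≥ m` (weight of `T` one) -/
def JT (R : Type*) [CommRing R] {σ : Type*} (w : σ → ℕ) (m : ℕ) :
    AddSubgroup (Polynomial (MvPolynomial σ R)) where
  carrier := {p | ∀ l, p.coeff l ∈ J R w (m - l)}
  zero_mem' := by intro l; simp
  add_mem' := by
    intro p q hp hq l
    rw [Polynomial.coeff_add]
    exact add_mem (hp l) (hq l)
  neg_mem' := by
    intro p hp l
    rw [Polynomial.coeff_neg]
    exact neg_mem (hp l)

theorem mem_JT {m : ℕ} {p : Polynomial (MvPolynomial σ R)} :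
    p ∈ JT R w m ↔ ∀ l, p.coeff l ∈ J R w (m - l) := Iff.rfl

theorem JT_antitone {a b : ℕ} (h : a ≤ b) : JT R w b ≤ JT R w a := fun _ hp l =>
  J_antitone (by omega) (hp l)

theorem mul_mem_JT {a b : ℕ} {p q : Polynomial (MvPolynomial σ R)} (hp : p ∈ JT R w a)
    (hq : q ∈ JT R w b) : p * q ∈ JT R w (a + b) := by
  intro l
  rw [Polynomial.coeff_mul]
  refine Ideal.sum_mem _ fun t ht => ?_
  rw [mem_antidiagonal] at ht
  exact J_antitone (by omega) (mul_mem_J (hp t.1) (hq t.2))

theorem C_mul_X_pow_mem_JT {a l : ℕ} {c : MvPolynomial σ R} (hc : c ∈ J R w a) :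
    Polynomial.C c * Polynomial.X ^ l ∈ JT R w (a + l) := by
  intro k
  rw [Polynomial.coeff_C_mul_X_pow]
  split_ifs with h
  · subst h
    exact J_antitone (by omega) hc
  · exact zero_mem _

theorem prod_mem_JT {ι : Type*} (s : Finset ι) (p : ι → Polynomial (MvPolynomial σ R))
    (h : ∀ i ∈ s, p i ∈ JT R w 1) : ∏ i ∈ s, p i ∈ JT R w (s.card) := by
  classical
  induction s using Finset.induction_on with
  | empty =>
    intro l
    exact J_antitone (by simp) (mem_J_zero _)
  | insert i s hi ih =>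
    rw [prod_insert hi, card_insert_of_notMem hi, add_comm]
    exact mul_mem_JT (h i (mem_insert_self i s)) (ih fun j hj => h j (mem_insert_of_mem hj))

theorem prod_sub_prod_mem_JT {ι : Type*} (s : Finset ι) (p q : ι → Polynomial (MvPolynomial σ R))
    (hp : ∀ i ∈ s, p i ∈ JT R w 1) (hq : ∀ i ∈ s, q i ∈ JT R w 1)
    (h : ∀ i ∈ s, p i - q i ∈ JT R w 2) :
    ∏ i ∈ s, p i - ∏ i ∈ s, q i ∈ JT R w (s.card + 1) := by
  classical
  induction s using Finset.induction_on with
  | empty => simp
  | insert i s hi ih =>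
    rw [prod_insert hi, prod_insert hi, card_insert_of_notMem hi]
    have h1 : p i * ∏ x ∈ s, p x - q i * ∏ x ∈ s, q x =
        (p i - q i) * ∏ x ∈ s, p x + q i * (∏ x ∈ s, p x - ∏ x ∈ s, q x) := by ring
    rw [h1]
    refine add_mem ?_ ?_
    · refine JT_antitone (by omega) (mul_mem_JT (h i (mem_insert_self i s))
        (prod_mem_JT s p fun j hj => hp j (mem_insert_of_mem hj)))
    · refine JT_antitone (by omega) (mul_mem_JT (hq i (mem_insert_self i s))
        (ih (fun j hj => hp j (mem_insert_of_mem hj)) (fun j hj => hq j (mem_insert_of_mem hj))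
          (fun j hj => h j (mem_insert_of_mem hj))))

end filtration

section main

variable {C : Type*} [CommRing C]

theorem cpoly_sub_es_mem {K : ℕ} (hK : 2 ≤ K) {f : ℕ → ℕ → C} (h00 : f 0 0 = 0)
    (h10 : f 1 0 = 1) (h01 : f 0 1 = 1) (n : ℕ) (i : Fin n) :
    cpoly K f n i - es C n i ∈ J C (fun _ => 1) ((i : ℕ) + 2) := by
  classical
  let L : Fin n → Polynomial (MvPolynomial (Fin n) C) := fun a =>
    Polynomial.X + Polynomial.C (MvPolynomial.X a)
  have hXJ : ∀ (a : Fin n) (k : ℕ), (MvPolynomial.X a : MvPolynomial (Fin n) C) ^ k ∈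
      J C (fun _ => 1) k := by
    intro a k
    have := pow_mem_J (X_mem_J (R := C) (w := fun _ : Fin n => 1) a) k
    rwa [mul_one] at this
  have hterm : ∀ (a : Fin n) (k l : ℕ), (Polynomial.C (f k l • (MvPolynomial.X a :
      MvPolynomial (Fin n) C) ^ k) * Polynomial.X ^ l) ∈ JT C (fun _ : Fin n => 1) (k + l) := by
    intro a k l
    refine C_mul_X_pow_mem_JT ?_
    rw [smul_eq_C_mul]
    exact C_mul_mem_J _ (hXJ a k)
  have hL : ∀ a, L a ∈ JT C (fun _ : Fin n => 1) 1 := by
    intro a
    refine add_mem ?_ ?_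
    · have := C_mul_X_pow_mem_JT (l := 1) (mem_J_zero (w := fun _ : Fin n => 1)
        (1 : MvPolynomial (Fin n) C))
      simpa using this
    · have := C_mul_X_pow_mem_JT (l := 0) (hXJ a 1)
      simpa using this
  have hFL : ∀ a, Fpoly K f (MvPolynomial.X a : MvPolynomial (Fin n) C) - L a ∈
      JT C (fun _ : Fin n => 1) 2 := by
    intro a
    have e1 : L a = ∑ k ∈ range K, ∑ l ∈ range K, if k + l = 1 then
        (Polynomial.C (f k l • (MvPolynomial.X a : MvPolynomial (Fin n) C) ^ k) *
          Polynomial.X ^ l) else 0 := by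
      rw [← sum_product' (range K) (range K) (fun k l => if k + l = 1 then
        (Polynomial.C (f k l • (MvPolynomial.X a : MvPolynomial (Fin n) C) ^ k) *
          Polynomial.X ^ l) else 0)]
      rw [← sum_subset (s₁ := {((1 : ℕ), (0 : ℕ)), ((0 : ℕ), (1 : ℕ))})]
      · rw [sum_pair (by decide)]
        simp only [zero_add, add_zero, if_true, h10, h01, one_smul, pow_one, pow_zero, mul_one,
          map_one, one_mul, L]
        ring
      · intro x hx
        simp only [mem_insert, mem_singleton] at hx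
        rw [mem_product, mem_range, mem_range]
        rcases hx with rfl | rfl <;> simp <;> omega
      · rintro ⟨k, l⟩ _ hx
        simp only [mem_insert, mem_singleton, Prod.mk.injEq, not_or, not_and] at hx
        rw [if_neg]
        simp only
        omega
    rw [e1]
    unfold Fpoly
    rw [← sum_sub_distrib]
    refine sum_mem fun k _ => ?_
    rw [← sum_sub_distrib]
    refine sum_mem fun l _ => ?_
    split_ifs with h
    · rw [sub_self]; exact zero_mem _
    · rw [sub_zero]
      by_cases h0 : k + l = 0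
      · have hk : k = 0 := by omega
        have hl : l = 0 := by omega
        subst hk hl
        rw [h00]
        simp
      · exact JT_antitone (by omega) (hterm a k l)
  have hF : ∀ a, Fpoly K f (MvPolynomial.X a : MvPolynomial (Fin n) C) ∈
      JT C (fun _ : Fin n => 1) 1 := by
    intro a
    have := add_mem (JT_antitone (by omega : 1 ≤ 2) (hFL a)) (hL a)
    rwa [sub_add_cancel] at this
  have h1 := prod_sub_prod_mem_JT univ (fun a => Fpoly K f (MvPolynomial.X a :
    MvPolynomial (Fin n) C)) L (fun a _ => hF a) (fun a _ => hL a) (fun a _ => hFL a)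
  have h2 := h1 (n - 1 - i)
  rw [Polynomial.coeff_sub, card_univ, Fintype.card_fin] at h2
  have h3 : (∏ a, L a).coeff (n - 1 - i) = es C n i := by
    have := MvPolynomial.prod_X_add_C_coeff (σ := Fin n) (R := C) (n - 1 - i)
      (by rw [Fintype.card_fin]; omega)
    rw [this, Fintype.card_fin]
    congr 1
    omega
  rw [h3] at h2
  unfold cpoly cls
  refine J_antitone ?_ h2
  omega

end main

end Vale.Agent.P251.Q
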