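import Vale.Agent.P251.Q.Euler
import Vale.Agent.P251.Q.CPn
import Vale.Agent.P251.Q.ProdCP
import Vale.Agent.P251.Q.BlockIsom
import Vale.Agent.P251.Q.ClassPoly
import Vale.Agent.P251.G.Segre

/-!
# P251, part Q: the coefficients of `e(V ⊗ λ)` (task Q4)

For a bundle `V` of rank `n` over a compact space `Y`, `o.co V hV N : Fin N → E.U Y` are the
coefficients of `e(V ⊗ λ) ∈ U(Y × CP^(N-1)) = U(Y)[z]/z^N`.
-/

open CategoryTheory MonoidalCategory OnePoint Topology Finset
open Vale.Agent.P251.G Vale.Agent.P251.G.LC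

universe v

set_option linter.unusedSectionVars false

namespace Vale.Agent.P251.Q

open MultTheory

/-- the projective space of dimension `N - 1` -/
abbrev CPo (N : ℕ) : LC := LC.of (Gr 1 (Fin N))

/-- `V ⊗ λ` over `Y × CP^(N-1)` -/
noncomputable def twist {Y : LC} {ι : Type} [Fintype ι] (V : Bun Y ι) (N : ℕ) :
    Bun (Y ⊗ CPo N : LC) (ι × Fin N) :=
  (V.pullback (fstC Y (CPo N))).tensor ((taut 1 (Fin N)).pullback (sndC Y (CPo N)))

theorem twist_isRank {Y : LC} {ι : Type} [Fintype ι] {V : Bun Y ι} {n : ℕ} (hV : V.IsRank n)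
    (N : ℕ) : (twist V N).IsRank n := by
  have h := Bun.IsRank.tensor (V := V.pullback (fstC Y (CPo N)))
    (W := (taut 1 (Fin N)).pullback (sndC Y (CPo N))) (n := n) (m := 1)
    (fun p => hV _) (fun p => taut_isRank 1 (Fin N) _)
  rwa [mul_one] at h

section

variable {E : MultTheory.{v}} (o : Orientation E)
variable {Y Y' : LC} [CompactSpace Y] [CompactSpace Y'] {ι κ : Type} [Fintype ι] [Fintype κ]
variable {n : ℕ}

/-- The coefficients of `e(V ⊗ λ)`. -/
noncomputable def Orientation.co [E.Good Y] (V : Bun Y ι) (hV : V.IsRank n) (N : ℕ)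
    [E.Good (CPo N)] : Fin N → E.U Y :=
  (Equiv.ofBijective (E.comb (fun i : Fin N => o.z (Fin N) ^ (i : ℕ)) Y)
    (freeOn_z o N (Fin N) (by simp) Y)).symm (o.e (twist V N) (twist_isRank hV N))

theorem comb_co [E.Good Y] (V : Bun Y ι) (hV : V.IsRank n) (N : ℕ) [E.Good (CPo N)] :
    E.comb (fun i : Fin N => o.z (Fin N) ^ (i : ℕ)) Y (o.co V hV N) =
      o.e (twist V N) (twist_isRank hV N) :=
  (Equiv.ofBijective (E.comb (fun i : Fin N => o.z (Fin N) ^ (i : ℕ)) Y)
    (freeOn_z o N (Fin N) (by simp) Y)).apply_symm_apply _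

theorem comb_injective [E.Good Y] (N : ℕ) [E.Good (CPo N)] :
    Function.Injective (E.comb (fun i : Fin N => o.z (Fin N) ^ (i : ℕ)) Y) :=
  (freeOn_z o N (Fin N) (by simp) Y).1

theorem co_unique [E.Good Y] (V : Bun Y ι) (hV : V.IsRank n) (N : ℕ) [E.Good (CPo N)]
    {a : Fin N → E.U Y} (ha : E.comb (fun i : Fin N => o.z (Fin N) ^ (i : ℕ)) Y a =
      o.e (twist V N) (twist_isRank hV N)) : o.co V hV N = a :=
  comb_injective o N ((comb_co o V hV N).trans ha.symm)

/-- the projection `f × id` -/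
def twistC (f : C(Y', Y)) (N : ℕ) : C((Y' ⊗ CPo N : LC), (Y ⊗ CPo N : LC)) :=
  pairC (f.comp (fstC Y' (CPo N))) (sndC Y' (CPo N))

theorem twist_pullback (f : C(Y', Y)) (V : Bun Y ι) (N : ℕ) :
    twist (V.pullback f) N = (twist V N).pullback (twistC f N) := rfl

/-- naturality of the coefficients -/
theorem co_pullback [E.Good Y] [E.Good Y'] (f : C(Y', Y)) (V : Bun Y ι) (hV : V.IsRank n)
    (hV' : (V.pullback f).IsRank n) (N : ℕ) [E.Good (CPo N)] [E.Good (twist V N).tot]
    [E.Good (twist (V.pullback f) N).tot] (i : Fin N) :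
    o.co (V.pullback f) hV' N i = E.map (cmap f) (o.co V hV N i) := by
  have h : o.co (V.pullback f) hV' N = fun i => E.map (cmap f) (o.co V hV N i) := by
    apply co_unique
    rw [comb_map, comb_co]
    have : E.Good ((twist V N).pullback (twistC f N)).tot := by
      rw [← twist_pullback]; infer_instance
    have h1 := e_pullback o (twistC f N) (twist V N) (twist_isRank hV N)
      (twist_isRank hV' N)
    refine Eq.trans ?_ h1.symm
    exact congrArg (fun k => E.map k _) (hom_ext fun _ => rfl)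
  rw [h]

/-- invariance under isomorphism -/
theorem co_isom [E.Good Y] {V : Bun Y ι} {V' : Bun Y κ} (φ : V.Isom V') (hV : V.IsRank n)
    (hV' : V'.IsRank n) (N : ℕ) [E.Good (CPo N)] [E.Good (twist V N).tot]
    [E.Good (twist V' N).tot] : o.co V hV N = o.co V' hV' N := by
  apply co_unique
  rw [comb_co]
  have φ' : (twist V N).Isom (twist V' N) :=
    Bun.Isom.tensor (φ.pullback (fstC Y (CPo N))) (Bun.Isom.refl _)
  exact (e_isom o φ' (twist_isRank hV N) (twist_isRank hV' N)).symm

/-- the coefficients are homogeneous -/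
theorem co_deg [E.Good Y] (V : Bun Y ι) (hV : V.IsRank n) (N : ℕ) [E.Good (CPo N)]
    [E.Good (twist V N).tot] (i : Fin N) : o.co V hV N i ∈ E.deg Y ((n : ℤ) - (i : ℕ)) := by
  have hz : ∀ j : ℕ, o.z (Fin N) ^ j ∈ E.deg (CPo N) (j : ℤ) := by
    intro j
    induction j with
    | zero => rw [pow_zero]; exact oneU_deg _
    | succ j ih =>
      rw [pow_succ]
      exact mul_deg ih (z_deg o (Fin N))
  have h : o.co V hV N = fun i : Fin N => E.proj Y ((n : ℤ) - (i : ℕ)) (o.co V hV N i) := by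
    apply co_unique
    have h1 : E.proj (Y ⊗ CPo N) n (o.e (twist V N) (twist_isRank hV N)) =
        o.e (twist V N) (twist_isRank hV N) := proj_of_mem (e_deg o _ _)
    rw [← h1, ← comb_co, comb_apply, comb_apply, map_sum]
    refine sum_congr rfl fun j _ => ?_
    have h2 := map_proj_of_deg (E := E) (X := Y) (Y := Y ⊗ CPo N)
      (f := (AddMonoidHom.flip E.cross) (o.z (Fin N) ^ (j : ℕ))) (m := (j : ℕ))
      (fun k x hx => cross_deg hx (hz j)) ((n : ℤ) - (j : ℕ)) (o.co V hV N j)
    rw [sub_add_cancel] at h2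
    exact h2.symm
  rw [h]
  exact proj_mem _ _

end

end Vale.Agent.P251.Q
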