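import Vale.Agent.P251.Q.LazWt
import Vale.Agent.P251.Q.QThm

/-!
# P251, part Q: the Lazard ring as coefficients

`CoeffData.ofLaw E F hF` : the coefficient data given by a homogeneous law over the coefficient ring.
-/

open Vale.Agent.P251.F

universe v

namespace Vale.Agent.P251.Q

variable (E : MultTheory.{v})

theorem isMulGr_degA : IsMulGr E.degA where
  one_mem := E.one_deg
  mul_mem i j c c' hc hc' := MultTheory.map_deg _ (MultTheory.cross_deg hc hc')

/-- The coefficient data of a homogeneous formal group law over the coefficient ring. -/
noncomputable def CoeffData.ofLaw (F : Law E.A) (hF : HomPS E.degA 1 F.ps) : CoeffData E Laz where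
  gC := lazDeg
  mulGr := isMulGr_lazDeg
  total := lazDeg_total
  φ := Laz.lift F
  φ_deg i c hc := by
    have := lift_mem_of_isWt (isMulGr_degA E) hF (mem_lazDeg.1 hc)
    rwa [neg_neg] at this
  F := Laz.univ.toFG
  homF := homPS_univ

end Vale.Agent.P251.Q
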