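import Vale.Agent.P251.Q.FGL
import Vale.Agent.P251.Q.LensInst
import Vale.Agent.P251.Q.LazData

/-!
# P251, part Q: the formal group law of line bundles over compact bases

* `e_eq_lc` : `o.e V hV = o.lc (lineCls V hV)`;
* `hasLaw o : o.HasLaw o.law.toFG`;
* `homPS_law` : the law is homogeneous;
* `o.coeff : CoeffData E Laz` and `hasLaw_coeff : o.HasLaw (o.coeff.F.map o.coeff.φ)`.
-/

set_option linter.unusedSectionVars false

open CategoryTheory MonoidalCategory Matrix Topology
open Vale.Agent.P251.G Vale.Agent.P251.G.LC Vale.Agent.P251.G.Bun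
open Vale.Agent.P217 Vale.Agent.P251.F

universe v

noncomputable section

namespace Vale.Agent.P251.Q

open MultTheory

variable {E : MultTheory.{v}} (o : Orientation E)

section lc

variable {B : LC} [CompactSpace B] [hB : GoodBase E B] {ι κ : Type} [Fintype ι] [Fintype κ]

theorem e_eq_lc (V : Bun B ι) (hV : V.IsRank 1) : o.e V hV = o.lc (lineCls V hV) :=
  e_eq_map_z o V hV

theorem lineCls_tensor (L : Bun B ι) (L' : Bun B κ) (hL : L.IsRank 1) (hL' : L'.IsRank 1)
    (hLL : (L.tensor L').IsRank 1) :
    lineCls (L.tensor L') hLL = tens (lineCls L hL) (lineCls L' hL') :=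
  line_ext fun _ => rfl

end lc

/-- The law of helper `Q/FGL.lean` is the law of the Euler classes of line bundles. -/
theorem hasLaw : o.HasLaw o.law.toFG := by
  intro B _ _ ι κ _ _ L L' hL hL' hLL
  rw [e_eq_lc, e_eq_lc, e_eq_lc, lineCls_tensor L L' hL hL' hLL]
  exact lc_tens o (lineCls L hL) (lineCls L' hL')

theorem homPS_law : HomPS E.degA 1 o.law.ps := by
  intro m
  rw [law_ps, coeff_ser]
  have h1 : (1 : ℤ) - (m.degree : ℤ) = 1 - (m 0 : ℤ) - (m 1 : ℤ) := by
    rw [Finsupp.degree_eq_sum, Fin.sum_univ_two]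
    push_cast
    ring
  rw [h1]
  exact lawCoeff_deg o (m 0) (m 1)

/-- The Lazard ring as coefficients of an oriented theory. -/
def Orientation.coeff : CoeffData E Laz := CoeffData.ofLaw E o.law (homPS_law o)

theorem coeff_F_map : o.coeff.F.map o.coeff.φ = o.law.toFG := by
  have h := Laz.univ_map_lift o.law
  exact congrArg Law.toFG h

theorem hasLaw_coeff : o.HasLaw (o.coeff.F.map o.coeff.φ) := by
  rw [coeff_F_map]
  exact hasLaw o

/-- The lens spaces of an oriented theory, with the Lazard ring as coefficients. -/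
def Orientation.lensTower {p : ℕ} (hp : p ≠ 0) : LensData E o.coeff p :=
  lensData o o.coeff (hasLaw_coeff o) hp

end Vale.Agent.P251.Q
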