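import Vale.Agent.P251.Q.Ring
import Vale.Agent.P251.G.Glue

/-!
# P251, part Q: long exact sequences

A cofibre sequence `CofSeq i q : A ⟶ B ⟶ C` (`i` a cofibration, `q` its strict cofibre) has a boundary
morphism `h.bd : C ⟶ A ⊗ ℝ` in `LC`, and for every multiplicative theory the sequence

`U(B ⊗ ℝ) ⟶ U(A ⊗ ℝ) ⟶ U(C) ⟶ U(B) ⟶ U(A)`

is exact (`CofSeq.exact_mid`, `CofSeq.exact_cof`, `CofSeq.exact_susp`).
-/

open CategoryTheory MonoidalCategory OnePoint Topology Limits
open Vale.Agent.P251.G Vale.Agent.P251.G.LC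

universe v

namespace Vale.Agent.P251.Q

/-! ### Cofibre sequences -/

section CofSeq

variable {A B C A' B' C' : LC}

/-- `A ⟶ B ⟶ C` is a cofibre sequence: `i` is a cofibration, `C` the strict cofibre. -/
structure CofSeq (i : A ⟶ B) (q : B ⟶ C) : Prop where
  cofib : Cofib i
  isPushout : IsPushout i (0 : A ⟶ LC.of Empty) q (0 : LC.of Empty ⟶ C)

variable {i : A ⟶ B} {q : B ⟶ C} {i' : A' ⟶ B'} {q' : B' ⟶ C'}

namespace CofSeq

/-- the standard example -/
theorem std (hi : Cofib i) : CofSeq i (cofMap i) := ⟨hi, isPushout_cofMap i⟩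

/-- closed subspaces and their open complements -/
theorem of_closed_open {Z Y V : LC} (z : Z → Y) (hz : IsClosedEmbedding z) (u : V → Y)
    (hu : IsOpenEmbedding u) (h : IsCompl (Set.range z) (Set.range u))
    (hi : Cofib (ofClosed z hz)) : CofSeq (ofClosed z hz) (ofOpen u hu) :=
  ⟨hi, isPushout_closed_open z hz u hu h isZero_empty 0 0⟩

/-- mapping cones -/
theorem cone {X Y : LC} (f : X ⟶ Y) : CofSeq (coneInr f) (coneConn f) :=
  ⟨cofib_coneInr f, isPushout_coneConn f isZero_empty 0 0⟩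

theorem base (X : LC) : CofSeq (coneBase X) (X ◁ collHH) :=
  ⟨cofib_coneBase X, isPushout_collHH isZero_empty 0 0⟩

theorem w (h : CofSeq i q) : i ≫ q = 0 := by rw [h.isPushout.w, zero_comp]

theorem epi (h : CofSeq i q) : Epi q := by
  refine ⟨fun a b hab => h.isPushout.hom_ext hab ?_⟩
  exact isZero_empty.eq_of_src _ _

/-- the isomorphism with the standard cofibre -/
noncomputable def iso (h : CofSeq i q) : cof i ≅ C := cofIso isZero_empty h.isPushout

@[reassoc]
theorem cofMap_iso (h : CofSeq i q) : cofMap i ≫ h.iso.hom = q := cofMap_cofIso _ _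

theorem whiskerLeft (h : CofSeq i q) (X : LC) : CofSeq (X ◁ i) (X ◁ q) := by
  refine ⟨h.cofib.whiskerLeft X, ?_⟩
  have h1 := isPushout_whiskerLeft X h.cofib.injective h.isPushout
  have : IsEmpty (X ⊗ LC.of Empty : LC) := inferInstanceAs (IsEmpty (X × Empty))
  have e : (X ⊗ LC.of Empty : LC) ≅ LC.of Empty :=
    ⟨0, 0, by rw [eq_zero_of_empty (𝟙 (X ⊗ LC.of Empty)), comp_zero],
      by rw [eq_zero_of_empty (𝟙 (LC.of Empty)), comp_zero]⟩
  refine IsPushout.of_iso h1 (Iso.refl _) (Iso.refl _) e (Iso.refl _) ?_ ?_ ?_ ?_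
  · simp
  · exact isZero_empty.eq_of_tgt _ _
  · simp
  · rw [eq_zero_of_empty (X ◁ (0 : LC.of Empty ⟶ C)), zero_comp, comp_zero]

theorem comp_iso (h : CofSeq i q) (e : C ≅ C') : CofSeq i (q ≫ e.hom) := by
  refine ⟨h.cofib, ?_⟩
  refine IsPushout.of_iso h.isPushout (Iso.refl _) (Iso.refl _) (Iso.refl _) e ?_ ?_ ?_ ?_
  · simp
  · exact isZero_empty.eq_of_tgt _ _
  · simp
  · exact isZero_empty.eq_of_src _ _

/-- transport along isomorphisms -/
theorem of_iso (h : CofSeq i q) (eA : A ≅ A') (eB : B ≅ B') (eC : C ≅ C')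
    (h1 : i ≫ eB.hom = eA.hom ≫ i') (h2 : q ≫ eC.hom = eB.hom ≫ q') : CofSeq i' q' := by
  refine ⟨?_, ?_⟩
  · have h3 : i' = eA.inv ≫ i ≫ eB.hom := by rw [h1, Iso.inv_hom_id_assoc]
    rw [h3]
    exact (h.cofib.comp_iso eB).iso_comp eA.symm
  · refine IsPushout.of_iso h.isPushout eA eB (Iso.refl _) eC h1 ?_ h2 ?_
    · exact isZero_empty.eq_of_tgt _ _
    · exact isZero_empty.eq_of_src _ _

theorem whiskerRight (h : CofSeq i q) (X : LC) : CofSeq (i ▷ X) (q ▷ X) := by
  refine (h.whiskerLeft X).of_iso (β_ X A) (β_ X B) (β_ X C) ?_ ?_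
  · exact BraidedCategory.braiding_naturality_right X i
  · exact BraidedCategory.braiding_naturality_right X q

/-- a homotopy inverse of `coneToCof` -/
noncomputable def cofToCone (h : Cofib i) : LC.cof i ⟶ LC.cone i := (isHEquiv_coneToCof h).choose

theorem coneToCof_cofToCone (h : Cofib i) : Homotopic (coneToCof i ≫ cofToCone h) (𝟙 _) :=
  (isHEquiv_coneToCof h).choose_spec.1

theorem cofToCone_coneToCof (h : Cofib i) : Homotopic (cofToCone h ≫ coneToCof i) (𝟙 _) :=
  (isHEquiv_coneToCof h).choose_spec.2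

/-- The boundary morphism of a cofibre sequence. -/
noncomputable def bd (h : CofSeq i q) : C ⟶ A ⊗ RR :=
  h.iso.inv ≫ cofToCone h.cofib ≫ coneConn i

theorem coneToCof_bd (h : CofSeq i q) :
    Homotopic (coneToCof i ≫ h.iso.hom ≫ h.bd) (coneConn i) := by
  unfold bd
  rw [Iso.hom_inv_id_assoc, ← Category.assoc]
  exact ((coneToCof_cofToCone h.cofib).comp_right _).trans
    (Homotopic.of_eq (Category.id_comp _))

/-- the characterization of the boundary morphism -/
theorem bd_unique (h : CofSeq i q) {d : C ⟶ A ⊗ RR}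
    (hd : Homotopic (coneToCof i ≫ h.iso.hom ≫ d) (coneConn i)) : Homotopic d h.bd := by
  have h1 : Homotopic (h.iso.inv ≫ cofToCone h.cofib ≫ coneToCof i ≫ h.iso.hom ≫ d) d := by
    have h2 := Homotopic.comp_left h.iso.inv
      ((cofToCone_coneToCof h.cofib).comp_right (h.iso.hom ≫ d))
    refine (Homotopic.of_eq ?_).trans (h2.trans (Homotopic.of_eq ?_))
    · simp only [Category.assoc]
    · simp only [Category.id_comp, Iso.inv_hom_id_assoc]
  exact h1.symm.trans (Homotopic.comp_left _ (Homotopic.comp_left _ hd))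

theorem q_bd (h : CofSeq i q) : Homotopic (q ≫ h.bd) 0 := by
  have h1 := Homotopic.comp_left (coneInr i) h.coneToCof_bd
  rw [coneInr_conn, coneInr_coneToCof_assoc, h.cofMap_iso_assoc] at h1
  exact h1

/-- naturality of the boundary morphism -/
theorem bd_naturality (h : CofSeq i q) (h' : CofSeq i' q') (a : A ⟶ A') (b : B ⟶ B')
    (c : C ⟶ C') (hab : i ≫ b = a ≫ i') (hbc : q ≫ c = b ≫ q') :
    Homotopic (c ≫ h'.bd) (h.bd ≫ a ▷ RR) := by
  have key : coneMap a b hab ≫ coneToCof i' ≫ h'.iso.hom = coneToCof i ≫ h.iso.hom ≫ c := by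
    apply cone_hom_ext
    · rw [coneInl_map_assoc, coneInl_coneToCof_assoc, coneInl_coneToCof_assoc, zero_comp,
        zero_comp, comp_zero]
    · rw [coneInr_map_assoc, coneInr_coneToCof_assoc, coneInr_coneToCof_assoc, h'.cofMap_iso,
        h.cofMap_iso_assoc, hbc]
  have h1 : Homotopic (coneToCof i ≫ h.iso.hom ≫ c ≫ h'.bd)
      (coneToCof i ≫ h.iso.hom ≫ h.bd ≫ a ▷ RR) := by
    have e1 : coneToCof i ≫ h.iso.hom ≫ c ≫ h'.bd =
        coneMap a b hab ≫ coneToCof i' ≫ h'.iso.hom ≫ h'.bd := by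
      have := congrArg (· ≫ h'.bd) key
      simp only [Category.assoc] at this
      exact this.symm
    have e2 : coneToCof i ≫ h.iso.hom ≫ h.bd ≫ a ▷ RR =
        (coneToCof i ≫ h.iso.hom ≫ h.bd) ≫ a ▷ RR := by simp only [Category.assoc]
    rw [e1, e2]
    refine (Homotopic.comp_left _ h'.coneToCof_bd).trans ?_
    rw [coneMap_conn]
    exact (h.coneToCof_bd.comp_right _).symm
  have h2 : ∀ k : C ⟶ A' ⊗ RR, Homotopic
      (h.iso.inv ≫ cofToCone h.cofib ≫ coneToCof i ≫ h.iso.hom ≫ k) k := by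
    intro k
    have h2 := Homotopic.comp_left h.iso.inv
      ((cofToCone_coneToCof h.cofib).comp_right (h.iso.hom ≫ k))
    refine (Homotopic.of_eq ?_).trans (h2.trans (Homotopic.of_eq ?_))
    · simp only [Category.assoc]
    · simp only [Category.id_comp, Iso.inv_hom_id_assoc]
  exact (h2 _).symm.trans ((Homotopic.comp_left _ (Homotopic.comp_left _ h1)).trans (h2 _))

end CofSeq

end CofSeq

/-! ### Exactness -/

namespace MultTheory

variable {E : MultTheory.{v}}
variable {A B C : LC} [hA : E.Good A] [hB : E.Good B] {i : A ⟶ B} {q : B ⟶ C}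

@[simp] theorem map_zero_mor {X Y : LC} [hX : E.Good X] [hY : E.Good Y] (y : E.U Y) :
    E.map (0 : X ⟶ Y) y = 0 := by
  have h : (0 : X ⟶ Y) = (0 : X ⟶ LC.of Empty) ≫ (0 : LC.of Empty ⟶ Y) := by rw [comp_zero]
  rw [h, map_comp, E.empty' (E.map (0 : LC.of Empty ⟶ Y) y), map_zero]

theorem map_eq_zero_of_homotopic {X Y : LC} [hX : E.Good X] [hY : E.Good Y] {f : X ⟶ Y}
    (h : Homotopic f 0) (y : E.U Y) : E.map f y = 0 := by
  rw [map_homotopic h, map_zero_mor]

/-- the cohomology of a contractible object vanishes -/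
theorem eq_zero_of_contr {X : LC} [hX : E.Good X] (h : Contr X) (x : E.U X) : x = 0 := by
  have := map_eq_zero_of_homotopic h x
  rwa [map_id] at this

theorem map_bijective_of_isHEquiv {X Y : LC} [hX : E.Good X] [hY : E.Good Y] {f : X ⟶ Y}
    (h : IsHEquiv f) : Function.Bijective (E.map f) := by
  obtain ⟨g, h1, h2⟩ := h
  refine ⟨?_, ?_⟩
  · refine Function.LeftInverse.injective (g := E.map g) fun y => ?_
    rw [← map_comp, map_homotopic h2, map_id]
  · intro x
    exact ⟨E.map g x, by rw [← map_comp, map_homotopic h1, map_id]⟩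

instance {X : LC} [hX : E.Good X] : E.Good (X ⊗ HH) := Good.of_contr E (contr_tensor_HH X)
instance : E.Good HH := Good.of_FC E FC.halfLine
theorem _root_.Vale.Agent.P251.Q.hequiv_II : HEquiv (𝟙_ LC) II := by
  refine ⟨point (X := II) (0 : unitInterval),
    ofCompact (X := II) (Y := LC.of Unit) (fun _ => ()) continuous_const, ?_, ?_⟩
  · exact Homotopic.of_eq (hom_ext fun x => rfl)
  · refine ⟨ofCompact (X := LC.of (unitInterval × unitInterval)) (Y := II)
      (fun p => p.1 * p.2) continuous_mul, ?_, ?_⟩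
    · apply hom_ext
      intro x
      exact congrArg (fun t : unitInterval => (t : OnePoint unitInterval)) (mul_zero (x : unitInterval))
    · apply hom_ext
      intro x
      exact congrArg (fun t : unitInterval => (t : OnePoint unitInterval)) (mul_one (x : unitInterval))

instance : E.Good II := Good.of_hEquiv E hequiv_II

theorem Good.cone {X Y : LC} [hX : E.Good X] [hY : E.Good Y] (f : X ⟶ Y) :
    E.Good (LC.cone f) := by
  have : E.Good (LC.cof (coneInr f)) := Good.of_iso E (cofConeInr f).symm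
  exact Good.ext E (cofib_coneInr f)

theorem _root_.Vale.Agent.P251.Q.CofSeq.good (h : CofSeq i q) : E.Good C := by
  have := Good.cof E h.cofib
  exact Good.of_iso E h.iso

/-- exactness at `U B` -/
theorem exact_mid (h : CofSeq i q) (y : E.U B) :
    E.map i y = 0 ↔ ∃ c : E.U C, E.map q c = y := by
  have := h.good (E := E)
  have := Good.cof E h.cofib
  constructor
  · intro hy
    obtain ⟨o, ho⟩ := exact i h.cofib y hy
    refine ⟨E.map h.iso.inv o, ?_⟩
    have h1 : q ≫ h.iso.inv = cofMap i := by rw [Iso.comp_inv_eq, h.cofMap_iso]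
    rw [← ho, ← map_comp, h1]
  · rintro ⟨c, rfl⟩
    rw [← map_comp, h.w, map_zero_mor]

theorem map_coneToCof_injective (h : CofSeq i q) :
    Function.Injective (E.map (coneToCof i ≫ h.iso.hom)) := by
  have := h.good (E := E)
  have := Good.cof E h.cofib
  have : E.Good (LC.cone i) := Good.cone i
  exact (map_bijective_of_isHEquiv ((isHEquiv_coneToCof h.cofib).comp (isHEquiv_of_iso _))).1

/-- exactness at `U C` -/
theorem exact_cof (h : CofSeq i q) (c : E.U C) :
    E.map q c = 0 ↔ ∃ x : E.U (A ⊗ RR), E.map h.bd x = c := by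
  have := h.good (E := E)
  have := Good.cof E h.cofib
  have : E.Good (LC.cone i) := Good.cone i
  constructor
  · intro hc
    have h1 : E.map (coneInr i) (E.map (coneToCof i ≫ h.iso.hom) c) = 0 := by
      rw [← map_comp, coneInr_coneToCof_assoc, h.cofMap_iso, hc]
    obtain ⟨x, hx⟩ := (exact_mid (CofSeq.cone i) _).mp h1
    refine ⟨x, map_coneToCof_injective h ?_⟩
    rw [← map_comp, Category.assoc, map_homotopic h.coneToCof_bd, hx]
  · rintro ⟨x, rfl⟩
    rw [← map_comp]
    exact map_eq_zero_of_homotopic h.q_bd x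

/-- the exact sequence is natural -/
theorem map_bd {A' B' C' : LC} [hA' : E.Good A'] [hB' : E.Good B'] {i' : A' ⟶ B'} {q' : B' ⟶ C'}
    (h : CofSeq i q) (h' : CofSeq i' q') (a : A ⟶ A') (b : B ⟶ B')
    (c : C ⟶ C') (hab : i ≫ b = a ≫ i') (hbc : q ≫ c = b ≫ q') (x : E.U (A' ⊗ RR)) :
    E.map c (E.map h'.bd x) = E.map h.bd (E.map (a ▷ RR) x) := by
  have := h.good (E := E)
  have := h'.good (E := E)
  rw [← map_comp, ← map_comp]
  exact map_homotopic (h.bd_naturality h' a b c hab hbc) x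

/-! ### Additivity -/

theorem _root_.Vale.Agent.P251.Q.CofSeq.sum (X Y : LC) :
    CofSeq (sumInl X Y) (sumDesc (0 : X ⟶ Y) (𝟙 Y)) := by
  have h1 : IsPushout (0 : LC.of Empty ⟶ Y) (0 : LC.of Empty ⟶ X) (sumInr X Y) (sumInl X Y) :=
    (isPushout_sum X Y isZero_empty 0 0).flip
  refine ⟨(cofib_of_isEmpty (0 : LC.of Empty ⟶ Y)).pushout h1, ?_⟩
  refine ⟨⟨by rw [sumInl_desc, zero_comp]⟩, ⟨PushoutCocone.IsColimit.mk _
    (fun s => sumInr X Y ≫ s.inl) ?_ ?_ ?_⟩⟩
  · intro s
    apply sum_hom_ext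
    · rw [← Category.assoc, sumInl_desc, zero_comp, s.condition, zero_comp]
    · rw [← Category.assoc, sumInr_desc, Category.id_comp]
  · intro s
    exact isZero_empty.eq_of_src _ _
  · intro s m hm _
    rw [← hm, ← Category.assoc, sumInr_desc, Category.id_comp]

theorem goodSum (X Y : LC) [hX : E.Good X] [hY : E.Good Y] : E.Good (LC.sum X Y) := by
  have h := CofSeq.sum X Y
  have : E.Good (cof (sumInl X Y)) := Good.of_iso E h.iso.symm
  exact Good.ext E h.cofib

/-- additivity -/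
theorem sum_decomp {X Y : LC} [hX : E.Good X] [hY : E.Good Y] (u : E.U (LC.sum X Y)) :
    u = E.map (sumDesc (𝟙 X) (0 : Y ⟶ X)) (E.map (sumInl X Y) u) +
      E.map (sumDesc (0 : X ⟶ Y) (𝟙 Y)) (E.map (sumInr X Y) u) := by
  have := goodSum (E := E) X Y
  have h1 : E.map (sumInl X Y) (u - E.map (sumDesc (𝟙 X) (0 : Y ⟶ X)) (E.map (sumInl X Y) u)) =
      0 := by
    rw [map_sub, ← map_comp, sumInl_desc, map_id, sub_self]
  obtain ⟨t, ht⟩ := (exact_mid (CofSeq.sum X Y) _).mp h1
  have h2 : t = E.map (sumInr X Y) u := by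
    have h3 := congrArg (E.map (sumInr X Y)) ht
    rw [← map_comp, sumInr_desc, map_id, map_sub, ← map_comp, sumInr_desc, map_zero_mor,
      sub_zero] at h3
    exact h3
  rw [← h2, ht]
  abel

/-- exactness at `U (A ⊗ ℝ)` -/
theorem exact_susp (h : CofSeq i q) (x : E.U (A ⊗ RR)) :
    E.map h.bd x = 0 ↔ ∃ y : E.U (B ⊗ RR), E.map (i ▷ RR) y = x := by
  have hC := h.good (E := E)
  have := Good.cof E h.cofib
  have : E.Good (LC.cone i) := Good.cone i
  have : E.Good (LC.cone q) := Good.cone q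
  have := goodSum (E := E) C (A ⊗ RR)
  constructor
  · intro hx
    -- the map `s : A ⊗ ℝ ⟶ cone q`
    have hs0 : coneBase A ≫ (i ▷ HH) ≫ coneInl q = 0 := by
      rw [coneBase_naturality_assoc, cone_w, ← Category.assoc, h.w, zero_comp]
    let s : A ⊗ RR ⟶ LC.cone q :=
      (CofSeq.base A).isPushout.desc ((i ▷ HH) ≫ coneInl q) 0 (by rw [hs0, zero_comp])
    have hs : (A ◁ collHH) ≫ s = (i ▷ HH) ≫ coneInl q := IsPushout.inl_desc _ _ _ _
    have hepi : Epi (A ◁ collHH) := (CofSeq.base A).epi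
    have hsc : s ≫ coneConn q = i ▷ RR := by
      rw [← cancel_epi (A ◁ collHH), ← Category.assoc, hs, Category.assoc, coneInl_conn,
        MonoidalCategory.whisker_exchange]
    -- `s` is surjective in cohomology
    have ha : CofSeq (i ≫ coneBase B) (coneInl q) := by
      refine ⟨h.cofib.comp (cofib_coneBase B), ?_⟩
      have := h.isPushout.paste_horiz (isPushout_cone q)
      rwa [zero_comp] at this
    have hsurj : ∃ w : E.U (LC.cone q), E.map s w = x := by
      obtain ⟨x', hx'⟩ := (exact_cof (CofSeq.base A) x).mp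
        (eq_zero_of_contr (contr_tensor_HH A) _)
      refine ⟨E.map ha.bd x', ?_⟩
      rw [map_bd (CofSeq.base A) ha (𝟙 A) (i ▷ HH) s (by
        rw [coneBase_naturality, Category.id_comp]) hs, MonoidalCategory.id_whiskerRight, map_id,
        hx']
    obtain ⟨w, hw⟩ := hsurj
    -- the sign relation
    let p : LC.cone i ⟶ LC.sum C (A ⊗ RR) :=
      (isPushout_cone i).desc ((A ◁ collHH) ≫ sumInr C (A ⊗ RR)) (q ≫ sumInl C (A ⊗ RR)) (by
        rw [← Category.assoc, coneBase_collHH, zero_comp, ← Category.assoc, h.w, zero_comp])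
    have hp1 : coneInl i ≫ p = (A ◁ collHH) ≫ sumInr C (A ⊗ RR) := IsPushout.inl_desc _ _ _ _
    have hp2 : coneInr i ≫ p = q ≫ sumInl C (A ⊗ RR) := IsPushout.inr_desc _ _ _ _
    let m : LC.sum C (A ⊗ RR) ⟶ LC.cone q := sumDesc (coneInr q) s
    let n : LC.cone i ⟶ B ⊗ HH := (isPushout_cone i).desc (i ▷ HH) (coneBase B) (by
      rw [coneBase_naturality])
    have hn1 : coneInl i ≫ n = i ▷ HH := IsPushout.inl_desc _ _ _ _
    have hn2 : coneInr i ≫ n = coneBase B := IsPushout.inr_desc _ _ _ _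
    have hpm : p ≫ m = n ≫ coneInl q := by
      apply cone_hom_ext
      · rw [← Category.assoc, hp1, Category.assoc, sumInr_desc, hs, ← Category.assoc, hn1]
      · rw [← Category.assoc, hp2, Category.assoc, sumInl_desc, ← Category.assoc, hn2, cone_w]
    have hzero : E.map p (E.map m w) = 0 := by
      rw [← map_comp, hpm, map_comp, eq_zero_of_contr (contr_tensor_HH B) (E.map (coneInl q) w),
        map_zero]
    have hpC : p ≫ sumDesc (𝟙 C) (0 : A ⊗ RR ⟶ C) = coneToCof i ≫ h.iso.hom := by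
      apply cone_hom_ext
      · rw [← Category.assoc, hp1, Category.assoc, sumInr_desc, comp_zero,
          coneInl_coneToCof_assoc, zero_comp]
      · rw [← Category.assoc, hp2, Category.assoc, sumInl_desc, Category.comp_id,
          coneInr_coneToCof_assoc, h.cofMap_iso]
    have hpA : p ≫ sumDesc (0 : C ⟶ A ⊗ RR) (𝟙 (A ⊗ RR)) = coneConn i := by
      apply cone_hom_ext
      · rw [← Category.assoc, hp1, Category.assoc, sumInr_desc, Category.comp_id, coneInl_conn]
      · rw [← Category.assoc, hp2, Category.assoc, sumInl_desc, comp_zero, coneInr_conn]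
    have e1 : E.map (sumInl C (A ⊗ RR)) (E.map m w) = E.map (coneInr q) w := by
      rw [← map_comp, sumInl_desc]
    have e2 : E.map (sumInr C (A ⊗ RR)) (E.map m w) = x := by
      rw [← map_comp, sumInr_desc, hw]
    rw [sum_decomp (E.map m w), map_add, e1, e2, ← map_comp, ← map_comp p, hpC, hpA] at hzero
    have h3 : E.map (coneConn i) x = 0 := by
      rw [← map_homotopic h.coneToCof_bd, ← Category.assoc, map_comp, hx, map_zero]
    rw [h3, add_zero] at hzero
    have h4 : E.map (coneInr q) w = 0 :=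
      map_coneToCof_injective h (hzero.trans (map_zero _).symm)
    obtain ⟨y, hy⟩ := (exact_mid (CofSeq.cone q) w).mp h4
    exact ⟨y, by rw [← hsc, map_comp, hy, hw]⟩
  · rintro ⟨y, rfl⟩
    have h' : CofSeq (𝟙 B) (cofMap (𝟙 B)) := CofSeq.std (cofib_of_isIso (𝟙 B))
    have hemp : IsEmpty (cof (𝟙 B)) := ⟨fun u => u.2 ⟨(u.1 : B), rfl⟩⟩
    have := h'.good (E := E)
    rw [← map_bd h h' i (𝟙 B) 0 rfl
      (by rw [comp_zero]; exact (eq_zero_to_empty _).symm), map_zero_mor]

/-! ### Homogeneous versions and consequences -/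

theorem exact_mid_deg (h : CofSeq i q) {k : ℤ} {y : E.U B} (hy : y ∈ E.deg B k)
    (h0 : E.map i y = 0) : ∃ c ∈ E.deg C k, E.map q c = y := by
  have hC := h.good (E := E)
  obtain ⟨c, rfl⟩ := (exact_mid h y).mp h0
  exact exists_deg_of_map' q hy

theorem exact_cof_deg (h : CofSeq i q) [hC : E.Good C] {k : ℤ} {c : E.U C} (hc : c ∈ E.deg C k)
    (h0 : E.map q c = 0) : ∃ x ∈ E.deg (A ⊗ RR) k, E.map h.bd x = c := by
  obtain ⟨x, rfl⟩ := (exact_cof h c).mp h0
  exact exists_deg_of_map' h.bd hc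

theorem exact_susp_deg (h : CofSeq i q) {k : ℤ} {x : E.U (A ⊗ RR)} (hx : x ∈ E.deg (A ⊗ RR) k)
    (h0 : E.map h.bd x = 0) : ∃ y ∈ E.deg (B ⊗ RR) k, E.map (i ▷ RR) y = x := by
  obtain ⟨y, rfl⟩ := (exact_susp h x).mp h0
  exact exists_deg_of_map' (i ▷ RR) hx

/-- if the restriction `U(B ⊗ ℝ) → U(A ⊗ ℝ)` is onto then `U(C) → U(B)` is injective -/
theorem map_injective_of_susp_surjective (h : CofSeq i q)
    (hs : Function.Surjective (E.map (i ▷ RR))) : Function.Injective (E.map q) := by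
  have hC := h.good (E := E)
  rw [injective_iff_map_eq_zero]
  intro c hc
  obtain ⟨x, rfl⟩ := (exact_cof h c).mp hc
  exact (exact_susp h x).mpr (hs x)

end MultTheory

end Vale.Agent.P251.Q
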