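import Vale.Agent.P251.Q.InjFG
import Mathlib.Algebra.DirectSum.Decomposition

/-!
# P251, part Q: the augmentation and the Hurewicz homomorphism

`A` is a graded ring, zero in positive (cohomological) degrees, `A_0 = ℤ`.  `ε : A → ℤ` is the
projection to degree `0`; a homogeneous law becomes additive.  From a ring homomorphism
`ρ : A → A[b_0, b_1, …]` with `ρ_* F = (strictMk b) • F` one gets `h : A → ℤ[b]` with
`h ∘ lift F = toB`.
-/

namespace Vale.Agent.P251.Q

open MvPowerSeries Vale.Agent.P217 Vale.Agent.P251.F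

section aug

variable {A : Type*} [CommRing A] {gA : ℤ → AddSubgroup A}

/-- A graded ring with `A_k = 0` for `k > 0` and `A_0 = ℤ`. -/
structure IsConnGr (gA : ℤ → AddSubgroup A) : Prop extends IsMulGr gA where
  total : ∀ x : A, x ∈ ⨆ i, gA i
  indep : iSupIndep gA
  pos : ∀ k : ℤ, 0 < k → ∀ x ∈ gA k, x = 0
  deg_zero : ∀ x ∈ gA 0, ∃ a : ℤ, x = (a : A)
  inj : ∀ a : ℤ, (a : A) = 0 → a = 0

/-- the elements of negative degree -/
def negPart (gA : ℤ → AddSubgroup A) : AddSubgroup A := ⨆ i : {i : ℤ // i < 0}, gA i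

theorem mem_negPart {k : ℤ} (hk : k < 0) {x : A} (hx : x ∈ gA k) : x ∈ negPart gA :=
  (le_iSup (fun i : {i : ℤ // i < 0} => gA i) ⟨k, hk⟩) hx

theorem IsConnGr.exists_int (h : IsConnGr gA) (x : A) : ∃ a : ℤ, x - (a : A) ∈ negPart gA := by
  have hx := h.total x
  induction hx using AddSubgroup.iSup_induction' with
  | hp i x hx =>
    rcases lt_trichotomy i 0 with hi | hi | hi
    · exact ⟨0, by simpa using mem_negPart hi hx⟩
    · subst hi
      obtain ⟨a, rfl⟩ := h.deg_zero x hx
      exact ⟨a, by rw [sub_self]; exact zero_mem _⟩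
    · rw [h.pos i hi x hx]
      exact ⟨0, by simp⟩
  | h1 => exact ⟨0, by simp⟩
  | hadd x y _ _ hx hy =>
    obtain ⟨a, ha⟩ := hx
    obtain ⟨b, hb⟩ := hy
    refine ⟨a + b, ?_⟩
    have e : x + y - ((a + b : ℤ) : A) = (x - a) + (y - b) := by push_cast; ring
    rw [e]
    exact add_mem ha hb

theorem IsConnGr.int_eq_zero (h : IsConnGr gA) {a : ℤ} (ha : (a : A) ∈ negPart gA) : a = 0 := by
  apply h.inj
  have h0 : (a : A) ∈ gA 0 := by
    rw [← zsmul_one]
    exact zsmul_mem h.one_mem a
  have h1 : (a : A) ∈ ⨆ (i) (_ : i ≠ 0), gA i := by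
    refine (iSup_le fun i : {i : ℤ // i < 0} => ?_ : negPart gA ≤ _) ha
    exact le_iSup₂_of_le (f := fun i (_ : i ≠ 0) => gA i) i.1 i.2.ne le_rfl
  have := (h.indep 0).le_bot ⟨h0, h1⟩
  simpa using this

theorem IsConnGr.mul_negPart (h : IsConnGr gA) (x : A) {y : A} (hy : y ∈ negPart gA) :
    x * y ∈ negPart gA := by
  have hx := h.total x
  induction hx using AddSubgroup.iSup_induction' with
  | hp i x hx =>
    unfold negPart at hy
    induction hy using AddSubgroup.iSup_induction' with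
    | hp j y hy =>
      rcases lt_or_ge 0 i with hi | hi
      · rw [h.pos i hi x hx, zero_mul]; exact zero_mem _
      · exact mem_negPart (by have := j.2; omega) (h.mul_mem _ _ _ _ hx hy)
    | h1 => rw [mul_zero]; exact zero_mem _
    | hadd y y' _ _ hy hy' => rw [mul_add]; exact add_mem hy hy'
  | h1 => rw [zero_mul]; exact zero_mem _
  | hadd x x' _ _ hx hx' => rw [add_mul]; exact add_mem hx hx'

/-- the augmentation `A → A_0 = ℤ` -/
noncomputable def IsConnGr.aug (h : IsConnGr gA) : A →+* ℤ where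
  toFun x := (h.exists_int x).choose
  map_one' := by
    have h1 := (h.exists_int 1).choose_spec
    have h2 : ((1 - (h.exists_int 1).choose : ℤ) : A) ∈ negPart gA := by push_cast; exact h1
    have := h.int_eq_zero h2
    omega
  map_zero' := by
    have h1 := (h.exists_int 0).choose_spec
    have h2 : ((0 - (h.exists_int 0).choose : ℤ) : A) ∈ negPart gA := by push_cast; exact h1
    have := h.int_eq_zero h2
    omega
  map_add' x y := by
    have h1 := (h.exists_int x).choose_spec
    have h2 := (h.exists_int y).choose_spec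
    have h3 := (h.exists_int (x + y)).choose_spec
    have h4 : (((h.exists_int x).choose + (h.exists_int y).choose -
        (h.exists_int (x + y)).choose : ℤ) : A) ∈ negPart gA := by
      have := sub_mem (sub_mem h3 h1) h2
      convert this using 1
      push_cast; ring
    have := h.int_eq_zero h4
    omega
  map_mul' x y := by
    have h1 := (h.exists_int x).choose_spec
    have h2 := (h.exists_int y).choose_spec
    have h3 := (h.exists_int (x * y)).choose_spec
    have h4 : (((h.exists_int x).choose * (h.exists_int y).choose -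
        (h.exists_int (x * y)).choose : ℤ) : A) ∈ negPart gA := by
      have h5 := h.mul_negPart y h1
      have h6 := h.mul_negPart ((h.exists_int x).choose : A) h2
      have := sub_mem (sub_mem h3 h5) h6
      convert this using 1
      push_cast; ring
    have := h.int_eq_zero h4
    omega

theorem IsConnGr.aug_of_neg (h : IsConnGr gA) {k : ℤ} (hk : k ≠ 0) {x : A} (hx : x ∈ gA k) :
    h.aug x = 0 := by
  rcases lt_or_gt_of_ne hk with hk | hk
  · have h1 : x - (h.aug x : A) ∈ negPart gA := (h.exists_int x).choose_spec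
    apply h.int_eq_zero
    have := sub_mem (mem_negPart hk hx) h1
    rwa [sub_sub_cancel] at this
  · rw [h.pos k hk x hx, map_zero]

/-- A homogeneous law becomes additive. -/
theorem IsConnGr.map_aug (h : IsConnGr gA) {F : Law A} (hF : HomPS gA 1 F.ps) :
    F.map h.aug = addLaw ℤ := by
  apply Law.ext_ps
  rw [Law.map_ps, addLaw_ps]
  ext d
  rw [coeff_map]
  have hd : d = Finsupp.single 0 (d 0) + Finsupp.single 1 (d 1) := by
    ext i
    fin_cases i <;> simp
  by_cases h0 : d 0 + d 1 = 1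
  · rcases Nat.eq_zero_or_pos (d 0) with h1 | h1
    · have h2 : d 1 = 1 := by omega
      rw [h1, h2, Finsupp.single_zero, zero_add] at hd
      rw [hd, F.toFG.lin_coeff_Y, map_one, map_add, coeff_X, coeff_X]
      simp [Finsupp.single_left_inj]
    · have h2 : d 0 = 1 := by omega
      have h3 : d 1 = 0 := by omega
      rw [h2, h3, Finsupp.single_zero, add_zero] at hd
      rw [hd, F.toFG.lin_coeff_X, map_one, map_add, coeff_X, coeff_X]
      simp [Finsupp.single_left_inj]
  · have hdeg : d.degree = d 0 + d 1 := by rw [Finsupp.degree_eq_sum, Fin.sum_univ_two]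
    have h1 := hF d
    rw [hdeg] at h1
    rw [h.aug_of_neg (by omega) h1, map_add, coeff_X, coeff_X, if_neg, if_neg, add_zero]
    · rintro rfl; simp at h0
    · rintro rfl; simp at h0

/-- the weight `w` part of `A[b_0, b_1, …]` -/
def IsBHom (gA : ℤ → AddSubgroup A) (w : ℤ) (P : MvPolynomial ℕ A) : Prop :=
  ∀ d : ℕ →₀ ℕ, MvPolynomial.coeff d P ∈
    gA (-(w - ((Finsupp.weight (fun n : ℕ => n + 1) d : ℕ) : ℤ)))

/-- The Hurewicz homomorphism. -/
theorem IsConnGr.exists_hurewicz (h : IsConnGr gA) {F : Law A} (hF : HomPS gA 1 F.ps)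
    (ρ : A →+* MvPolynomial ℕ A)
    (hρ : F.map ρ = strictMk (MvPolynomial.X : ℕ → MvPolynomial ℕ A) • F.map MvPolynomial.C)
    (hdeg : ∀ w : ℕ, ∀ x ∈ gA (-(w : ℤ)), IsBHom gA w (ρ x)) :
    ∃ η : A →+* MvPolynomial ℕ ℤ, (∀ w : ℕ, ∀ x ∈ gA (-(w : ℤ)), η x ∈ bWt w) ∧
      η.comp (Laz.lift F) = Laz.toB := by
  refine ⟨(MvPolynomial.map h.aug).comp ρ, ?_, ?_⟩
  · intro w x hx
    rw [MvPolynomial.mem_weightedHomogeneousSubmodule]
    intro d hd
    rw [RingHom.comp_apply, MvPolynomial.coeff_map] at hd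
    by_contra hne
    apply hd
    refine h.aug_of_neg ?_ (hdeg w x hx d)
    intro h0
    apply hne
    have : ((Finsupp.weight (fun n : ℕ => n + 1) d : ℕ) : ℤ) = w := by omega
    exact_mod_cast this
  · rw [Laz.comp_lift, ← Law.map_map, hρ, InvSeries.map_smul, map_strictMk, Law.map_map]
    have h1 : (MvPolynomial.map h.aug).comp (MvPolynomial.C : A →+* MvPolynomial ℕ A) =
        (MvPolynomial.C : ℤ →+* MvPolynomial ℕ ℤ).comp h.aug := by
      ext a
      simp
    rw [h1, ← Law.map_map, h.map_aug hF, map_addLaw]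
    have h2 : (fun n : ℕ => MvPolynomial.map h.aug (MvPolynomial.X n : MvPolynomial ℕ A)) =
        (MvPolynomial.X : ℕ → MvPolynomial ℕ ℤ) := by
      funext n
      simp
    rw [h2]
    rfl

/-- `Laz / p → A / p` is injective, from `ρ : A → A[b]`. -/
theorem IsConnGr.laz_inj_mod_p (h : IsConnGr gA) {F : Law A} (hF : HomPS gA 1 F.ps)
    (ρ : A →+* MvPolynomial ℕ A)
    (hρ : F.map ρ = strictMk (MvPolynomial.X : ℕ → MvPolynomial ℕ A) • F.map MvPolynomial.C)
    (hdeg : ∀ w : ℕ, ∀ x ∈ gA (-(w : ℤ)), IsBHom gA w (ρ x)) {p : ℕ}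
    (hgen : ∀ (w : ℤ), ∀ x ∈ gA (-w), ∃ c : Laz, Cob.IsWt w (MvPolynomial.C c : Cob Laz 0) ∧
      ∃ y ∈ gA (-w), x = Laz.lift F c + p • y)
    {w : ℤ} {c : Laz} (hc : Cob.IsWt w (MvPolynomial.C c : Cob Laz 0)) {y : A} (hy : y ∈ gA (-w))
    (hcy : Laz.lift F c = p • y) :
    ∃ c' : Laz, Cob.IsWt w (MvPolynomial.C c' : Cob Laz 0) ∧ c = p • c' := by
  obtain ⟨η, hη, hη'⟩ := h.exists_hurewicz hF ρ hρ hdeg
  exact Q.laz_inj_mod_p h.toIsMulGr hF hgen η hη hη' hc hy hcy

end aug

end Vale.Agent.P251.Q
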