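import Vale.Agent.P251.Q.Powers
import Vale.Agent.P251.Q.HasLaw

/-!
# P251, part Q: the coefficients of a Thom theory modulo an odd prime

`QData E F p` : the output of part Q.
`ThomTheory.qData_of_frames` : the output of part Q from the data on the lens spaces.
-/

open CategoryTheory MonoidalCategory OnePoint Topology
open Vale.Agent.P251.G Vale.Agent.P251.G.LC Vale.Agent.P251.F

universe v

namespace Vale.Agent.P251.Q

open MultTheory

/-- The output of part Q. -/
structure QData (E : MultTheory.{v}) (F : Law E.A) (p : ℕ) : Prop where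
  /-- the coefficients are generated by the coefficients of the law modulo `p` -/
  gen (w : ℤ) (x : E.A) (hx : x ∈ E.degA (-w)) : ∃ c : Laz,
    Cob.IsWt w (MvPolynomial.C c : Cob Laz 0) ∧ ∃ y ∈ E.degA (-w), x = Laz.lift F c + p • y
  /-- the even coefficients have no `p`-torsion -/
  torsion (x : E.A) : p • x = 0 → x = 0
  /-- the odd coefficients are divisible by `p` -/
  odd_div (y : E.U RR) : ∃ z, y = p • z
  /-- the odd coefficients have no `p`-torsion -/
  odd_torsion (y : E.U RR) : p • y = 0 → y = 0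

section

variable {E : MultTheory.{v}}

/-- The components of the values of `Laz` are values of `Laz`. -/
theorem exists_proj_lift {F : Law E.A} (hF : HomPS E.degA 1 F.ps) (k : ℤ) (c : Laz) :
    ∃ c' ∈ lazDeg k, E.proj (𝟙_ LC) k (E.ofA (Laz.lift F c)) = E.ofA (Laz.lift F c') := by
  have hc := lazDeg_total c
  induction hc using AddSubgroup.iSup_induction' with
  | hp i c hc =>
    have h : E.ofA (Laz.lift F c) ∈ E.deg (𝟙_ LC) i := by
      have := lift_mem_of_isWt (isMulGr_degA E) hF (mem_lazDeg.1 hc)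
      rwa [neg_neg] at this
    by_cases hik : i = k
    · subst hik
      exact ⟨c, hc, proj_of_mem h⟩
    · refine ⟨0, zero_mem _, ?_⟩
      rw [proj_of_mem_ne hik h, map_zero]
      rfl
  | h1 =>
    refine ⟨0, zero_mem _, ?_⟩
    rw [map_zero]
    exact map_zero (E.proj (𝟙_ LC) k)
  | hadd a b _ _ ha hb =>
    obtain ⟨a', ha', ha⟩ := ha
    obtain ⟨b', hb', hb⟩ := hb
    refine ⟨a' + b', add_mem ha' hb', ?_⟩
    rw [map_add, map_add]
    have h1 : E.proj (𝟙_ LC) k (E.ofA (Laz.lift F a + Laz.lift F b)) =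
        E.proj (𝟙_ LC) k (E.ofA (Laz.lift F a)) + E.proj (𝟙_ LC) k (E.ofA (Laz.lift F b)) :=
      map_add (E.proj (𝟙_ LC) k) _ _
    rw [h1, ha, hb]
    rfl

/-- Homogeneous form of the generation modulo `p`. -/
theorem gen_homog {F : Law E.A} (hF : HomPS E.degA 1 F.ps) {p : ℕ}
    (h : ∀ a : E.A, ∃ c : Laz, ∃ b, a = Laz.lift F c + p • b) (w : ℤ) (x : E.A)
    (hx : x ∈ E.degA (-w)) : ∃ c : Laz,
      Cob.IsWt w (MvPolynomial.C c : Cob Laz 0) ∧ ∃ y ∈ E.degA (-w), x = Laz.lift F c + p • y := by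
  obtain ⟨c, b, rfl⟩ := h x
  obtain ⟨c', hc', h1⟩ := exists_proj_lift hF (-w) c
  refine ⟨c', ?_, E.toA (E.proj (𝟙_ LC) (-w) (E.ofA b)), proj_mem _ _, ?_⟩
  · have := mem_lazDeg.1 hc'
    rwa [neg_neg] at this
  · have h2 : E.proj (𝟙_ LC) (-w) (E.ofA (Laz.lift F c + p • b)) =
        E.ofA (Laz.lift F c + p • b) := proj_of_mem hx
    have h3 : E.proj (𝟙_ LC) (-w) (E.ofA (Laz.lift F c + p • b)) =
        E.ofA (Laz.lift F c') + p • E.proj (𝟙_ LC) (-w) (E.ofA b) := by
      have h4 : E.ofA (Laz.lift F c + p • b) = E.ofA (Laz.lift F c) + p • E.ofA b := rfl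
      rw [h4, map_add, h1, map_nsmul]
    exact h2.symm.trans h3

end

namespace ThomTheory

variable (E : ThomTheory.{v})

/-- Part Q from the data on the lens spaces. -/
theorem qData_of_frames {p r : ℕ} (hp : p.Prime) (hr : p = r + 1) (hr2 : 2 ≤ r)
    (L : LensData E.toMultTheory E.o.coeff p) (H : ∀ k, FrameData E.o L r k)
    (h1 : ∀ a : ℤ, p • a • E.one = 0 → a • E.one = 0) : QData E.toMultTheory E.o.law p := by
  have hpow : E.HasPowers L := E.hasPowers hr hr2 L (fun m I _ => inferInstance) H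
  obtain ⟨hg, ht, hd, hot⟩ := E.quillen hp L hpow h1
  exact ⟨gen_homog (homPS_law E.o) hg, ht, hd, hot⟩

end ThomTheory

end Vale.Agent.P251.Q
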