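import Vale.Agent.P251.Q.Exact
import Vale.Agent.P251.G.Pinch

/-!
# P251, part Q: additivity of theories

* `eq_zero_of_sum`: a class on a disjoint union which restricts to zero on both pieces is zero.
* `map_add_of_disjoint`: the sum of two morphisms with disjoint supports induces the sum.
* `map_mfold`: `mfold m ▷ Z` induces multiplication by `m`.
-/

open CategoryTheory MonoidalCategory OnePoint Limits
open Vale.Agent.P251.G Vale.Agent.P251.G.LC

universe v

namespace Vale.Agent.P251.Q

section geometry

/-- The projection of a cylinder. -/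
noncomputable def projII (Y : LC) : Y ⊗ II ⟶ Y :=
  Y ◁ (ofCompact (X := II) (Y := LC.of Unit) (fun _ => ()) continuous_const : II ⟶ 𝟙_ LC) ≫
    (ρ_ Y).hom

theorem incl_projII (t : unitInterval) (Y : LC) : incl t Y ≫ projII Y = 𝟙 Y := by
  have h : point (X := II) t ≫
      (ofCompact (X := II) (Y := LC.of Unit) (fun _ => ()) continuous_const : II ⟶ 𝟙_ LC) =
      𝟙 _ := by
    apply hom_ext
    intro x
    rfl
  rw [incl, projII, Category.assoc, ← MonoidalCategory.whiskerLeft_comp_assoc, h]
  simp

/-- The inclusion of a summand is a cofibration. -/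
theorem cofib_sumInl (X Y : LC) : Cofib (sumInl X Y) := by
  intro Z f H h
  have hp := isPushout_whiskerRight II (i := (0 : LC.of Empty ⟶ X)) (f := (0 : LC.of Empty ⟶ Y))
    (by intro a b _; rw [eq_infty_empty a, eq_infty_empty b])
    (isPushout_sum X Y isZero_empty 0 0)
  have : IsEmpty (LC.of Empty ⊗ II : LC) := inferInstanceAs (IsEmpty (Empty × unitInterval))
  refine ⟨hp.desc H (projII Y ≫ sumInr X Y ≫ f)
    ((eq_zero_of_empty _).trans (eq_zero_of_empty _).symm), ?_, hp.inl_desc _ _ _⟩
  apply sum_hom_ext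
  · rw [← incl_naturality_assoc, hp.inl_desc, h]
  · rw [← incl_naturality_assoc, hp.inr_desc, ← Category.assoc (incl 0 Y), incl_projII,
      Category.id_comp]

/-- The strict cofibre of the inclusion of a summand is the other summand. -/
noncomputable def cofSumInl (X Y : LC) : Y ≅ cof (sumInl X Y) where
  hom := sumInr X Y ≫ cofMap (sumInl X Y)
  inv := cofDesc (sumInl X Y) (sumDesc 0 (𝟙 Y)) (sumInl_desc _ _)
  hom_inv_id := by rw [Category.assoc, cofMap_cofDesc, sumInr_desc]
  inv_hom_id := by
    rw [← cancel_epi (cofMap (sumInl X Y)), cofMap_cofDesc_assoc]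
    apply sum_hom_ext
    · rw [sumInl_desc_assoc, zero_comp, Category.comp_id, comp_cofMap]
    · rw [sumInr_desc_assoc, Category.id_comp, Category.comp_id]

section wedge

variable {X Y : LC}

theorem app_sumDesc_inl {Z : LC} (f : X ⟶ Z) (g : Y ⟶ Z) (x : OnePoint X) :
    app (sumDesc f g) (app (sumInl X Y) x) = app f x := by
  rw [← app_comp, sumInl_desc]

theorem app_sumDesc_inr {Z : LC} (f : X ⟶ Z) (g : Y ⟶ Z) (y : OnePoint Y) :
    app (sumDesc f g) (app (sumInr X Y) y) = app g y := by
  rw [← app_comp, sumInr_desc]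

/-- The two collapses of `Y ⊔ Y` embed its compactification in the product. -/
theorem isClosedEmbedding_wedge (Y : LC) :
    Topology.IsClosedEmbedding (fun z : OnePoint (sum Y Y) =>
      (app (sumDesc (𝟙 Y) (0 : Y ⟶ Y)) z, app (sumDesc (0 : Y ⟶ Y) (𝟙 Y)) z)) := by
  have hl : ∀ y : OnePoint Y, app (sumDesc (𝟙 Y) (0 : Y ⟶ Y)) (app (sumInl Y Y) y) = y := by
    intro y; rw [← app_comp, sumInl_desc, app_id]
  have hl' : ∀ y : OnePoint Y, app (sumDesc (0 : Y ⟶ Y) (𝟙 Y)) (app (sumInl Y Y) y) = ∞ := by
    intro y; rw [← app_comp, sumInl_desc, app_zero]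
  have hr : ∀ y : OnePoint Y, app (sumDesc (𝟙 Y) (0 : Y ⟶ Y)) (app (sumInr Y Y) y) = ∞ := by
    intro y; rw [← app_comp, sumInr_desc, app_zero]
  have hr' : ∀ y : OnePoint Y, app (sumDesc (0 : Y ⟶ Y) (𝟙 Y)) (app (sumInr Y Y) y) = y := by
    intro y; rw [← app_comp, sumInr_desc, app_id]
  have hcases : ∀ z : OnePoint (sum Y Y), (∃ y, z = app (sumInl Y Y) y) ∨
      (∃ y, z = app (sumInr Y Y) y) := by
    intro z
    induction z using OnePoint.rec with
    | infty => exact Or.inl ⟨∞, (app_infty _).symm⟩
    | coe z =>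
      rcases z with y | y
      · exact Or.inl ⟨(y : OnePoint Y), rfl⟩
      · exact Or.inr ⟨(y : OnePoint Y), rfl⟩
  refine Continuous.isClosedEmbedding ((continuous_app _).prodMk (continuous_app _)) ?_
  intro z z' h
  rw [Prod.mk.injEq] at h
  obtain ⟨h1, h2⟩ := h
  rcases hcases z with ⟨y, rfl⟩ | ⟨y, rfl⟩ <;> rcases hcases z' with ⟨y', rfl⟩ | ⟨y', rfl⟩
  · rw [hl, hl] at h1; rw [h1]
  · rw [hl, hr] at h1; rw [hl', hr'] at h2
    rw [h1, ← h2, app_infty, app_infty]
  · rw [hr, hl] at h1; rw [hr', hl'] at h2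
    rw [h2, ← h1, app_infty, app_infty]
  · rw [hr', hr'] at h2; rw [h2]

open scoped Classical in
/-- Two morphisms with disjoint supports give a morphism to the disjoint union. -/
noncomputable def pinch (f g : X ⟶ Y) (h : ∀ x, app f x = ∞ ∨ app g x = ∞) : X ⟶ sum Y Y :=
  homMk (fun x => if app g x = ∞ then app (sumInl Y Y) (app f x) else app (sumInr Y Y) (app g x))
    (by
      rw [(isClosedEmbedding_wedge Y).isInducing.continuous_iff]
      have : ((fun z : OnePoint (sum Y Y) =>
          (app (sumDesc (𝟙 Y) (0 : Y ⟶ Y)) z, app (sumDesc (0 : Y ⟶ Y) (𝟙 Y)) z)) ∘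
          fun x => if app g x = ∞ then app (sumInl Y Y) (app f x) else
            app (sumInr Y Y) (app g x)) = fun x => (app f x, app g x) := by
        funext x
        by_cases hx : app g x = ∞
        · simp only [Function.comp_apply, if_pos hx]
          rw [app_sumDesc_inl, app_sumDesc_inl, app_id, app_zero, hx]
        · have hf : app f x = ∞ := (h x).resolve_right hx
          simp only [Function.comp_apply, if_neg hx]
          rw [app_sumDesc_inr, app_sumDesc_inr, app_id, app_zero, hf]
      rw [this]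
      exact (continuous_app f).prodMk (continuous_app g))
    (by rw [app_infty g, app_infty f, if_pos rfl, app_infty])

theorem app_pinch_of_eq (f g : X ⟶ Y) (h : ∀ x, app f x = ∞ ∨ app g x = ∞) {x : OnePoint X}
    (hx : app g x = ∞) : app (pinch f g h) x = app (sumInl Y Y) (app f x) := if_pos hx

theorem app_pinch_of_ne (f g : X ⟶ Y) (h : ∀ x, app f x = ∞ ∨ app g x = ∞) {x : OnePoint X}
    (hx : app g x ≠ ∞) : app (pinch f g h) x = app (sumInr Y Y) (app g x) := if_neg hx

theorem pinch_desc {Z : LC} (f g : X ⟶ Y) (h : ∀ x, app f x = ∞ ∨ app g x = ∞) (k : X ⟶ Z)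
    (a b : Y ⟶ Z) (h1 : ∀ x, app g x = ∞ → app k x = app a (app f x))
    (h2 : ∀ x, app g x ≠ ∞ → app k x = app b (app g x)) :
    pinch f g h ≫ sumDesc a b = k := by
  apply app_ext
  intro x
  rw [app_comp]
  by_cases hx : app g x = ∞
  · rw [app_pinch_of_eq f g h hx, ← app_comp, sumInl_desc, h1 x hx]
  · rw [app_pinch_of_ne f g h hx, ← app_comp, sumInr_desc, h2 x hx]

end wedge

end geometry

namespace MultTheory

variable {E : MultTheory.{v}}

instance (X Y : LC) [E.Good X] [E.Good Y] : E.Good (sum X Y) := goodSum X Y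

variable {X Y Z : LC} [hX : E.Good X] [hY : E.Good Y] [hZ : E.Good Z]

/-- A class on a disjoint union which restricts to zero on both pieces is zero. -/
theorem eq_zero_of_sum (w : E.U (sum X Y)) (h1 : E.map (sumInl X Y) w = 0)
    (h2 : E.map (sumInr X Y) w = 0) : w = 0 := by
  have : E.Good (cof (sumInl X Y)) := Good.of_iso E (cofSumInl X Y)
  obtain ⟨o, rfl⟩ := exact (sumInl X Y) (cofib_sumInl X Y) w h1
  rw [← map_comp] at h2
  have h3 : E.map (cofSumInl X Y).inv (E.map (cofSumInl X Y).hom o) = 0 := by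
    have : E.map (cofSumInl X Y).hom o = 0 := h2
    rw [this, map_zero]
  rw [map_inv_hom] at h3
  rw [h3, map_zero]

theorem map_sumDesc (f : X ⟶ Z) (g : Y ⟶ Z) (z : E.U Z) :
    E.map (sumDesc f g) z = E.map (sumDesc f (0 : Y ⟶ Z)) z + E.map (sumDesc (0 : X ⟶ Z) g) z := by
  rw [← sub_eq_zero]
  apply eq_zero_of_sum
  · rw [map_sub, map_add, ← map_comp, ← map_comp, ← map_comp, sumInl_desc, sumInl_desc,
      sumInl_desc, map_zero_mor, add_zero, sub_self]
  · rw [map_sub, map_add, ← map_comp, ← map_comp, ← map_comp, sumInr_desc, sumInr_desc,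
      sumInr_desc, map_zero_mor, zero_add, sub_self]

/-- The sum of two morphisms with disjoint supports induces the sum. -/
theorem map_add_of_disjoint (f g k : X ⟶ Y) (h : ∀ x, app f x = ∞ ∨ app g x = ∞)
    (h1 : ∀ x, app g x = ∞ → app k x = app f x) (h2 : ∀ x, app f x = ∞ → app k x = app g x)
    (y : E.U Y) : E.map k y = E.map f y + E.map g y := by
  have hk : pinch f g h ≫ sumDesc (𝟙 Y) (𝟙 Y) = k :=
    pinch_desc f g h k _ _ (fun x hx => by rw [app_id, h1 x hx])
      (fun x hx => by rw [app_id, h2 x ((h x).resolve_right hx)])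
  have hf : pinch f g h ≫ sumDesc (𝟙 Y) (0 : Y ⟶ Y) = f :=
    pinch_desc f g h f _ _ (fun x _ => by rw [app_id])
      (fun x hx => by rw [app_zero, (h x).resolve_right hx])
  have hg : pinch f g h ≫ sumDesc (0 : Y ⟶ Y) (𝟙 Y) = g :=
    pinch_desc f g h g _ _ (fun x hx => by rw [app_zero, hx]) (fun x _ => by rw [app_id])
  rw [← hk, map_comp, map_sumDesc, map_add, ← map_comp, ← map_comp, hf, hg]

/-- Disjointness is preserved by `▷ Z`. -/
theorem map_add_of_disjoint_whiskerRight (f g k : X ⟶ Y) (h : ∀ x, app f x = ∞ ∨ app g x = ∞)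
    (h1 : ∀ x, app g x = ∞ → app k x = app f x) (h2 : ∀ x, app f x = ∞ → app k x = app g x)
    (y : E.U (Y ⊗ Z)) : E.map (k ▷ Z) y = E.map (f ▷ Z) y + E.map (g ▷ Z) y := by
  apply map_add_of_disjoint
  · intro x
    obtain ⟨x, z, rfl⟩ := exists_smash x
    have e1 : app (f ▷ Z) (smash x z) = smash (app f x) z := app_whiskerRight_smash f Z x z
    have e2 : app (g ▷ Z) (smash x z) = smash (app g x) z := app_whiskerRight_smash g Z x z
    rcases h x with hx | hx
    · left; rw [e1, hx]; rfl
    · right; rw [e2, hx]; rfl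
  · intro x hx
    obtain ⟨x, z, rfl⟩ := exists_smash x
    have e1 : app (f ▷ Z) (smash x z) = smash (app f x) z := app_whiskerRight_smash f Z x z
    have e2 : app (g ▷ Z) (smash x z) = smash (app g x) z := app_whiskerRight_smash g Z x z
    have e3 : app (k ▷ Z) (smash x z) = smash (app k x) z := app_whiskerRight_smash k Z x z
    rw [e2] at hx
    rw [e1, e3]
    rcases smash_eq_infty.mp hx with hx | hx
    · rw [h1 x hx]
    · rw [hx, smash_infty_right, smash_infty_right]
  · intro x hx
    obtain ⟨x, z, rfl⟩ := exists_smash x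
    have e1 : app (f ▷ Z) (smash x z) = smash (app f x) z := app_whiskerRight_smash f Z x z
    have e2 : app (g ▷ Z) (smash x z) = smash (app g x) z := app_whiskerRight_smash g Z x z
    have e3 : app (k ▷ Z) (smash x z) = smash (app k x) z := app_whiskerRight_smash k Z x z
    rw [e1] at hx
    rw [e2, e3]
    rcases smash_eq_infty.mp hx with hx | hx
    · rw [h2 x hx]
    · rw [hx, smash_infty_right, smash_infty_right]

/-- `mfold m` induces multiplication by `m`. -/
theorem map_mfold [E.Good (LC.of ℝ)] (m : ℕ) (w : E.U (LC.of ℝ ⊗ Z)) :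
    E.map (mfold m ▷ Z) w = m • w := by
  induction m with
  | zero =>
    have h0 : mfold 0 = 0 := by
      apply hom_ext
      intro x
      rw [app_zero]
      exact app_mfold_of_notMem (fun i hi => absurd hi (Nat.not_lt_zero i))
    have h1 : (0 : LC.of ℝ ⟶ LC.of ℝ) ▷ Z = 0 := by
      apply tensor_ext
      intro x z
      rw [app_whiskerRight_smash, app_zero, app_zero]
      rfl
    rw [h0, h1, map_zero_mor, zero_smul]
  | succ m ih =>
    set g : LC.of ℝ ⟶ LC.of ℝ := collapseBall (m : ℝ) (1 / 2) (by norm_num) with hg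
    have hgball : ∀ x : ℝ, x ∉ Metric.ball (m : ℝ) (1 / 2) → app g (x : OnePoint ℝ) = ∞ :=
      fun x hx => app_ofOpen_of_notMem (X := LC.of ℝ) (Y := LC.of ℝ) (ballEmb (m : ℝ) (1 / 2))
        (isOpenEmbedding_ballEmb (m : ℝ) (by norm_num)) (x := x)
        (fun h => hx ((mem_range_ballEmb' (m : ℝ) (by norm_num)).1 h))
    have hgball' : ∀ x : ℝ, x ∈ Metric.ball (m : ℝ) (1 / 2) → app g (x : OnePoint ℝ) ≠ ∞ := by
      intro x hx
      obtain ⟨y, rfl⟩ := (mem_range_ballEmb' (m : ℝ) (by norm_num)).2 hx
      have : app g ((ballEmb (m : ℝ) (1 / 2) y : ℝ) : OnePoint ℝ) = (y : OnePoint ℝ) :=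
        app_ofOpen_coe (X := LC.of ℝ) (Y := LC.of ℝ) (ballEmb (m : ℝ) (1 / 2))
          (isOpenEmbedding_ballEmb (m : ℝ) (by norm_num)) y
      rw [this]
      exact OnePoint.coe_ne_infty y
    have hm : ∀ x : ℝ, x ∈ Metric.ball (m : ℝ) (1 / 2) → app (mfold m) (x : OnePoint ℝ) = ∞ := by
      intro x hx
      refine app_mfold_of_notMem fun i hi hxi => ?_
      exact Set.disjoint_left.1 (ball_disjoint hi.ne) hxi hx
    have key : E.map (mfold (m + 1) ▷ Z) w = E.map (mfold m ▷ Z) w + E.map (g ▷ Z) w := by
      apply map_add_of_disjoint_whiskerRight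
      · intro x
        induction x using OnePoint.rec with
        | infty => exact Or.inl (app_infty _)
        | coe x =>
          by_cases hx : x ∈ Metric.ball (m : ℝ) (1 / 2)
          · exact Or.inl (hm x hx)
          · exact Or.inr (hgball x hx)
      · intro x hx
        induction x using OnePoint.rec with
        | infty => rw [app_infty, app_infty]
        | coe x =>
          have hx' : x ∉ Metric.ball (m : ℝ) (1 / 2) := fun h => hgball' x h hx
          by_cases h : ∃ i < m, x ∈ Metric.ball (i : ℝ) (1 / 2)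
          · obtain ⟨i, hi, hxi⟩ := h
            rw [app_mfold_of_mem (hi.trans (Nat.lt_succ_self m)) hxi, app_mfold_of_mem hi hxi]
          · push Not at h
            rw [app_mfold_of_notMem h, app_mfold_of_notMem]
            intro i hi
            rcases Nat.lt_succ_iff_lt_or_eq.1 hi with hi | rfl
            · exact h i hi
            · exact hx'
      · intro x hx
        induction x using OnePoint.rec with
        | infty => rw [app_infty, app_infty]
        | coe x =>
          by_cases hx' : x ∈ Metric.ball (m : ℝ) (1 / 2)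
          · rw [app_mfold_of_mem (Nat.lt_succ_self m) hx']
          · rw [hgball x hx']
            have h : ∀ i < m, x ∉ Metric.ball (i : ℝ) (1 / 2) := by
              intro i hi hxi
              rw [app_mfold_of_mem hi hxi] at hx
              obtain ⟨y, rfl⟩ := (mem_range_ballEmb' (i : ℝ) (by norm_num)).2 hxi
              have : app (collapseBall (i : ℝ) (1 / 2) (by norm_num))
                  ((ballEmb (i : ℝ) (1 / 2) y : ℝ) : OnePoint ℝ) = (y : OnePoint ℝ) :=
                app_ofOpen_coe (X := LC.of ℝ) (Y := LC.of ℝ) (ballEmb (i : ℝ) (1 / 2))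
                  (isOpenEmbedding_ballEmb (i : ℝ) (by norm_num)) y
              rw [this] at hx
              exact OnePoint.coe_ne_infty y hx
            apply app_mfold_of_notMem
            intro i hi
            rcases Nat.lt_succ_iff_lt_or_eq.1 hi with hi | rfl
            · exact h i hi
            · exact hx'
    have hgid : E.map (g ▷ Z) w = w := by
      have h := map_homotopic ((homotopic_collapseBall (m : ℝ) (r := 1 / 2)
        (by norm_num)).whiskerRight Z) w
      rw [MonoidalCategory.id_whiskerRight, map_id] at h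
      exact h
    rw [key, ih, hgid, succ_nsmul]

end MultTheory

end Vale.Agent.P251.Q
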