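import Vale.Agent.P251.Q.Ring

/-!
# P251, part Q: a Thom theory of a finite cell space vanishes in high degrees

Consequently classes of positive degree on compact finite cell spaces are nilpotent.
-/

open CategoryTheory MonoidalCategory OnePoint Topology
open Vale.Agent.P251.G Vale.Agent.P251.G.LC

universe v

namespace Vale.Agent.P251.Q

namespace MultTheory

variable {E : MultTheory.{v}}

/-- `U^k X = 0` for `k > K`. -/
def BddBy (E : MultTheory.{v}) (X : LC) (K : ℤ) : Prop := ∀ k > K, ∀ x ∈ E.deg X k, x = 0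

theorem BddBy.of_hequiv {X Y : LC} [E.Good X] [E.Good Y] {K : ℤ} (hX : E.BddBy X K)
    (h : HEquiv X Y) : E.BddBy Y K := by
  obtain ⟨f, g, -, h2⟩ := h
  intro k hk y hy
  have h3 : E.map f y = 0 := hX k hk _ (map_deg f hy)
  have h4 : E.map (g ≫ f) y = y := by rw [map_homotopic h2, map_id]
  rw [← h4, map_comp, h3, map_zero]

theorem BddBy.of_homeo {X Y : LC} [E.Good X] [E.Good Y] {K : ℤ} (hX : E.BddBy X K)
    (e : X ≃ₜ Y) : E.BddBy Y K := hX.of_hequiv (HEquiv.of_iso (ofHomeo e))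

theorem BddBy.mono {X : LC} {K L : ℤ} (h : E.BddBy X K) (hKL : K ≤ L) : E.BddBy X L :=
  fun k hk => h k (lt_of_le_of_lt hKL hk)

theorem BddBy.ext {A B : LC} [E.Good A] [E.Good B] {i : A ⟶ B} (hi : Cofib i)
    [E.Good (cof i)] {K L : ℤ} (hA : E.BddBy A K) (hC : E.BddBy (cof i) L) :
    E.BddBy B (max K L) := by
  intro k hk y hy
  have h1 : E.map i y = 0 := hA k (lt_of_le_of_lt (le_max_left _ _) hk) _ (map_deg i hy)
  obtain ⟨o, ho⟩ := E.exact i hi y h1
  obtain ⟨o', ho', ho''⟩ := exists_deg_of_map' (cofMap i) (y := o) (by rw [ho]; exact hy)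
  have h2 : o' = 0 := hC k (lt_of_le_of_lt (le_max_right _ _) hk) _ ho'
  rw [← ho, ← ho'', h2, map_zero]

/-- the suspension by `ℂ` -/
theorem BddBy.tensor_CC {X : LC} [E.Good X] {K : ℤ} (hX : E.BddBy X K) :
    E.BddBy (X ⊗ LC.of ℂ) (K + 1) := by
  intro k hk y hy
  have e : k = k - 1 + 1 := by ring
  rw [e] at hy
  obtain ⟨x, hx, rfl⟩ := exists_cross_sg hy
  rw [hX (k - 1) (by omega) x hx, map_zero, AddMonoidHom.zero_apply]

end MultTheory

/-- `ℝ^n × ℂ = ℝ^(n+2)` -/
noncomputable def sphHomeo (n : ℕ) : ((Fin n → ℝ) × ℂ) ≃ₜ (Fin (n + 2) → ℝ) :=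
  ((Homeomorph.refl (Fin n → ℝ)).prodCongr
      (Complex.equivRealProdCLM.toHomeomorph.trans (Homeomorph.finTwoArrow (X := ℝ)).symm)).trans
    (Fin.appendHomeomorph n 2)

variable (E : ThomTheory.{v})

theorem ThomTheory.bdd_sph (n : ℕ) : ∃ K : ℤ, E.BddBy (Sph n) K := by
  induction n using Nat.twoStepInduction with
  | zero =>
    refine ⟨0, ?_⟩
    have h : E.BddBy (𝟙_ LC) 0 := E.deg_unit_pos
    refine h.of_homeo (X := LC.of Unit) ?_
    exact
      { toFun := fun _ => default
        invFun := fun _ => ()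
        left_inv := fun _ => rfl
        right_inv := fun _ => Subsingleton.elim _ _
        continuous_toFun := continuous_const
        continuous_invFun := continuous_const }
  | one =>
    refine ⟨0, ?_⟩
    have h : E.BddBy (LC.of ℝ) 0 := E.deg_RR_pos
    exact h.of_homeo (Homeomorph.funUnique (Fin 1) ℝ).symm
  | more n ih _ =>
    obtain ⟨K, hK⟩ := ih
    exact ⟨K + 1, hK.tensor_CC.of_homeo (X := LC.of ((Fin n → ℝ) × ℂ)) (sphHomeo n)⟩

/-- `U^k X = 0` for large `k` if `X` is a finite cell space. -/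
theorem ThomTheory.bdd {X : LC} (h : FC X) : ∃ K : ℤ, E.BddBy X K := by
  induction h with
  | empty => exact ⟨0, fun k _ x _ => E.empty' x⟩
  | sph n => exact E.bdd_sph n
  | hequiv hX h ih =>
    obtain ⟨K, hK⟩ := ih
    have := MultTheory.Good.of_FC E.toMultTheory hX
    have := MultTheory.Good.of_FC E.toMultTheory (hX.hequiv h)
    exact ⟨K, hK.of_hequiv h⟩
  | ext hi hA hC ihA ihC =>
    obtain ⟨K, hK⟩ := ihA
    obtain ⟨L, hL⟩ := ihC
    have := MultTheory.Good.of_FC E.toMultTheory hA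
    have := MultTheory.Good.of_FC E.toMultTheory hC
    have := MultTheory.Good.of_FC E.toMultTheory (FC.ext hi hA hC)
    exact ⟨max K L, MultTheory.BddBy.ext hi hK hL⟩

/-- Classes of positive degree on a compact finite cell space are nilpotent, uniformly. -/
theorem ThomTheory.exists_pow_eq_zero {X : LC} (h : FC X) [CompactSpace X]
    [E.Good X] : ∃ K : ℕ, ∀ k : ℤ, 0 < k → ∀ x ∈ E.deg X k, x ^ K = 0 := by
  obtain ⟨K, hK⟩ := E.bdd h
  refine ⟨K.toNat + 1, fun k hk x hx => ?_⟩
  have h1 : ∀ m : ℕ, x ^ m ∈ E.deg X (m * k) := by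
    intro m
    induction m with
    | zero =>
      rw [pow_zero, Nat.cast_zero, zero_mul]
      exact MultTheory.oneU_deg X
    | succ m ih =>
      rw [pow_succ]
      have := MultTheory.mul_deg ih hx
      have e : ((m + 1 : ℕ) : ℤ) * k = m * k + k := by push_cast; ring
      rw [e]
      exact this
  refine hK _ ?_ _ (h1 _)
  have h2 : K ≤ K.toNat := Int.self_le_toNat K
  push_cast
  nlinarith [Int.natCast_nonneg K.toNat]

end Vale.Agent.P251.Q
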