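import Vale.Agent.P251.Q.GenClass

/-!
# P251, part Q: the cohomology of Grassmannians is generated by Chern classes

* `o.chernAlg n I` : the `E.A`-algebra generated by the classes `o.cG n I i` (`i < n`) of the
  tautological bundle in `U (Gr n I)`;
* `mem_span` : (G) every class of `U (X ⊗ Gr n I)` is a sum of products `x × s`, `s ∈ chernAlg n I`;
* `isNilpotent_cG` : the classes are nilpotent;
* restrictions: `map_addOne_cG_zero`, `map_addOne_cG_succ`, `map_addZero_cG`.
-/

set_option linter.unusedSectionVars false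
set_option linter.style.haveILetI false

open CategoryTheory MonoidalCategory OnePoint Topology Matrix
open Vale.Agent.P251.G Vale.Agent.P251.G.LC

universe v

noncomputable section

namespace Vale.Agent.P251.Q

variable {I J K : Type} [Fintype I] [Fintype J] [Fintype K] {n m p : ℕ}

/-- the bundle projection of the tautological bundle -/
def grCg (n : ℕ) (I : Type) [Fintype I] : C(LC.of (Th n I), LC.of (Gr n I)) :=
  ⟨Th.gr, Th.continuous_gr⟩

/-- the graph embedding as a continuous map -/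
def graphC (n : ℕ) (I : Type) [Fintype I] : C(LC.of (Th n I), LC.of (Gr n (I ⊕ Unit))) :=
  ⟨Th.graph, Th.continuous_graph⟩

/-- `P ↦ P ⊕ 0` -/
def addZeroC (n : ℕ) (I : Type) [Fintype I] : C(LC.of (Gr n I), LC.of (Gr n (I ⊕ Unit))) :=
  ⟨Gr.addZero, Gr.continuous_addZero⟩

/-- `P ↦ P ⊕ 1` -/
def addOneC (n : ℕ) (I : Type) [Fintype I] : C(LC.of (Gr n I), LC.of (Gr (n + 1) (I ⊕ Unit))) :=
  ⟨Gr.addOne, Gr.continuous_addOne⟩

theorem graph_grC : graph (grCg n I) = Th.delta := by
  apply LC.hom_ext; intro x; rfl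

theorem graph_graphC : graph (graphC n I) = Th.graphPair := by
  apply LC.hom_ext; intro x; rfl

theorem cmap_addZeroC : cmap (addZeroC n I) = Gr.addZeroHom := by
  apply LC.hom_ext; intro x; rfl

theorem cmap_addOneC : cmap (addOneC n I) = Gr.addOneHom := by
  apply LC.hom_ext; intro x; rfl

theorem map_cmap_mem_adjoin {E : MultTheory.{v}} {X Y : LC} [CompactSpace X] [CompactSpace Y]
    [E.Good X] [E.Good Y] (f : C(X, Y)) {S : Set (E.U Y)} {T : Set (E.U X)}
    (hT : T ⊆ (E.mapAlg f) '' S) {t : E.U X} (ht : t ∈ Algebra.adjoin E.A T) :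
    ∃ s ∈ Algebra.adjoin E.A S, E.map (cmap f) s = t := by
  have h1 : Algebra.adjoin E.A T ≤ (Algebra.adjoin E.A S).map (E.mapAlg f) := by
    rw [AlgHom.map_adjoin]
    exact Algebra.adjoin_mono hT
  obtain ⟨s, hs, hst⟩ := h1 ht
  exact ⟨s, hs, hst⟩

theorem MultTheory.eq_zero_of_isEmpty {E : MultTheory.{v}} {X : LC} [E.Good X] [IsEmpty X]
    (y : E.U X) : y = 0 := by
  have h2 : (0 : X ⟶ LC.of Empty) ≫ 0 = 𝟙 X := by
    apply LC.hom_ext; intro a
    exact isEmptyElim a
  rw [← MultTheory.map_id y, ← h2, MultTheory.map_comp, E.empty' (E.map 0 y), map_zero]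

namespace Orientation

open MultTheory

variable {E : MultTheory.{v}} (o : Orientation E) [E.GoodGr]

/-! ### The action on the open cell bundle -/

/-- multiplication on the open cell bundle by classes of the big Grassmannian factors through the
small Grassmannian -/
theorem act_graphC (s : E.U (LC.of (Gr n (I ⊕ Unit)))) (t : E.U (LC.of (Th n I))) :
    E.act (graphC n I) s t = E.act (grCg n I) (E.map (cmap (addZeroC n I)) s) t := by
  rw [act_apply, act_apply, cross_map_left, ← MultTheory.map_comp, graph_graphC, graph_grC,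
    cmap_addZeroC]
  exact (map_homotopic Th.delta_addZeroHom_homotopic _).symm

/-- the projection formula -/
theorem map_collapse_act (s : E.U (LC.of (Gr n (I ⊕ Unit)))) (t : E.U (LC.of (Th n I))) :
    E.map Gr.collapse (E.act (grCg n I) (E.map (cmap (addZeroC n I)) s) t) =
      s * E.map Gr.collapse t := by
  rw [← act_graphC, mul_def]
  refine map_act (W := LC.of (Gr n (I ⊕ Unit))) _ _ _ ?_ _ _
  intro Q x hx
  by_cases h : dd (Gr.P Q) = 1
  · rw [app_collapse_of_eq h] at hx
    exact absurd hx (OnePoint.infty_ne_coe _)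
  · obtain ⟨y, rfl⟩ := exists_graph h
    rw [app_collapse_graph] at hx
    rw [← OnePoint.coe_injective hx]
    rfl

/-! ### The classes of the tautological bundle -/

/-- the classes of the tautological bundle -/
def cG (n : ℕ) (I : Type) [Fintype I] (i : ℕ) : E.U (LC.of (Gr n I)) :=
  o.cc (X := LC.of (Gr n I)) (taut n I) (taut_isRank n I) i

/-- the algebra generated by the Chern classes -/
def chernAlg (n : ℕ) (I : Type) [Fintype I] : Subalgebra E.A (E.U (LC.of (Gr n I))) :=
  Algebra.adjoin E.A (Set.range fun i : Fin n => o.cG n I i)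

theorem cG_zero : o.cG n I 0 = o.eGr n I := by
  unfold cG
  rw [cc_zero o, o.eu_taut]

theorem cG_deg (i : ℕ) : o.cG n I i ∈ E.deg (LC.of (Gr n I)) (n - i) := o.cc_deg _ _ _

theorem map_cG [DecidableEq I] [DecidableEq J] (u : Matrix J I ℂ) (hu : uᴴ * u = 1)
    (i : ℕ) : E.map (grMap n u hu) (o.cG n J i) = o.cG n I i := by
  unfold cG grMap
  rw [o.map_cc]
  exact o.cc_isom u hu _ _ _ _ (fun x => rfl) i

theorem map_addZero_cG (i : ℕ) :
    E.map (cmap (addZeroC n I)) (o.cG n (I ⊕ Unit) i) = o.cG n I i := by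
  classical
  rw [cmap_addZeroC, addZeroHom_eq]
  exact o.map_cG _ _ i

theorem map_addOne_cG (i : ℕ) :
    E.map (cmap (addOneC n I)) (o.cG (n + 1) (I ⊕ Unit) i) =
      if i = 0 then 0 else o.cG n I (i - 1) := by
  unfold cG
  rw [o.map_cc]
  have h : (taut (n + 1) (I ⊕ Unit)).pullback (addOneC n I) =
      (taut n I).sum (Bun.triv (Gr n I) Unit) := rfl
  have ht : (Bun.triv (Gr n I) Unit).IsRank 1 := by
    have := Bun.isRank_triv (X := Gr n I) (I := Unit)
    rwa [Fintype.card_unit] at this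
  exact o.cc_add_one (X := LC.of (Gr n I)) (taut n I) (taut_isRank n I)
    ((taut_isRank n I).sum ht) i

theorem exists_lift_addZero {s : E.U (LC.of (Gr n I))} (hs : s ∈ o.chernAlg n I) :
    ∃ t ∈ o.chernAlg n (I ⊕ Unit), E.map (cmap (addZeroC n I)) t = s := by
  refine map_cmap_mem_adjoin (addZeroC n I) ?_ hs
  rintro _ ⟨i, rfl⟩
  exact ⟨_, ⟨i, rfl⟩, o.map_addZero_cG i⟩

theorem exists_lift_addOne {s : E.U (LC.of (Gr n I))} (hs : s ∈ o.chernAlg n I) :
    ∃ t ∈ o.chernAlg (n + 1) (I ⊕ Unit), E.map (cmap (addOneC n I)) t = s := by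
  refine map_cmap_mem_adjoin (addOneC n I) ?_ hs
  rintro _ ⟨i, rfl⟩
  refine ⟨_, ⟨i.succ, rfl⟩, ?_⟩
  refine (o.map_addOne_cG _).trans ?_
  simp

theorem eGr_mem : o.eGr (n + 1) I ∈ o.chernAlg (n + 1) I := by
  rw [← o.cG_zero]
  exact Algebra.subset_adjoin ⟨0, rfl⟩

/-! ### Generation -/

/-- the group generated by the products `x × s` with `s` in the algebra of Chern classes -/
def chernSpan (n : ℕ) (I : Type) [Fintype I] (X : LC) :
    AddSubgroup (E.U (X ⊗ LC.of (Gr n I))) :=
  AddSubgroup.closure {w | ∃ x : E.U X, ∃ s ∈ o.chernAlg n I, w = E.cross x s}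

variable {o}

theorem cross_mem_chernSpan {X : LC} (x : E.U X) {s : E.U (LC.of (Gr n I))}
    (hs : s ∈ o.chernAlg n I) : E.cross x s ∈ o.chernSpan n I X :=
  AddSubgroup.subset_closure ⟨x, s, hs, rfl⟩

theorem map_mem_chernSpan {X : LC} [E.Good X] (f : C(LC.of (Gr n I), LC.of (Gr m J)))
    (h : ∀ s ∈ o.chernAlg m J, E.map (cmap f) s ∈ o.chernAlg n I)
    {w : E.U (X ⊗ LC.of (Gr m J))} (hw : w ∈ o.chernSpan m J X) :
    E.map (X ◁ cmap f) w ∈ o.chernSpan n I X := by
  have h1 : o.chernSpan m J X ≤ (o.chernSpan n I X).comap (E.map (X ◁ cmap f)) := by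
    unfold chernSpan
    rw [AddSubgroup.closure_le]
    rintro _ ⟨x, s, hs, rfl⟩
    change E.map _ _ ∈ o.chernSpan n I X
    rw [← cross_map_right]
    exact cross_mem_chernSpan x (h s hs)
  exact h1 hw

variable (o)

theorem psi_cross (X : LC) [E.Good X] (x : E.U X) (s : E.U (LC.of (Gr n I))) :
    o.psi X n I (E.cross x s) = E.cross x (E.act (grCg n I) s (o.tau n I)) := by
  rw [psi_apply, MultTheory.map_comp, cross_assoc_inv, ← cross_map_right, act_apply, graph_grC]

/-- the classes supported on the open cell bundle -/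
theorem map_collapse_mem {X : LC} [E.Good X] [DecidableEq I]
    {u : E.U (X ⊗ LC.of (Gr (n + 1) I))} (hu : u ∈ o.chernSpan (n + 1) I X) :
    E.map (X ◁ Gr.collapse) (o.psi X (n + 1) I u) ∈ o.chernSpan (n + 1) (I ⊕ Unit) X := by
  have h1 : o.chernSpan (n + 1) I X ≤ (o.chernSpan (n + 1) (I ⊕ Unit) X).comap
      ((E.map (X ◁ Gr.collapse)).comp (o.psi X (n + 1) I)) := by
    conv_lhs => unfold chernSpan
    rw [AddSubgroup.closure_le]
    rintro _ ⟨x, s, hs, rfl⟩
    change E.map _ (o.psi _ _ _ _) ∈ o.chernSpan _ _ X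
    obtain ⟨t, ht, rfl⟩ := o.exists_lift_addZero hs
    rw [psi_cross, ← cross_map_right, map_collapse_act, ← o.eGr_eq_collapse]
    exact cross_mem_chernSpan x (mul_mem ht o.eGr_mem)
  exact h1 hu

/-- **Generation**: every class of `U (X ⊗ Gr n I)` is a sum of products `x × s`. -/
theorem mem_span : ∀ (n : ℕ) (I : Type) [Fintype I],
    ∀ (X : LC) [E.Good X] (y : E.U (X ⊗ LC.of (Gr n I))), y ∈ o.chernSpan n I X := by
  refine gr_induction ?_ ?_ ?_ ?_
  · intro I _ X _ y
    -- the point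
    have h1 : ∃ x : E.U X, y = E.cross x 1 := by
      have h2 : cmap (toPt (LC.of (Gr 0 I))) ≫ point (X := LC.of (Gr 0 I)) default =
          𝟙 (LC.of (Gr 0 I)) := by
        apply LC.hom_ext; intro a
        exact congrArg OnePoint.some (Subsingleton.elim (α := Gr 0 I) _ _)
      have h3 : y = E.map (X ◁ cmap (toPt (LC.of (Gr 0 I))))
          (E.map (X ◁ point (X := LC.of (Gr 0 I)) default) y) := by
        rw [← MultTheory.map_comp, ← MonoidalCategory.whiskerLeft_comp, h2,
          MonoidalCategory.whiskerLeft_id, MultTheory.map_id]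
      refine ⟨E.map (ρ_ X).inv (E.map (X ◁ point (X := LC.of (Gr 0 I)) default) y), ?_⟩
      have h4 : (1 : E.U (LC.of (Gr 0 I))) = E.map (cmap (toPt _)) E.one := rfl
      rw [h4, cross_map_right, cross_one, map_hom_inv, ← h3]
    obtain ⟨x, rfl⟩ := h1
    exact cross_mem_chernSpan x (one_mem _)
  · intro n I _ _ X _ y
    have h1 : y = 0 := by
      haveI : IsEmpty (X ⊗ LC.of (Gr (n + 1) I) : LC) :=
        inferInstanceAs (IsEmpty (X × Gr (n + 1) I))
      exact eq_zero_of_isEmpty y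
    rw [h1]
    exact zero_mem _
  · intro n I _ _ h1 h2 X _ y
    -- restriction to the closed stratum
    have h3 : ∀ w ∈ o.chernSpan n I X, ∃ w' ∈ o.chernSpan (n + 1) (I ⊕ Unit) X,
        E.map (X ◁ cmap (addOneC n I)) w' = w := by
      intro w hw
      have h4 : o.chernSpan n I X ≤
          (o.chernSpan (n + 1) (I ⊕ Unit) X).map (E.map (X ◁ cmap (addOneC n I))) := by
        conv_lhs => unfold chernSpan
        rw [AddSubgroup.closure_le]
        rintro _ ⟨x, s, hs, rfl⟩
        obtain ⟨t, ht, rfl⟩ := o.exists_lift_addOne hs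
        exact ⟨E.cross x t, cross_mem_chernSpan x ht, (cross_map_right _ _ _).symm⟩
      obtain ⟨w', hw', h5⟩ := h4 hw
      exact ⟨w', hw', h5⟩
    obtain ⟨y', hy', h4⟩ := h3 _ (h1 X (E.map (X ◁ cmap (addOneC n I)) y))
    have h5 : E.map (X ◁ Gr.addOneHom) (y - y') = 0 := by
      rw [← cmap_addOneC, map_sub, h4, sub_self]
    obtain ⟨w, hw⟩ := (exact_mid ((cofSeq_gr (n := n) (I := I)).whiskerLeft X) (y - y')).mp h5
    obtain ⟨u, rfl⟩ := (psi_bijective o X (n + 1) I).2 w
    have h6 := o.map_collapse_mem (h2 X u)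
    rw [hw] at h6
    have h7 := add_mem h6 hy'
    rwa [sub_add_cancel] at h7
  · intro n I J _ _ _ _ e h X _ y
    have h1 := h X (E.map (X ◁ (grReindex n e).hom) y)
    have h2 : y = E.map (X ◁ (grReindex n e).inv) (E.map (X ◁ (grReindex n e).hom) y) := by
      rw [← MultTheory.map_comp, ← MonoidalCategory.whiskerLeft_comp, Iso.inv_hom_id,
        MonoidalCategory.whiskerLeft_id, MultTheory.map_id]
    rw [h2]
    refine map_mem_chernSpan (grMapC n (injMat e.symm) (injMat_isom e.symm.injective)) ?_ h1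
    intro s hs
    have h3 : o.chernAlg n I ≤ (o.chernAlg n J).comap
        (E.mapAlg (grMapC n (injMat e.symm) (injMat_isom e.symm.injective))) := by
      unfold chernAlg
      rw [Algebra.adjoin_le_iff]
      rintro _ ⟨i, rfl⟩
      change E.map (grMap _ _ _) _ ∈ Algebra.adjoin _ _
      rw [o.map_cG]
      exact Algebra.subset_adjoin ⟨i, rfl⟩
    exact h3 hs

/-- The Chern classes are nilpotent. -/
theorem isNilpotent_cG : ∀ (n : ℕ) (I : Type) [Fintype I], ∀ i < n,
    IsNilpotent (o.cG n I i) := by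
  refine gr_induction ?_ ?_ ?_ ?_
  · intro I _ i hi
    exact absurd hi (Nat.not_lt_zero i)
  · intro n I _ _ i hi
    haveI : IsEmpty (LC.of (Gr (n + 1) I)) := inferInstanceAs (IsEmpty (Gr (n + 1) I))
    rw [eq_zero_of_isEmpty (o.cG (n + 1) I i)]
    exact IsNilpotent.zero
  · intro n I _ _ h1 h2 i hi
    obtain ⟨k, hk⟩ : IsNilpotent (E.mapAlg (addOneC n I) (o.cG (n + 1) (I ⊕ Unit) i)) := by
      rw [mapAlg_apply, o.map_addOne_cG]
      split_ifs with h
      · exact IsNilpotent.zero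
      · exact h1 _ (by omega)
    obtain ⟨l, hl⟩ := h2 i hi
    have h3 : E.map Gr.addOneHom (o.cG (n + 1) (I ⊕ Unit) i ^ k) = 0 := by
      rw [← cmap_addOneC, map_cmap_pow]
      exact hk
    obtain ⟨t, ht⟩ := (exact_mid (cofSeq_gr (n := n) (I := I)) _).mp h3
    refine ⟨l + k, ?_⟩
    rw [pow_add, ← ht, ← map_collapse_act, map_cmap_pow, o.map_addZero_cG, hl, map_zero]
    simp
  · intro n I J _ _ _ _ e h i hi
    obtain ⟨k, hk⟩ := h i hi
    refine ⟨k, ?_⟩
    have h1 : o.cG n J i = E.map (grReindex n e).inv (o.cG n I i) :=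
      (o.map_cG (injMat e.symm) (injMat_isom e.symm.injective) i).symm
    have h2 := map_cmap_pow (grMapC n (injMat e.symm) (injMat_isom e.symm.injective))
      (o.cG n I i) k
    rw [hk, map_zero] at h2
    rw [h1]
    exact h2.symm

theorem cross_eq_cmap_mul {X Y : LC} [CompactSpace X] [CompactSpace Y] [E.Good X] [E.Good Y]
    (x : E.U X) (y : E.U Y) :
    E.cross x y = E.map (cmap (fstC X Y)) x * E.map (cmap (sndC X Y)) y := by
  rw [map_cmap_fst, map_cmap_snd, cross_mul_cross, mul_one, one_mul]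

/-- **Generation**, ring form. -/
theorem exists_eval₂ (n : ℕ) (I : Type) [Fintype I] {B : LC}
    [CompactSpace B] [E.Good B] (y : E.U (B ⊗ LC.of (Gr n I))) :
    ∃ P : MvPolynomial (Fin n) (E.U B), y =
      MvPolynomial.eval₂ (E.mapAlg (fstC B (LC.of (Gr n I))) : E.U B →+* _)
        (fun i : Fin n => E.map (cmap (sndC B (LC.of (Gr n I)))) (o.cG n I i)) P := by
  have h1 := o.mem_span n I B y
  unfold chernSpan at h1
  refine AddSubgroup.closure_induction (fun w hw => ?_) ⟨0, by rw [MvPolynomial.eval₂_zero]⟩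
    (fun a b _ _ ha hb => ?_) (fun a _ ha => ?_) h1
  · obtain ⟨x, s, hs, rfl⟩ := hw
    unfold chernAlg at hs
    rw [Algebra.adjoin_range_eq_range_aeval] at hs
    obtain ⟨p, rfl⟩ := hs
    refine ⟨MvPolynomial.C x * MvPolynomial.map (algebraMap E.A (E.U B)) p, ?_⟩
    rw [MvPolynomial.eval₂_mul, MvPolynomial.eval₂_C, MvPolynomial.eval₂_map, cross_eq_cmap_mul]
    congr 1
    have h2 : E.map (cmap (sndC B (LC.of (Gr n I))))
        (MvPolynomial.aeval (fun i : Fin n => o.cG n I i) p) =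
        E.mapAlg (sndC B (LC.of (Gr n I))) (MvPolynomial.aeval (fun i : Fin n => o.cG n I i) p) :=
      rfl
    change E.map (cmap (sndC B (LC.of (Gr n I))))
        (MvPolynomial.aeval (fun i : Fin n => o.cG n I i) p) = _
    rw [h2, MvPolynomial.comp_aeval_apply, MvPolynomial.aeval_def]
    congr 1
    ext a
    exact ((E.mapAlg (fstC B (LC.of (Gr n I)))).commutes a).symm
  · obtain ⟨P, rfl⟩ := ha
    obtain ⟨Q, rfl⟩ := hb
    exact ⟨P + Q, by rw [MvPolynomial.eval₂_add]⟩
  · obtain ⟨P, rfl⟩ := ha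
    refine ⟨-P, ?_⟩
    rw [MvPolynomial.eval₂_neg]

end Orientation

end Vale.Agent.P251.Q
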