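import Vale.Agent.P251.Q.CoefClass
import Vale.Agent.P251.Q.Gen

/-!
# P251, part Q: comparison of the two forms of the classes `c'` (task Q4)

`co_eq_cc` : the coefficients `o.co V hV N` of `Q/CoefClass` are the classes `o.cc V h` of
`Q/GenClass`.  `exists_eval₂_right` : generation of `U (Gr n I ⊗ B)` over `U B`.
-/

open CategoryTheory MonoidalCategory OnePoint Topology Finset
open Vale.Agent.P251.G Vale.Agent.P251.G.LC

universe v

set_option linter.unusedSectionVars false

noncomputable section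

namespace Vale.Agent.P251.Q

open MultTheory Orientation

variable {E : MultTheory.{v}} (o : Orientation E) [E.GoodGr]
variable {Y : LC} [CompactSpace Y] [E.Good Y] {ι : Type} [Fintype ι] {n : ℕ}

theorem co_eq_cc (V : Bun Y ι) (hV : V.IsRank n) (N : ℕ) [E.Good (CPo (N + 1))]
    [E.Good (twist V (N + 1)).tot] (i : Fin (N + 1)) :
    o.co V hV (N + 1) i = o.cc V hV (i : ℕ) := by
  have h : o.co V hV (N + 1) = fun i : Fin (N + 1) => o.cc V hV (i : ℕ) := by
    apply co_unique
    rw [comb_apply, ← o.eu_eq_e]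
    have h1 := o.exp_cc V hV N
    unfold Orientation.IsExp Orientation.eT at h1
    refine Eq.trans ?_ h1.symm
    exact (Finset.sum_range (fun j => E.cross (o.cc V hV j) (o.zc N ^ j))).symm
  rw [h]

/-- the classes of the tautological bundle -/
theorem co_taut (I : Type) [Fintype I] (N : ℕ) [E.Good (CPo (N + 1))]
    [E.Good (twist (Y := LC.of (Gr n I)) (taut n I) (N + 1)).tot] (i : Fin (N + 1)) :
    o.co (Y := LC.of (Gr n I)) (taut n I) (taut_isRank n I) (N + 1) i = o.cG n I i :=
  co_eq_cc o _ _ N i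

/-- **Generation** with the base on the right. -/
theorem exists_eval₂_right (n : ℕ) (I : Type) [Fintype I] {B : LC}
    [CompactSpace B] [E.Good B] (y : E.U (LC.of (Gr n I) ⊗ B)) :
    ∃ P : MvPolynomial (Fin n) (E.U B), y =
      MvPolynomial.eval₂ (E.mapAlg (sndC (LC.of (Gr n I)) B) : E.U B →+* _)
        (fun i : Fin n => E.map (cmap (fstC (LC.of (Gr n I)) B)) (o.cG n I i)) P := by
  obtain ⟨P, hP⟩ := o.exists_eval₂ n I (E.map (β_ (LC.of (Gr n I)) B).inv y)
  refine ⟨P, ?_⟩
  let sw : C((LC.of (Gr n I) ⊗ B : LC), (B ⊗ LC.of (Gr n I) : LC)) :=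
    pairC (sndC (LC.of (Gr n I)) B) (fstC (LC.of (Gr n I)) B)
  have h0 : cmap sw = (β_ (LC.of (Gr n I)) B).hom := by
    apply tensor_ext; intro a b
    rw [app_braiding_smash]
    rfl
  have h1 : y = (E.mapAlg sw).toRingHom (E.map (β_ (LC.of (Gr n I)) B).inv y) := by
    change y = E.map (cmap sw) _
    rw [h0, ← MultTheory.map_comp, Iso.hom_inv_id, MultTheory.map_id]
  rw [h1, hP, MvPolynomial.hom_eval₂]
  congr 1
  · ext b
    change E.map (cmap sw) (E.map (cmap (fstC B (LC.of (Gr n I)))) b) = E.map (cmap _) b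
    rw [← MultTheory.map_comp, cmap_comp']
    rfl
  · funext i
    change E.map (cmap sw) (E.map (cmap (sndC B (LC.of (Gr n I)))) _) = _
    rw [← MultTheory.map_comp, cmap_comp']
    rfl

end Vale.Agent.P251.Q
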