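import Vale.Agent.P251.Q.Defs
import Vale.Agent.P251.G.PowerProps

/-!
# P251, part Q (Q3): external powers `z^{×n} ∈ U(Fin n → Y)` and the restriction of the power
operation to a point
-/

open CategoryTheory MonoidalCategory OnePoint Matrix Topology
open Vale.Agent.P251.G Vale.Agent.P251.G.LC

universe v

namespace Vale.Agent.P251.Q

/-! ### The homeomorphisms `(Fin (n+1) → Y) = Y × (Fin n → Y)` -/

/-- `(Fin (n+1) → Y) ≃ Y × (Fin n → Y)` -/
def consHomeo (n : ℕ) (Y : Type) [TopologicalSpace Y] : (Fin (n + 1) → Y) ≃ₜ Y × (Fin n → Y) where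
  toFun f := (f 0, fun i => f i.succ)
  invFun p := Fin.cons p.1 p.2
  left_inv f := by
    funext i
    refine Fin.cases ?_ (fun i => ?_) i
    · rfl
    · rfl
  right_inv p := rfl
  continuous_toFun := by fun_prop
  continuous_invFun := by
    refine continuous_pi fun i => ?_
    refine Fin.cases ?_ (fun i => ?_) i
    · exact continuous_fst
    · exact (continuous_apply i).comp continuous_snd

/-- `(Fin 0 → Y) ≃ Unit` -/
def nilHomeo (Y : Type) [TopologicalSpace Y] : (Fin 0 → Y) ≃ₜ Unit where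
  toFun _ := ()
  invFun _ := Fin.elim0
  left_inv f := by funext i; exact i.elim0
  right_inv _ := rfl
  continuous_toFun := continuous_const
  continuous_invFun := continuous_const

/-- `LC`-isomorphism `Y^{n+1} ≅ Y ⊗ Y^n` -/
def consIso (n : ℕ) (Y : LC) : powObj (Fin (n + 1)) Y ≅ Y ⊗ powObj (Fin n) Y :=
  ofHomeo (X := LC.of (Fin (n + 1) → Y)) (Y := LC.of (Y × (Fin n → Y))) (consHomeo n Y)

/-- `LC`-isomorphism `Y^0 ≅ 𝟙` -/
def nilIso (Y : LC) : powObj (Fin 0) Y ≅ 𝟙_ LC :=
  ofHomeo (X := LC.of (Fin 0 → Y)) (Y := LC.of Unit) (nilHomeo Y)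

theorem app_consIso_hom_smash (n : ℕ) (Y : LC) (y : Fin (n + 1) → OnePoint Y) :
    app (consIso n Y).hom (OP.smash y) = smash (y 0) (OP.smash fun i => y i.succ) := by
  by_cases h : ∀ j, ∃ z : Y, (z : OnePoint Y) = y j
  · choose z hz using h
    have : y = fun j => (z j : OnePoint Y) := funext fun j => (hz j).symm
    subst this
    rw [OP.smash_coe, OP.smash_coe]; rfl
  · push Not at h
    obtain ⟨j, hj⟩ := h
    have hj' : y j = ∞ := by
      by_contra hcon
      obtain ⟨z, hz⟩ := OnePoint.ne_infty_iff_exists.1 hcon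
      exact hj z hz
    rw [OP.smash_infty y hj', app_infty]
    revert hj'
    refine Fin.cases ?_ (fun i => ?_) j
    · intro h0; rw [h0]; rfl
    · intro h0; rw [OP.smash_infty (Y := fun _ => Y) (fun i : Fin n => y i.succ) h0, smash_infty_right]

theorem powHom_consIso (n : ℕ) {X Y : LC} (f : X ⟶ Y) :
    powHom (Fin (n + 1)) f ≫ (consIso n Y).hom =
      (consIso n X).hom ≫ (f ⊗ₘ powHom (Fin n) f) := by
  apply hom_ext
  intro x
  rw [app_comp, app_powHom_coe, app_consIso_hom_smash, app_comp]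
  rfl

theorem powHom_nilIso {X Y : LC} (f : X ⟶ Y) :
    powHom (Fin 0) f ≫ (nilIso Y).hom = (nilIso X).hom := by
  apply hom_ext
  intro x
  rw [app_comp, app_powHom_coe]
  have : (fun j : Fin 0 => app f (x j : OnePoint X)) =
      fun j : Fin 0 => ((Fin.elim0 j : Y) : OnePoint Y) := funext fun j => j.elim0
  rw [this, OP.smash_coe]
  rfl

namespace MultTheory

variable {E : MultTheory.{v}}

instance good_finPow (n : ℕ) (Y : Type) [TopologicalSpace Y] [LocallyCompactSpace Y] [T2Space Y]
    [h : E.Good (LC.of Y)] : E.Good (LC.of (Fin n → Y)) := by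
  induction n with
  | zero => exact Good.of_iso E (nilIso (LC.of Y)).symm
  | succ n ih =>
    have : E.Good (LC.of (Y × (Fin n → Y))) := inferInstance
    exact Good.of_iso E (X := LC.of (Y × (Fin n → Y))) (consIso n (LC.of Y)).symm

instance good_finPow' (n : ℕ) (Y : LC) [h : E.Good Y] : E.Good (powObj (Fin n) Y) :=
  good_finPow n Y.carrier (h := h)

variable (E) in
/-- the external power `z^{×n}` -/
noncomputable def xpow {Y : LC} (z : E.U Y) : ∀ n : ℕ, E.U (powObj (Fin n) Y)
  | 0 => E.map (nilIso Y).hom E.one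
  | n + 1 => E.map (consIso n Y).hom (E.cross z (xpow z n))

theorem xpow_zero {Y : LC} (z : E.U Y) : E.xpow z 0 = E.map (nilIso Y).hom E.one := rfl

theorem xpow_succ {Y : LC} (z : E.U Y) (n : ℕ) :
    E.xpow z (n + 1) = E.map (consIso n Y).hom (E.cross z (E.xpow z n)) := rfl

theorem map_powHom_xpow {X Y : LC} [hX : E.Good X] [hY : E.Good Y] (f : X ⟶ Y) (z : E.U Y) (n : ℕ) :
    E.map (powHom (Fin n) f) (E.xpow z n) = E.xpow (E.map f z) n := by
  induction n with
  | zero => rw [xpow_zero, xpow_zero, ← map_comp, powHom_nilIso]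
  | succ n ih =>
    rw [xpow_succ, xpow_succ, ← map_comp, powHom_consIso, map_comp, ← cross_map, ih]

theorem xpow_deg {Y : LC} [hY : E.Good Y] {z : E.U Y} {k : ℤ} (hz : z ∈ E.deg Y k) (n : ℕ) :
    E.xpow z n ∈ E.deg (powObj (Fin n) Y) (n * k) := by
  induction n with
  | zero =>
    rw [xpow_zero]
    have := map_deg (nilIso Y).hom E.one_deg
    simpa using this
  | succ n ih =>
    rw [xpow_succ]
    have h := map_deg (consIso n Y).hom (cross_deg hz ih)
    have h2 : ((n + 1 : ℕ) : ℤ) * k = k + n * k := by push_cast; ring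
    rw [h2]
    exact h

/-! ### Interchange -/

section interchange

variable {X Y Z W : LC} [hX : E.Good X] [hY : E.Good Y] [hZ : E.Good Z] [hW : E.Good W]

theorem cross_interchange (x : E.U X) (y : E.U Y) (z : E.U Z) (w : E.U W) :
    E.map (tensorμ X Y Z W) (E.cross (E.cross x z) (E.cross y w)) =
      E.cross (E.cross x y) (E.cross z w) := by
  have h1 : tensorμ X Y Z W = (α_ X Y (Z ⊗ W)).hom ≫ (X ◁ (α_ Y Z W).inv) ≫
      (X ◁ (β_ Y Z).hom ▷ W) ≫ (X ◁ (α_ Z Y W).hom) ≫ (α_ X Z (Y ⊗ W)).inv := rfl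
  rw [h1, map_comp, map_comp, map_comp, map_comp, cross_assoc_inv, ← cross_map_right,
    cross_assoc, ← cross_map_right, ← cross_map_left, cross_comm, ← cross_map_right,
    cross_assoc_inv, cross_assoc]

end interchange

end MultTheory

/-- `X^n ⊗ V^n ≅ (X ⊗ V)^n` -/
def unshIso (n : ℕ) (X V : LC) :
    powObj (Fin n) X ⊗ powObj (Fin n) V ≅ powObj (Fin n) (X ⊗ V) :=
  ofHomeo (X := LC.of ((Fin n → X) × (Fin n → V))) (Y := LC.of (Fin n → X × V))
    { toFun := fun a j => (a.1 j, a.2 j)
      invFun := fun b => (fun j => (b j).1, fun j => (b j).2)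
      left_inv := fun a => rfl
      right_inv := fun b => rfl
      continuous_toFun := by fun_prop
      continuous_invFun := by fun_prop }

theorem unshIso_nilIso (X V : LC) :
    (unshIso 0 X V).hom ≫ (nilIso (X ⊗ V)).hom =
      ((nilIso X).hom ⊗ₘ (nilIso V).hom) ≫ (λ_ (𝟙_ LC)).hom := by
  apply tensor_ext
  intro x y
  rfl

theorem unshIso_consIso (n : ℕ) (X V : LC) :
    (unshIso (n + 1) X V).hom ≫ (consIso n (X ⊗ V)).hom =
      ((consIso n X).hom ⊗ₘ (consIso n V).hom) ≫
        tensorμ X (powObj (Fin n) X) V (powObj (Fin n) V) ≫ ((X ⊗ V) ◁ (unshIso n X V).hom) := by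
  apply tensor_ext
  intro x y
  rfl

namespace MultTheory

variable {E : MultTheory.{v}}

theorem map_unshIso_xpow {X V : LC} [hX : E.Good X] [hV : E.Good V] (x : E.U X) (l : E.U V)
    (n : ℕ) : E.map (unshIso n X V).hom (E.xpow (E.cross x l) n) =
      E.cross (E.xpow x n) (E.xpow l n) := by
  induction n with
  | zero =>
    rw [xpow_zero, xpow_zero, xpow_zero, ← map_comp, unshIso_nilIso, map_comp, cross_map,
      one_cross]
  | succ n ih =>
    rw [xpow_succ, xpow_succ, xpow_succ, ← map_comp, unshIso_consIso, map_comp, map_comp,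
      ← cross_map_right, ih, cross_interchange, cross_map]

end MultTheory

end Vale.Agent.P251.Q
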