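import Vale.Agent.P251.Q.GenEuler

/-!
# P251, part Q: Chern classes by expansion over projective spaces

For a bundle `V` of rank `n` over a compact space `X`, the Euler class of `V ⊗ λ` on
`X × CP^N` is `∑ a_i(V) z^i`; `o.cc V h i = a_i(V)` (independent of `N`).
-/

set_option linter.unusedSectionVars false
set_option linter.style.haveILetI false

open CategoryTheory MonoidalCategory OnePoint Topology Matrix
open Vale.Agent.P251.G Vale.Agent.P251.G.LC

universe v

noncomputable section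

namespace Vale.Agent.P251.Q

variable {I J K : Type} [Fintype I] [Fintype J] [Fintype K] {n m p : ℕ}

/-- complex projective space of dimension `N` -/
abbrev CPn (N : ℕ) : LC := LC.of (Gr 1 (Fin (N + 1)))

/-- the inclusion `CP^M → CP^N` -/
def cpIncl {M N : ℕ} (h : M ≤ N) : CPn M ⟶ CPn N :=
  grMap 1 (injMat (Fin.castLE (Nat.succ_le_succ h))) (injMat_isom (Fin.castLE_injective _))

namespace MultTheory

variable {E : MultTheory.{v}}

section

variable {X Y Z : LC} [CompactSpace X] [CompactSpace Y] [E.Good X] [E.Good Y] [E.Good Z]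

/-- pull back along the first projection -/
theorem map_cmap_fst (x : E.U X) : E.map (cmap (fstC X Y)) x = E.cross x 1 := by
  have h1 : (1 : E.U Y) = E.map (cmap (toPt Y)) E.one := rfl
  rw [h1, cross_map_right, cross_one, ← MultTheory.map_comp]
  refine congrArg (fun k => E.map k x) ?_
  apply tensor_ext; intro a b
  rw [app_comp, app_whiskerLeft_smash, app_cmap_coe]
  exact (app_rightUnitor_smash X (a : OnePoint X)).symm

/-- pull back along the second projection -/
theorem map_cmap_snd (y : E.U Y) : E.map (cmap (sndC X Y)) y = E.cross 1 y := by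
  have h1 : (1 : E.U X) = E.map (cmap (toPt X)) E.one := rfl
  rw [h1, cross_map_left, one_cross, ← MultTheory.map_comp]
  refine congrArg (fun k => E.map k y) ?_
  apply tensor_ext; intro a b
  rw [app_comp, app_whiskerRight_smash, app_cmap_coe]
  exact (app_leftUnitor_smash Y (b : OnePoint Y)).symm

end

end MultTheory

namespace Orientation

open MultTheory

variable {E : MultTheory.{v}} (o : Orientation E) [E.GoodGr]

/-- the Euler class of the tautological line bundle -/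
abbrev zc (N : ℕ) : E.U (CPn N) := o.z (Fin (N + 1))

theorem eGr_one (I : Type) [Fintype I] : o.eGr 1 I = o.z I := rfl

/-- `y = ∑ a_i z^i` -/
def IsExp {X : LC} (N : ℕ) (y : E.U (X ⊗ CPn N)) (a : ℕ → E.U X) : Prop :=
  y = ∑ i ∈ Finset.range (N + 1), E.cross (a i) (o.zc N ^ i)

theorem map_zc {M N : ℕ} (h : M ≤ N) : E.map (cpIncl h) (o.zc N) = o.zc M :=
  z_map o _ _

theorem map_zc_pow {M N : ℕ} (h : M ≤ N) (k : ℕ) :
    E.map (cpIncl h) (o.zc N ^ k) = o.zc M ^ k := map_grMap_pow o _ _ k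

theorem zc_pow_eq_zero {N k : ℕ} (h : N < k) : o.zc N ^ k = 0 :=
  z_pow_eq_zero o k _ ((Fintype.card_fin (N + 1)).le.trans h)

theorem zc_bij (N : ℕ) (X : LC) [E.Good X] : Function.Bijective
    fun x : Fin (N + 1) → E.U X => ∑ i, E.cross (x i) (o.zc N ^ (i : ℕ)) :=
  freeOn_z o (N + 1) (Fin (N + 1)) (Fintype.card_fin _) X

theorem exists_exp {X : LC} [E.Good X] (N : ℕ) (y : E.U (X ⊗ CPn N)) :
    ∃ a : ℕ → E.U X, o.IsExp N y a := by
  obtain ⟨x, hx⟩ := (o.zc_bij N X).2 y
  refine ⟨fun i => if h : i < N + 1 then x ⟨i, h⟩ else 0, ?_⟩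
  unfold IsExp
  rw [← hx, Finset.sum_range]
  refine Finset.sum_congr rfl fun i _ => ?_
  change _ = E.cross (if h : (i : ℕ) < N + 1 then x ⟨i, h⟩ else 0) _
  rw [dif_pos i.2]

variable {o}

theorem exp_unique {X : LC} [E.Good X] {N : ℕ} {y : E.U (X ⊗ CPn N)} {a b : ℕ → E.U X}
    (ha : o.IsExp N y a) (hb : o.IsExp N y b) {i : ℕ} (hi : i ≤ N) : a i = b i := by
  have h := (o.zc_bij N X).1 (a₁ := fun i => a i) (a₂ := fun i => b i) (by
    unfold IsExp at ha hb
    rw [Finset.sum_range] at ha hb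
    exact ha.symm.trans hb)
  exact congrFun h ⟨i, Nat.lt_succ_of_le hi⟩

theorem exp_restrict {X : LC} [E.Good X] {M N : ℕ} (h : M ≤ N) {y : E.U (X ⊗ CPn N)}
    {a : ℕ → E.U X} (ha : o.IsExp N y a) : o.IsExp M (E.map (X ◁ cpIncl h) y) a := by
  unfold IsExp at ha ⊢
  rw [ha, map_sum]
  have h1 : ∀ i, E.map (X ◁ cpIncl h) (E.cross (a i) (o.zc N ^ i)) =
      E.cross (a i) (o.zc M ^ i) := fun i => by
    rw [← cross_map_right, o.map_zc_pow]
  simp only [h1]
  symm
  refine Finset.sum_subset ?_ ?_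
  · intro i hi
    rw [Finset.mem_range] at hi ⊢
    omega
  · intro i _ hi
    rw [Finset.mem_range] at hi
    rw [o.zc_pow_eq_zero (by omega), map_zero]

theorem exp_map {X Y : LC} [E.Good X] [E.Good Y] {N : ℕ} (f : Y ⟶ X) {y : E.U (X ⊗ CPn N)}
    {a : ℕ → E.U X} (ha : o.IsExp N y a) :
    o.IsExp N (E.map (f ▷ CPn N) y) (fun i => E.map f (a i)) := by
  unfold IsExp at ha ⊢
  rw [ha, map_sum]
  exact Finset.sum_congr rfl fun i _ => (cross_map_left _ _ _).symm

/-- multiplication by `1 × z` -/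
theorem exp_shift {X : LC} [E.Good X] [CompactSpace X] {N : ℕ} {y : E.U (X ⊗ CPn N)}
    {a : ℕ → E.U X} (ha : o.IsExp N y a) :
    o.IsExp N (y * E.cross 1 (o.zc N)) (fun i => if i = 0 then 0 else a (i - 1)) := by
  unfold IsExp at ha ⊢
  rw [ha, Finset.sum_mul, Finset.sum_range_succ, Finset.sum_range_succ']
  have h1 : ∀ i, E.cross (a i) (o.zc N ^ i) * E.cross 1 (o.zc N) =
      E.cross (a i) (o.zc N ^ (i + 1)) := fun i => by
    rw [cross_mul_cross, mul_one, pow_succ]
  simp only [h1]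
  rw [o.zc_pow_eq_zero (Nat.lt_succ_self N), map_zero, add_zero]
  simp

/-- homogeneity of the coefficients -/
theorem exp_deg {X : LC} [E.Good X] {N : ℕ} {y : E.U (X ⊗ CPn N)}
    {a : ℕ → E.U X} (ha : o.IsExp N y a) {k : ℤ} (hy : y ∈ E.deg (X ⊗ CPn N) k) {i : ℕ}
    (hi : i ≤ N) : a i ∈ E.deg X (k - i) := by
  have hz : ∀ i : ℕ, o.zc N ^ i ∈ E.deg (CPn N) i := by
    intro i
    induction i with
    | zero => rw [pow_zero]; exact oneU_deg (CPn N)
    | succ i ih =>
      rw [pow_succ]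
      have h1 : o.zc N ∈ E.deg (CPn N) 1 := by
        have := o.eGr_deg (n := 1) (I := Fin (N + 1))
        exact_mod_cast this
      have := mul_deg ih h1
      exact_mod_cast this
  have h2 : o.IsExp N y (fun i => E.proj X (k - i) (a i)) := by
    unfold IsExp
    rw [← proj_of_mem hy]
    conv_lhs => rw [ha]
    rw [map_sum]
    refine Finset.sum_congr rfl fun i _ => ?_
    have h3 := map_proj_of_deg (X := X) (Y := X ⊗ CPn N)
      (f := (AddMonoidHom.flip E.cross) (o.zc N ^ i)) (m := i)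
      (fun k x hx => cross_deg hx (hz i)) (k - i) (a i)
    rw [sub_add_cancel] at h3
    exact h3
  rw [exp_unique ha h2 hi]
  exact proj_mem _ _


/-! ### The Euler class of `V ⊗ λ` -/

section tensor

variable (o)
variable {X Y : LC} [CompactSpace X] [CompactSpace Y] [E.Good X] [E.Good Y]

/-- `V ⊗ λ` over `X × CP^N` -/
def tb (N : ℕ) (V : Bun X I) : Bun (X ⊗ CPn N : LC) (I × Fin (N + 1)) :=
  (V.pullback (fstC X (CPn N))).tensor ((taut 1 (Fin (N + 1))).pullback (sndC X (CPn N)))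

omit [CompactSpace X] in
theorem tb_P (N : ℕ) (V : Bun X I) (x : X) (y : CPn N) :
    (tb N V).P ((x, y) : X × CPn N) = kroneckerMap (· * ·) (V.P x) (Gr.P y) := rfl

omit [CompactSpace X] in
theorem isRank_tb (N : ℕ) {V : Bun X I} (h : V.IsRank n) : (tb N V).IsRank n := by
  have h1 : (tb N V).IsRank (n * 1) :=
    (h.pullback _).tensor ((taut_isRank 1 (Fin (N + 1))).pullback _)
  rwa [mul_one] at h1

/-- the Euler class of `V ⊗ λ` -/
def eT (N : ℕ) (V : Bun X I) (h : V.IsRank n) : E.U (X ⊗ CPn N) := o.eu (tb N V) (isRank_tb N h)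

theorem eT_deg (N : ℕ) (V : Bun X I) (h : V.IsRank n) : o.eT N V h ∈ E.deg (X ⊗ CPn N) n :=
  o.eu_deg _ _

theorem eT_map (N : ℕ) (f : C(Y, X)) (V : Bun X I) (h : V.IsRank n) :
    E.map (cmap f ▷ CPn N) (o.eT N V h) = o.eT N (V.pullback f) (h.pullback f) := by
  unfold eT
  have h1 : cmap f ▷ CPn N = cmap (pairC (f.comp (fstC Y (CPn N))) (sndC Y (CPn N))) := by
    apply tensor_ext; intro a b
    rw [app_whiskerRight_smash]
    rfl
  rw [h1, map_eu]
  rfl

section kron

variable [DecidableEq I] [DecidableEq J] [DecidableEq K]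

theorem kron_isom {u : Matrix J I ℂ} {L : Type} [Fintype L] [DecidableEq L] {w : Matrix L K ℂ}
    (hu : uᴴ * u = 1) (hw : wᴴ * w = 1) :
    (kroneckerMap (· * ·) u w)ᴴ * kroneckerMap (· * ·) u w = 1 := by
  rw [conjTranspose_kronecker, ← mul_kronecker_mul, hu, hw, one_kronecker_one]

theorem kron_conj {L : Type} [Fintype L] [DecidableEq L] (u : Matrix J I ℂ) (w : Matrix L K ℂ)
    (P : Matrix I I ℂ) (Q : Matrix K K ℂ) :
    kroneckerMap (· * ·) (u * P * uᴴ) (w * Q * wᴴ) =
      kroneckerMap (· * ·) u w * kroneckerMap (· * ·) P Q * (kroneckerMap (· * ·) u w)ᴴ := by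
  rw [mul_kronecker_mul, mul_kronecker_mul, conjTranspose_kronecker]

end kron

theorem eT_isom [DecidableEq I] [DecidableEq J] (N : ℕ) (u : Matrix J I ℂ) (hu : uᴴ * u = 1)
    (V : Bun X I) (h : V.IsRank n) (V' : Bun X J) (h' : V'.IsRank n)
    (hP : ∀ x, V'.P x = u * V.P x * uᴴ) : o.eT N V' h' = o.eT N V h := by
  refine o.eu_isom (kroneckerMap (· * ·) u 1) (kron_isom hu isom_one) _ _ _ _ ?_
  rintro ⟨x, y⟩
  rw [tb_P, tb_P, ← kron_conj, hP]
  congr 1
  simp

theorem eT_restrict {M N : ℕ} (hMN : M ≤ N) (V : Bun X I) (h : V.IsRank n) :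
    E.map (X ◁ cpIncl hMN) (o.eT N V h) = o.eT M V h := by
  classical
  unfold eT
  have h1 : X ◁ cpIncl hMN = cmap (pairC (fstC X (CPn M))
      ((grMapC 1 (injMat (Fin.castLE (Nat.succ_le_succ hMN)))
        (injMat_isom (Fin.castLE_injective _))).comp (sndC X (CPn M)))) := by
    apply tensor_ext; intro a b
    rw [app_whiskerLeft_smash]
    rfl
  rw [h1, map_eu]
  refine o.eu_isom (kroneckerMap (· * ·) 1 (injMat (Fin.castLE (Nat.succ_le_succ hMN))))
    (kron_isom isom_one (injMat_isom (Fin.castLE_injective _))) _ _ _ _ ?_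
  rintro ⟨x, y⟩
  rw [tb_P, ← kron_conj]
  change kroneckerMap (· * ·) (V.P x) _ = _
  congr 1
  simp

/-- the distributivity isometry -/
theorem eT_sum (N : ℕ) (V : Bun X I) (h : V.IsRank n) (W : Bun X J) (h' : W.IsRank m)
    (hs : (V.sum W).IsRank p) (hp : n + m = p) :
    o.eT N (V.sum W) hs = o.eT N V h * o.eT N W h' := by
  classical
  unfold eT
  rw [← o.eu_sum (tb N V) (isRank_tb N h) (tb N W) (isRank_tb N h')
    (by rw [← hp]; exact (isRank_tb N h).sum (isRank_tb N h')) hp]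
  refine o.eu_isom (injMat (Equiv.sumProdDistrib I J (Fin (N + 1))).symm)
    (injMat_isom (Equiv.injective _)) _ _ _ _ ?_
  rintro ⟨x, y⟩
  rw [injMat_equiv_conj]
  ext ⟨i | i, k⟩ ⟨j | j, l⟩
  · rfl
  · change _ * _ = (0 : ℂ)
    simp
  · change _ * _ = (0 : ℂ)
    simp
  · rfl

/-- the Euler class of `1 ⊗ λ` -/
theorem eT_triv (N : ℕ) (h : (Bun.triv X Unit).IsRank 1) :
    o.eT N (Bun.triv X Unit) h = E.cross 1 (o.zc N) := by
  classical
  have h1 : E.map (cmap (sndC X (CPn N))) (o.zc N) = o.eT N (Bun.triv X Unit) h := by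
    have h0 : o.zc N = o.eu (X := CPn N) (taut 1 (Fin (N + 1))) (taut_isRank 1 _) :=
      (o.eu_taut).symm
    rw [h0, map_eu]
    symm
    refine o.eu_isom (injMat (fun k : Fin (N + 1) => ((), k)))
      (injMat_isom (fun a b hab => (Prod.mk.inj hab).2)) _ _ _ _ ?_
    rintro ⟨x, y⟩
    have h2 : (fun k : Fin (N + 1) => ((), k)) = (Equiv.punitProd (Fin (N + 1))).symm := rfl
    rw [h2, injMat_equiv_conj]
    ext ⟨i, k⟩ ⟨j, l⟩
    change (1 : Matrix Unit Unit ℂ) i j * _ = _
    rw [Subsingleton.elim i j, one_apply_eq, one_mul]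
    rfl
  rw [← h1, map_cmap_snd]

theorem eT_zero (V : Bun X I) (h : V.IsRank n) : o.eT 0 V h = E.cross (o.eu V h) 1 := by
  classical
  rw [← map_cmap_fst, map_eu]
  refine o.eu_isom (injMat (fun i : I => (i, (0 : Fin 1))))
    (injMat_isom (fun a b hab => (Prod.mk.inj hab).1)) _ _ _ _ ?_
  rintro ⟨x, y⟩
  have h2 : (fun i : I => (i, (0 : Fin 1))) = (Equiv.prodUnique I (Fin 1)).symm := by
    funext i; rfl
  rw [h2, injMat_equiv_conj]
  have hy : Gr.P y = (1 : Matrix (Fin 1) (Fin 1) ℂ) := by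
    have h3 := (Gr.isProj y).trace
    ext (i : Fin 1) (j : Fin 1)
    rw [Subsingleton.elim i 0, Subsingleton.elim j 0, one_apply_eq]
    simpa [Matrix.trace] using h3
  rw [tb_P, hy]
  ext ⟨i, (k : Fin 1)⟩ ⟨j, (l : Fin 1)⟩
  change V.P x i j * (1 : Matrix (Fin 1) (Fin 1) ℂ) k l = _
  rw [Subsingleton.elim k l, one_apply_eq, mul_one]
  rfl

end tensor

/-! ### The classes -/

section classes

variable {X Y : LC} [CompactSpace X] [CompactSpace Y] [E.Good X] [E.Good Y]

open scoped Classical in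
variable (o) in
/-- the coefficient of `z^i` in the Euler class of `V ⊗ λ` -/
def cc (V : Bun X I) (h : V.IsRank n) (i : ℕ) : E.U X :=
  if hx : ∃ a, o.IsExp i (o.eT i V h) a then hx.choose i else 0


variable (o)

theorem exp_cc (V : Bun X I) (h : V.IsRank n) (N : ℕ) :
    o.IsExp N (o.eT N V h) (o.cc V h) := by
  obtain ⟨a, ha⟩ := o.exists_exp N (o.eT N V h)
  have h1 : ∀ i, i ≤ N → a i = o.cc V h i := by
    intro i hi
    have h2 := exp_restrict hi ha
    rw [o.eT_restrict] at h2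
    have h3 : ∃ a, o.IsExp i (o.eT i V h) a := ⟨a, h2⟩
    unfold cc
    rw [dif_pos h3]
    exact exp_unique h2 h3.choose_spec le_rfl
  unfold IsExp at ha ⊢
  rw [ha]
  refine Finset.sum_congr rfl fun i hi => ?_
  rw [h1 i (Nat.lt_succ_iff.mp (Finset.mem_range.mp hi))]

theorem cc_eq {V : Bun X I} {h : V.IsRank n} {N : ℕ} {a : ℕ → E.U X}
    (ha : o.IsExp N (o.eT N V h) a) {i : ℕ} (hi : i ≤ N) : o.cc V h i = a i :=
  exp_unique (o.exp_cc V h N) ha hi

theorem map_cc (f : C(Y, X)) (V : Bun X I) (h : V.IsRank n) (i : ℕ) :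
    E.map (cmap f) (o.cc V h i) = o.cc (V.pullback f) (h.pullback f) i := by
  have h1 := exp_map (cmap f) (o.exp_cc V h i)
  rw [o.eT_map] at h1
  exact (cc_eq o h1 le_rfl).symm

theorem cc_isom [DecidableEq I] [DecidableEq J] (u : Matrix J I ℂ) (hu : uᴴ * u = 1)
    (V : Bun X I) (h : V.IsRank n) (V' : Bun X J) (h' : V'.IsRank n)
    (hP : ∀ x, V'.P x = u * V.P x * uᴴ) (i : ℕ) : o.cc V' h' i = o.cc V h i := by
  have h1 := o.exp_cc V h i
  rw [← o.eT_isom i u hu V h V' h' hP] at h1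
  exact cc_eq o h1 le_rfl

theorem cc_add_one (V : Bun X I) (h : V.IsRank n)
    (hs : (V.sum (Bun.triv X Unit)).IsRank (n + 1)) (i : ℕ) :
    o.cc (V.sum (Bun.triv X Unit)) hs i = if i = 0 then 0 else o.cc V h (i - 1) := by
  have ht : (Bun.triv X Unit).IsRank 1 := by
    have := Bun.isRank_triv (X := X) (I := Unit)
    rwa [Fintype.card_unit] at this
  have h1 := exp_shift (o.exp_cc V h i)
  rw [← o.eT_triv i ht, ← o.eT_sum i V h _ ht hs rfl] at h1
  exact cc_eq o h1 le_rfl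

theorem cc_zero (V : Bun X I) (h : V.IsRank n) : o.cc V h 0 = o.eu V h := by
  have h1 : o.IsExp 0 (o.eT 0 V h) (fun _ => o.eu V h) := by
    unfold IsExp
    rw [o.eT_zero]
    simp
  exact cc_eq o h1 le_rfl

theorem cc_deg (V : Bun X I) (h : V.IsRank n) (i : ℕ) :
    o.cc V h i ∈ E.deg X (n - i) :=
  exp_deg (o.exp_cc V h i) (o.eT_deg i V h) le_rfl

end classes

end Orientation

end Vale.Agent.P251.Q
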