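import Vale.Agent.P251.Q.Core
import Mathlib.Algebra.DirectSum.Decomposition

/-!
# P251, part Q: homogeneous components

A polynomial in `v` with coefficients in a homogeneous submodule which is homogeneous can be written
with homogeneous coefficients (`exists_homog`).
-/

open Finset

namespace Vale.Agent.P251.Q

/-- Every element of `N` is a sum of homogeneous elements of `N`. -/
def IsHomogSub {U : Type*} [AddCommGroup U] (gU : ℤ → AddSubgroup U) (N : AddSubgroup U) : Prop :=
  N ≤ ⨆ i, N ⊓ gU i

section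

variable {U W : Type*} [AddCommGroup U] [AddCommGroup W] {gU : ℤ → AddSubgroup U}
  {gW : ℤ → AddSubgroup W}

theorem IsHomogSub.exists_dfinsupp {N : AddSubgroup U} (h : IsHomogSub gU N) {u : U} (hu : u ∈ N) :
    ∃ f : ℤ →₀ U, (∀ i, f i ∈ N ⊓ gU i) ∧ (f.sum fun _ x => x) = u := by
  have h1 := h hu
  clear hu
  induction h1 using AddSubgroup.iSup_induction' with
  | hp i u hu =>
    refine ⟨Finsupp.single i u, fun j => ?_, by simp⟩
    by_cases hij : i = j
    · subst hij; rw [Finsupp.single_eq_same]; exact hu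
    · rw [Finsupp.single_eq_of_ne' hij]; exact zero_mem _
  | h1 => exact ⟨0, fun i => zero_mem _, by simp⟩
  | hadd a b _ _ ha hb =>
    obtain ⟨f, hf, rfl⟩ := ha
    obtain ⟨g, hg, rfl⟩ := hb
    exact ⟨f + g, fun i => add_mem (hf i) (hg i), Finsupp.sum_add_index' (by simp) (by simp)⟩

/-- If the gradings are independent, then a homogeneous element of degree `d` which is a sum of
elements `F l (r l)`, `F l : U → W` of degree `l`, `r l ∈ N` with `N` homogeneous, is such a sum with
`r l` homogeneous of degree `d - l`. -/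
theorem exists_homog (hW : iSupIndep gW) {N : AddSubgroup U} (hN : IsHomogSub gU N)
    (n : ℕ) (F : ℕ → U →+ W) (hF : ∀ (l : ℕ) (i : ℤ) (u : U), u ∈ gU i → F l u ∈ gW (i + l)) {d : ℤ} {z : W}
    (hz : z ∈ gW d) (r : ℕ → U) (hr : ∀ l, r l ∈ N) (h : z = ∑ l ∈ range n, F l (r l)) :
    ∃ r' : ℕ → U, (∀ l : ℕ, r' l ∈ gU (d - l)) ∧ (∀ l, r' l ∈ N) ∧
      z = ∑ l ∈ range n, F l (r' l) := by
  classical
  choose f hf1 hf2 using fun l => hN.exists_dfinsupp (hr l)
  refine ⟨fun l => f l (d - l), fun l => (hf1 l _).2, fun l => (hf1 l _).1, ?_⟩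
  -- the set of relevant total degrees
  set S : Finset ℤ := insert d ((range n).biUnion fun l => (f l).support.image (fun i => i + (l : ℤ)))
    with hS
  set zz : ℤ → W := fun e => ∑ l ∈ range n, F l (f l (e - l)) with hzz
  have hzzmem : ∀ e, zz e ∈ gW e := by
    intro e
    refine sum_mem fun l _ => ?_
    have := hF l _ _ (hf1 l (e - l)).2
    rwa [sub_add_cancel] at this
  have htot : z = ∑ e ∈ S, zz e := by
    rw [h, hzz, sum_comm]
    refine sum_congr rfl fun l hl => ?_
    rw [← map_sum]
    congr 1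
    rw [← hf2 l]
    unfold Finsupp.sum
    have hinj : Set.InjOn (fun i : ℤ => i + (l : ℤ)) (f l).support := by
      intro a _ b _ hab
      simpa using hab
    have h1 : ∑ e ∈ (f l).support.image (fun i => i + (l : ℤ)), (f l) (e - l) =
        ∑ i ∈ (f l).support, f l i := by
      rw [sum_image hinj]
      refine sum_congr rfl fun i _ => by simp
    rw [← h1]
    refine sum_subset ?_ ?_
    · intro e he
      refine mem_insert_of_mem (mem_biUnion.2 ⟨l, hl, he⟩)
    · intro e _ he
      by_contra hne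
      apply he
      refine mem_image.2 ⟨e - l, ?_, by ring⟩
      exact Finsupp.mem_support_iff.2 hne
  have hd : d ∈ S := mem_insert_self _ _
  have h2 : z - zz d = ∑ e ∈ S.erase d, zz e := by
    rw [htot, ← add_sum_erase S zz hd]
    abel
  have h3 : z - zz d ∈ gW d := sub_mem hz (hzzmem d)
  have h4 : z - zz d ∈ ⨆ (e) (_ : e ≠ d), gW e := by
    rw [h2]
    refine sum_mem fun e he => ?_
    have : gW e ≤ ⨆ (e) (_ : e ≠ d), gW e :=
      le_iSup₂_of_le (f := fun e (_ : e ≠ d) => gW e) e (mem_erase.1 he).1 le_rfl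
    exact this (hzzmem e)
  have h5 := (hW d).le_bot ⟨h3, h4⟩
  rw [AddSubgroup.mem_bot, sub_eq_zero] at h5
  exact h5

end

section span

variable {C : Type*} [CommRing C] {U : Type*} [AddCommGroup U] [Module C U]
  {gC : ℤ → AddSubgroup C} {gU : ℤ → AddSubgroup U}

/-- The span of a set of homogeneous elements is homogeneous. -/
theorem isHomogSub_span (hC : ∀ c : C, c ∈ ⨆ i, gC i)
    (hsmul : ∀ i j c u, c ∈ gC i → u ∈ gU j → c • u ∈ gU (i + j))
    (s : Set U) (hs : ∀ u ∈ s, ∃ i, u ∈ gU i) :
    IsHomogSub gU (Submodule.span C s).toAddSubgroup := by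
  intro u hu
  have hu' : u ∈ Submodule.span C s := hu
  clear hu
  -- every `c • x` with `x ∈ s` is a sum of homogeneous elements of the span
  have key : ∀ (c : C) (x : U), x ∈ s →
      c • x ∈ ⨆ i, (Submodule.span C s).toAddSubgroup ⊓ gU i := by
    intro c x hx
    obtain ⟨j, hj⟩ := hs x hx
    have hc := hC c
    induction hc using AddSubgroup.iSup_induction' with
    | hp i c hc =>
      have : c • x ∈ (Submodule.span C s).toAddSubgroup ⊓ gU (i + j) :=
        ⟨Submodule.smul_mem _ c (Submodule.subset_span hx), hsmul _ _ _ _ hc hj⟩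
      exact (le_iSup (fun i => (Submodule.span C s).toAddSubgroup ⊓ gU i) (i + j)) this
    | h1 => rw [zero_smul]; exact zero_mem _
    | hadd a b _ _ ha hb => rw [add_smul]; exact add_mem ha hb
  rw [← Set.image_id s] at hu'
  rw [Finsupp.mem_span_image_iff_linearCombination] at hu'
  obtain ⟨l, hl, rfl⟩ := hu'
  rw [Finsupp.linearCombination_apply]
  unfold Finsupp.sum
  refine sum_mem fun x hx => ?_
  exact key _ _ (hl hx)

end span

namespace LensTower

variable {p : ℕ} {C : Type*} [CommRing C] {U : Type*} [AddCommGroup U] [Module C U]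
    {V : ℕ → Type*} [∀ k, AddCommGroup (V k)] [∀ k, Module C (V k)]
    (T : LensTower p C U V)

/-- `R d` is a homogeneous submodule if `C` is spanned by its homogeneous elements. -/
theorem isHomogSub_R (hC : ∀ c : C, c ∈ ⨆ i, T.gC i) (d : ℤ) :
    IsHomogSub T.gU (T.R d).toAddSubgroup := by
  refine isHomogSub_span hC T.smul_deg _ ?_
  intro u hu
  obtain ⟨i, hi⟩ := Set.mem_iUnion.1 hu
  exact ⟨i, hi⟩

/-- A polynomial in `v` with arbitrary coefficients in a homogeneous submodule which is homogeneous as an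
element of `V k` is a homogeneous polynomial. -/
theorem IsPoly.of_total {T : LensTower p C U V} {k : ℕ} (hV : iSupIndep (T.gV k))
    {N : Submodule C U} (hN : IsHomogSub T.gU N.toAddSubgroup) {d : ℤ} {z : V k}
    (hz : z ∈ T.gV k d) (r : ℕ → U) (hr : ∀ l, r l ∈ N)
    (h : z = ∑ l ∈ range (k + 1), (T.v k ^ l) (T.pull k (r l))) : T.IsPoly N k d z := by
  obtain ⟨r', h1, h2, h3⟩ := exists_homog (gU := T.gU) hV hN (k + 1)
    (fun l => ((T.v k ^ l).comp (T.pull k)).toAddMonoidHom)
    (fun l i u hu => T.v_pow_deg k l _ _ (T.pull_deg k _ _ hu)) hz r hr h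
  exact ⟨r', h1, h2, h3⟩

end LensTower

end Vale.Agent.P251.Q
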