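import Mathlib.Algebra.Module.Basic
import Mathlib.Data.Nat.Prime.Basic
import Mathlib.RingTheory.Coprime.Lemmas
import Mathlib.Tactic

/-!
# P251, part Q: injectivity of `Laz / p → π_{2*}(MU) / p` (pure algebra)

`L` is the part of some weight of the Lazard ring, `P` the homotopy group of `MU` in that degree and
`Z` the corresponding part of `ℤ[b₁, b₂, …]`.
-/

namespace Vale.Agent.P251.Q

variable {L P Z : Type*} [AddCommGroup L] [AddCommGroup P] [AddCommGroup Z]

/-- iterated surjectivity modulo `p` -/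
theorem surj_mod_pow {p : ℕ} (φ : L →+ P) (hgen : ∀ x : P, ∃ l y, x = φ l + p • y) (k : ℕ) (x : P) :
    ∃ l y, x = φ l + p ^ k • y := by
  induction k generalizing x with
  | zero => exact ⟨0, x, by simp⟩
  | succ k ih =>
    obtain ⟨l, y, rfl⟩ := ih x
    obtain ⟨l', y', rfl⟩ := hgen y
    refine ⟨l + p ^ k • l', y', ?_⟩
    rw [map_add, map_nsmul, smul_add, ← add_assoc, pow_succ, mul_smul]

/-- If `P = φ(L) + p P` and `h : P → Z` is such that `h ∘ φ` is injective with image containing `N Z`,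
`N > 0`, then `φ a ∈ p P` implies `a ∈ p L`. -/
theorem inj_mod_p {p : ℕ} (hp : p.Prime) (φ : L →+ P) (h : P →+ Z)
    (hinj : Function.Injective fun l => h (φ l)) {N : ℕ} (hN : 0 < N)
    (hfin : ∀ z : Z, ∃ l, N • z = h (φ l)) (hgen : ∀ x : P, ∃ l y, x = φ l + p • y)
    {a : L} {b : P} (hab : φ a = p • b) : ∃ c, a = p • c := by
  obtain ⟨s, m, hm, hNm⟩ := Nat.exists_eq_pow_mul_and_not_dvd hN.ne' p hp.ne_one
  obtain ⟨l, y, hl⟩ := surj_mod_pow φ hgen s b
  obtain ⟨l', hl'⟩ := hfin (h y)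
  -- `m h(b)` is in the image
  have h1 : m • h b = h (φ (m • l + l')) := by
    rw [hl, map_add, map_nsmul, smul_add, map_add, map_add, ← hl', ← mul_smul, map_nsmul, map_nsmul,
      hNm, mul_comm m]
  have h2 : m • a = p • (m • l + l') := by
    apply hinj
    show h (φ (m • a)) = h (φ (p • (m • l + l')))
    rw [map_nsmul φ p, map_nsmul h p, ← h1, map_nsmul, map_nsmul, hab, map_nsmul, ← mul_smul,
      ← mul_smul, mul_comm]
  have hcop : IsCoprime (m : ℤ) (p : ℤ) := by
    rw [Nat.isCoprime_iff_coprime]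
    exact (Nat.coprime_comm.1 ((Nat.Prime.coprime_iff_not_dvd hp).2 hm))
  obtain ⟨α, β, hαβ⟩ := hcop
  refine ⟨α • (m • l + l') + β • a, ?_⟩
  calc a = (1 : ℤ) • a := (one_smul _ _).symm
    _ = α • (m • a) + (β * p) • a := by
        rw [← hαβ, add_smul, mul_smul, Nat.cast_smul_eq_nsmul]
    _ = _ := by
        rw [h2, smul_comm α p, mul_comm β, mul_smul (p : ℤ), Nat.cast_smul_eq_nsmul, ← smul_add]

/-- The version modulo `p ^ j`, if moreover `P` has no `p`-torsion. -/
theorem inj_mod_pow {p : ℕ} (hp : p.Prime) (φ : L →+ P) (h : P →+ Z)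
    (hinj : Function.Injective fun l => h (φ l)) {N : ℕ} (hN : 0 < N)
    (hfin : ∀ z : Z, ∃ l, N • z = h (φ l)) (hgen : ∀ x : P, ∃ l y, x = φ l + p • y)
    (htors : ∀ x : P, p • x = 0 → x = 0) (j : ℕ)
    {a : L} {b : P} (hab : φ a = p ^ j • b) : ∃ c, a = p ^ j • c := by
  induction j generalizing a b with
  | zero => exact ⟨a, by simp⟩
  | succ j ih =>
    rw [pow_succ', mul_smul] at hab
    obtain ⟨c, rfl⟩ := inj_mod_p hp φ h hinj hN hfin hgen hab
    have h1 : φ c = p ^ j • b := by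
      rw [← sub_eq_zero]
      apply htors
      rw [smul_sub, ← hab, map_nsmul, sub_self]
    obtain ⟨d, rfl⟩ := ih h1
    exact ⟨d, by rw [pow_succ', mul_smul]⟩

end Vale.Agent.P251.Q
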