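import Vale.Agent.P251.Q.Ring

/-!
# P251, part Q: products with a Thom class, and the abstract lens lemma

* `E.thom f t Z : E.U (B ⊗ Z) →+ E.U (T ⊗ Z)` for `f : C(T, B)`, `t : E.U T`: multiplication
  with `t` (pull back of `y × t` along `(e, z) ↦ ((f e, z), e)`);
* `thom_cross`, `map_section_thom`, `map_thom`;
* `lens_abs`: the abstract form of the lens lemma.
-/

open CategoryTheory MonoidalCategory OnePoint Topology
open Vale.Agent.P251.G Vale.Agent.P251.G.LC

universe v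

namespace Vale.Agent.P251.Q

section perm

/-- `(B ⊗ T) ⊗ Z ⟶ (B ⊗ Z) ⊗ T` -/
def perm23 (B T Z : LC) : (B ⊗ T) ⊗ Z ≅ (B ⊗ Z) ⊗ T :=
  ofHomeo (X := LC.of ((B × T) × Z)) (Y := LC.of ((B × Z) × T))
    { toFun := fun p => ((p.1.1, p.2), p.1.2)
      invFun := fun p => ((p.1.1, p.2), p.1.2)
      left_inv := fun _ => rfl
      right_inv := fun _ => rfl
      continuous_toFun := by fun_prop
      continuous_invFun := by fun_prop }

theorem app_perm23 {B T Z : LC} (b : OnePoint B) (t : OnePoint T) (z : OnePoint Z) :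
    app (perm23 B T Z).hom (smash (smash b t) z) = smash (smash b z) t := by
  induction b using OnePoint.rec with
  | infty => exact app_infty (perm23 B T Z).hom
  | coe b =>
    induction t using OnePoint.rec with
    | infty =>
      rw [smash_infty_right, smash_infty_left, smash_infty_right]
      exact app_infty (perm23 B T Z).hom
    | coe t =>
      induction z using OnePoint.rec with
      | infty =>
        rw [smash_infty_right, smash_infty_right, smash_infty_left]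
        exact app_infty (perm23 B T Z).hom
      | coe z => rfl

end perm

namespace MultTheory

variable (E : MultTheory.{v})
variable {B B' T T' D Z : LC}

/-- multiplication with `t : E.U T`, where `T` lies over `B` by `f` -/
def thom (f : C(T, B)) (t : E.U T) (Z : LC) : E.U (B ⊗ Z) →+ E.U (T ⊗ Z) :=
  (E.map (graph f ▷ Z ≫ (perm23 B T Z).hom)).comp (AddMonoidHom.flip E.cross t)

theorem thom_apply (f : C(T, B)) (t : E.U T) (Z : LC) (y : E.U (B ⊗ Z)) :
    E.thom f t Z y = E.map (graph f ▷ Z ≫ (perm23 B T Z).hom) (E.cross y t) := rfl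

section

variable {E} [hB : E.Good B] [hB' : E.Good B'] [hT : E.Good T] [hT' : E.Good T']
  [hD : E.Good D] [hZ : E.Good Z]

theorem thom_deg (f : C(T, B)) {t : E.U T} {n k : ℤ} (ht : t ∈ E.deg T n) {y : E.U (B ⊗ Z)}
    (hy : y ∈ E.deg (B ⊗ Z) k) : E.thom f t Z y ∈ E.deg (T ⊗ Z) (k + n) :=
  map_deg _ (cross_deg hy ht)

theorem cross_perm (b : E.U B) (z : E.U Z) (t : E.U T) :
    E.map (perm23 B T Z).hom (E.cross (E.cross b z) t) = E.cross (E.cross b t) z := by
  have h1 : (perm23 B T Z).hom =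
      (α_ B T Z).hom ≫ (B ◁ (β_ T Z).hom) ≫ (α_ B Z T).inv := by
    apply LC.hom_ext
    rintro ⟨⟨b, t⟩, z⟩
    rfl
  rw [h1, map_comp, map_comp, cross_assoc_inv, ← cross_map_right, cross_comm, cross_assoc]

theorem thom_cross (f : C(T, B)) (t : E.U T) (b : E.U B) (z : E.U Z) :
    E.thom f t Z (E.cross b z) = E.cross (E.act f b t) z := by
  rw [thom_apply, map_comp, cross_perm, act_apply, cross_map_left]

/-- restriction of `y t` to a section -/
theorem map_section_thom (f : C(T, B)) (t : E.U T) (s : B ⟶ T)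
    (hs : ∀ (b : B) (e : T), app s (b : OnePoint B) = e → f e = b) (y : E.U (B ⊗ Z)) :
    E.map (s ▷ Z) (E.thom f t Z y) = E.act (fstC B Z) (E.map s t) y := by
  rw [thom_apply, act_apply, cross_map_left, ← cross_comm y t, ← map_comp, ← map_comp,
    ← map_comp]
  congr 2
  apply LC.tensor_ext
  intro b z
  rw [app_comp, app_comp, app_comp, app_comp, app_whiskerRight_smash, app_whiskerRight_smash]
  have h1 : app (graph (fstC B Z)) (smash (b : OnePoint B) (z : OnePoint Z)) =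
      smash (b : OnePoint B) (smash (b : OnePoint B) (z : OnePoint Z)) := rfl
  rw [h1, app_whiskerRight_smash]
  cases he : app s (b : OnePoint B) using OnePoint.rec with
  | infty =>
    rw [app_infty, smash_infty_left, smash_infty_left]
    exact (congrArg (app (β_ (B ⊗ Z) T).hom) (app_infty (perm23 B T Z).hom)).trans
      (app_infty (β_ (B ⊗ Z) T).hom)
  | coe e =>
    rw [app_graph, hs b e he, app_perm23, app_braiding_smash]

/-- naturality -/
theorem map_thom (f : C(T, B)) (f' : C(T', B')) (g : T' ⟶ T) (g₀ : B' ⟶ B)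
    (h : g ≫ graph f = graph f' ≫ (g₀ ⊗ₘ g)) (t : E.U T) (y : E.U (B ⊗ Z)) :
    E.map (g ▷ Z) (E.thom f t Z y) = E.thom f' (E.map g t) Z (E.map (g₀ ▷ Z) y) := by
  have h2 : g ▷ Z ≫ graph f ▷ Z ≫ (perm23 B T Z).hom =
      (graph f' ▷ Z ≫ (perm23 B' T' Z).hom) ≫ ((g₀ ▷ Z) ⊗ₘ g) := by
    rw [← Category.assoc, ← MonoidalCategory.comp_whiskerRight, h,
      MonoidalCategory.comp_whiskerRight, Category.assoc, Category.assoc]
    congr 1
    apply LC.hom_ext
    rintro ⟨⟨b, t⟩, z⟩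
    change app ((g₀ ⊗ₘ g) ▷ Z ≫ (perm23 B T Z).hom)
      (smash (smash (b : OnePoint B') (t : OnePoint T')) (z : OnePoint Z)) =
      app ((perm23 B' T' Z).hom ≫ ((g₀ ▷ Z) ⊗ₘ g))
      (smash (smash (b : OnePoint B') (t : OnePoint T')) (z : OnePoint Z))
    rw [app_comp, app_comp, app_whiskerRight_smash, app_tensorHom_smash, app_perm23, app_perm23,
      app_tensorHom_smash, app_whiskerRight_smash]
  rw [thom_apply, thom_apply, cross_map, ← map_comp, ← map_comp, h2]

/-- **The lens lemma**, abstract form. -/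
theorem lens_abs (f : C(T, B)) (f' : C(T', B')) {t : E.U T} {t' : E.U T'}
    (s : B ⟶ T) (hs : ∀ (b : B) (e : T), app s (b : OnePoint B) = e → f e = b)
    (coll : T ⟶ D)
    (hexact : ∀ w : E.U (T ⊗ Z), E.map (s ▷ Z) w = 0 → ∃ o : E.U (D ⊗ Z), E.map (coll ▷ Z) o = w)
    (i : T' ⟶ T) (i₀ : B' ⟶ B) (hi : i ≫ graph f = graph f' ≫ (i₀ ⊗ₘ i)) (ht : E.map i t = t')
    (q : T' ⟶ LC.of ℂ) (c : LC.of ℂ ⟶ D) (H : Homotopic (i ≫ coll) (q ≫ c))
    {g : E.U B'} (hg : E.map q E.sg = E.act f' g t')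
    (hinj : Function.Injective (E.thom f' t' Z))
    {y : E.U (B ⊗ Z)} (hy : E.act (fstC B Z) (E.map s t) y = 0) :
    ∃ x : E.U Z, E.map (i₀ ▷ Z) y = E.cross g x := by
  obtain ⟨o, ho⟩ := hexact (E.thom f t Z y) (by rw [map_section_thom f t s hs, hy])
  have h1 : E.map (i ▷ Z) (E.thom f t Z y) = E.map (q ▷ Z) (E.map (c ▷ Z) o) := by
    rw [← ho, ← map_comp, ← map_comp, ← MonoidalCategory.comp_whiskerRight,
      ← MonoidalCategory.comp_whiskerRight]
    exact map_homotopic (H.whiskerRight Z) o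
  obtain ⟨x, hx⟩ := (sg_bijective Z).2 (E.map (β_ Z (LC.of ℂ)).hom (E.map (c ▷ Z) o))
  have hx' : E.cross x E.sg = E.map (β_ Z (LC.of ℂ)).hom (E.map (c ▷ Z) o) := hx
  have h2 : E.map (c ▷ Z) o = E.cross E.sg x := by
    have h3 := congrArg (E.map (β_ (LC.of ℂ) Z).hom) hx'
    rw [cross_comm, ← map_comp, SymmetricCategory.symmetry, map_id] at h3
    exact h3.symm
  refine ⟨x, hinj ?_⟩
  rw [thom_cross, ← hg, cross_map_left, ← h2, ← h1, map_thom f f' i i₀ hi, ht]

/-- The lens lemma with degrees. -/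
theorem lens_abs_deg {k : ℤ} (f : C(T, B)) (f' : C(T', B')) {t : E.U T} {t' : E.U T'}
    (s : B ⟶ T) (hs : ∀ (b : B) (e : T), app s (b : OnePoint B) = e → f e = b)
    (coll : T ⟶ D)
    (hexact : ∀ w : E.U (T ⊗ Z), E.map (s ▷ Z) w = 0 → ∃ o : E.U (D ⊗ Z), E.map (coll ▷ Z) o = w)
    (i : T' ⟶ T) (i₀ : B' ⟶ B) (hi : i ≫ graph f = graph f' ≫ (i₀ ⊗ₘ i)) (ht : E.map i t = t')
    (q : T' ⟶ LC.of ℂ) (c : LC.of ℂ ⟶ D) (H : Homotopic (i ≫ coll) (q ≫ c))
    {g : E.U B'} (hg0 : g ∈ E.deg B' 0) (hg : E.map q E.sg = E.act f' g t')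
    (hinj : Function.Injective (E.thom f' t' Z))
    {y : E.U (B ⊗ Z)} (hyk : y ∈ E.deg (B ⊗ Z) k)
    (hy : E.act (fstC B Z) (E.map s t) y = 0) :
    ∃ x ∈ E.deg Z k, E.map (i₀ ▷ Z) y = E.cross g x := by
  obtain ⟨x, hx⟩ := lens_abs f f' s hs coll hexact i i₀ hi ht q c H hg hinj hy
  refine ⟨E.proj Z k x, proj_mem k x, ?_⟩
  have h1 : ∀ l, ∀ z ∈ E.deg Z l, E.cross g z ∈ E.deg (B' ⊗ Z) (l + 0) := by
    intro l z hz
    have := cross_deg hg0 hz
    rw [zero_add] at this
    rwa [add_zero]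
  have h2 := map_proj_of_deg (f := E.cross g) (m := 0) h1 k x
  rw [add_zero] at h2
  have h3 : E.map (i₀ ▷ Z) y ∈ E.deg (B' ⊗ Z) k := map_deg _ hyk
  rw [← h2, ← hx, proj_of_mem h3]

end

end MultTheory

end Vale.Agent.P251.Q
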