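import Vale.Agent.P251.Q.LensAbs
import Vale.Agent.P251.Q.Euler
import Vale.Agent.P251.G.LensLC

/-!
# P251, part Q: the Thom isomorphism over `B ⊗ Z`, `B` compact, in the form used by the lens lemma

For a compact object `B` and `W : Bun B ι` of rank `n`:
* `clsHom W hW : W.tot ⟶ Th n ι` the classifying map, `o.thomCl W hW : E.U W.tot` the Thom class,
  `= o.phi W hW 1`;
* `thom_bijective : Function.Bijective (E.thom base (o.thomCl W hW) Z)`;
* `thomCl_isoMap` : naturality for isometric bundle maps.
-/

set_option linter.unusedSectionVars false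
set_option linter.style.haveILetI false

open CategoryTheory MonoidalCategory OnePoint Topology Matrix
open Vale.Agent.P251.G Vale.Agent.P251.G.LC Vale.Agent.P251.G.Bun

universe v

noncomputable section

namespace Vale.Agent.P251.Q

open MultTheory

section

variable {B : LC} [CompactSpace B] {ι κ : Type} [Fintype ι] [Fintype κ] {n : ℕ}

/-- the classifying map -/
def clsHom (W : Bun B ι) (hW : W.IsRank n) : W.tot ⟶ ThO n ι :=
  LC.ofProper (X := W.tot) (Y := ThO n ι) (W.toTh hW) (W.continuous_toTh hW)
    (by
      refine Th.tendsto_cocompact_iff.mpr ?_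
      have h := W.tendsto_nsq_vec
      have h2 : Filter.Tendsto (fun e : W.E => nsq (Bun.vec e)) (Filter.cocompact W.E)
          Filter.atTop := by
        have h3 : Filter.Tendsto (fun x : ℝ => |x|) (Filter.cocompact ℝ) Filter.atTop :=
          tendsto_norm_cocompact_atTop
        refine (h3.comp h).congr fun e => ?_
        exact abs_of_nonneg (nsq_nonneg _)
      exact h2)

@[simp] theorem app_clsHom_coe (W : Bun B ι) (hW : W.IsRank n) (e : W.E) :
    app (clsHom W hW) (e : OnePoint W.E) = (W.toTh hW e : OnePoint (Th n ι)) := rfl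

variable {E : MultTheory.{v}} (o : Orientation E)

/-- the Thom class of a bundle over a compact base -/
def _root_.Vale.Agent.P251.Q.Orientation.thomCl (W : Bun B ι) (hW : W.IsRank n) : E.U W.tot :=
  E.map (clsHom W hW) (o.tau n ι)

theorem thomCl_deg (W : Bun B ι) [E.Good W.tot] (hW : W.IsRank n) :
    o.thomCl W hW ∈ E.deg W.tot n := by
  haveI := o.goodTh
  exact map_deg _ (o.tau_deg n ι)

theorem phi_one [E.Good B] (W : Bun B ι) [E.Good W.tot] (hW : W.IsRank n) :
    o.phi W hW (E.oneU B) = o.thomCl W hW := by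
  haveI := o.goodTh
  rw [phi_apply, oneU, cross_map_left, one_cross, ← MultTheory.map_comp, ← MultTheory.map_comp]
  exact congrArg (fun k => E.map k _) (hom_ext fun _ => rfl)

/-- comparison with the Thom class of `Q/Euler.lean` -/
theorem thomCl_eq_thom [E.Good B] (W : Bun B ι) [E.Good W.tot] (hW : W.IsRank n) :
    o.thomCl W hW = o.thom W hW := (phi_one o W hW).symm

/-- The total space of the bundle pulled back to `B ⊗ Z`. -/
def pullIso (W : Bun B ι) (Z : LC) : W.tot ⊗ Z ≅ Bun.tot (X := (B ⊗ Z : LC))
    (W.pullback (fstC B Z)) :=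
  ofHomeo (X := LC.of (W.E × Z)) (Y := Bun.tot (X := (B ⊗ Z : LC)) (W.pullback (fstC B Z)))
    { toFun := fun p => mkE (X := (B ⊗ Z : LC)) _ ((base p.1, p.2) : B × Z) (vec p.1) (P_vec p.1)
      invFun := fun e => (W.mkE (base (X := (B ⊗ Z : LC)) e).1 (vec (X := (B ⊗ Z : LC)) e)
        (P_vec (X := (B ⊗ Z : LC)) e), (base (X := (B ⊗ Z : LC)) e).2)
      left_inv := fun _ => rfl
      right_inv := fun _ => rfl
      continuous_toFun := continuous_mkE (X := (B ⊗ Z : LC))
        ((continuous_base.comp continuous_fst).prodMk continuous_snd)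
        (continuous_vec.comp continuous_fst) _
      continuous_invFun := by
        have hb : Continuous fun e : Bun.E (X := (B ⊗ Z : LC)) (W.pullback (fstC B Z)) =>
            (base (X := (B ⊗ Z : LC)) e : B × Z) := continuous_base
        exact (continuous_mkE (continuous_fst.comp hb) continuous_vec _).prodMk
          (continuous_snd.comp hb) }

theorem app_pullIso_hom_coe (W : Bun B ι) (Z : LC) (e : W.E) (z : Z) :
    app (pullIso W Z).hom (((e, z) : W.E × Z) : OnePoint (W.E × Z)) =
      ((mkE (X := (B ⊗ Z : LC)) (W.pullback (fstC B Z)) ((base e, z) : B × Z) (vec e) (P_vec e) :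
        Bun.E (X := (B ⊗ Z : LC)) (W.pullback (fstC B Z))) : OnePoint _) := rfl

theorem isRank_pullFst {W : Bun B ι} (hW : W.IsRank n) (Z : LC) :
    (W.pullback (fstC B Z)).IsRank n := fun _ => hW _

/-- The product with the Thom class in terms of the Thom map. -/
theorem thom_eq_phi [E.Good B] (W : Bun B ι) [E.Good W.tot] (hW : W.IsRank n) (Z : LC)
    [E.Good Z] [E.Good (Bun.tot (X := (B ⊗ Z : LC)) (W.pullback (fstC B Z)))]
    (y : E.U (B ⊗ Z)) :
    E.thom (tcb W) (o.thomCl W hW) Z y =
      E.map (pullIso W Z).hom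
        (o.phi (Z := (B ⊗ Z : LC)) (W.pullback (fstC B Z)) (isRank_pullFst hW Z) y) := by
  haveI := o.goodTh
  rw [thom_apply, Orientation.thomCl, cross_map_right, phi_apply, ← MultTheory.map_comp,
    ← MultTheory.map_comp]
  refine congrArg (fun k => E.map k _) (hom_ext ?_)
  rintro ⟨e, z⟩
  rfl

/-- **The Thom isomorphism** over `B ⊗ Z`. -/
theorem thom_bijective [E.Good B] (W : Bun B ι) [hT : E.Good W.tot] (hW : W.IsRank n) (Z : LC)
    [E.Good Z] : Function.Bijective (E.thom (tcb W) (o.thomCl W hW) Z) := by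
  haveI : E.Good (Bun.tot (X := (B ⊗ Z : LC)) (W.pullback (fstC B Z))) :=
    MultTheory.Good.of_iso E (pullIso W Z)
  have h1 : ⇑(E.thom (tcb W) (o.thomCl W hW) Z) = E.map (pullIso W Z).hom ∘
      o.phi (Z := (B ⊗ Z : LC)) (W.pullback (fstC B Z)) (isRank_pullFst hW Z) :=
    funext fun y => thom_eq_phi o W hW Z y
  rw [h1]
  exact (map_iso_bijective (pullIso W Z)).comp (phi_bijective o _ _)

/-- **The Thom isomorphism** over a compact object: every class of the total space is a multiple
of the Thom class. -/
theorem act_thomCl_bijective [E.Good B] (W : Bun B ι) [hT : E.Good W.tot] (hW : W.IsRank n) :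
    Function.Bijective fun b : E.U B => E.act (tcb W) b (o.thomCl W hW) := by
  haveI := o.goodTh
  have h1 : (fun b : E.U B => E.act (tcb W) b (o.thomCl W hW)) = o.phi W hW := by
    funext b
    rw [act_apply, Orientation.thomCl, cross_map_right, ← MultTheory.map_comp, phi_apply]
    exact congrArg (fun k => E.map k _) (hom_ext fun _ => rfl)
  rw [h1]
  exact phi_bijective o W hW

end

/-! ### Naturality for isometric bundle maps -/

section isoMap

variable {B B' : LC} [CompactSpace B] [CompactSpace B'] {ι κ : Type} [Fintype ι] [Fintype κ]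
  [DecidableEq κ] {n : ℕ}
variable {E : MultTheory.{v}} (o : Orientation E)

theorem thomCl_isoMap {W' : Bun B' κ} {W : Bun B ι} [E.Good W'.tot] [E.Good W.tot]
    (φ : IsoMap W' W) (hW' : W'.IsRank n) (hW : W.IsRank n) :
    E.map φ.hom (o.thomCl W hW) = o.thomCl W' hW' := by
  classical
  haveI := o.goodTh
  rw [Orientation.thomCl, Orientation.thomCl, ← MultTheory.map_comp, ← tau_map o n φ.A φ.isom,
    ← MultTheory.map_comp]
  refine congrArg (fun k => E.map k _) (hom_ext ?_)
  intro e
  rw [app_comp, app_comp, IsoMap.app_hom_coe, app_clsHom_coe, app_clsHom_coe, Th.app_map_coe]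
  congr 1
  apply Th.ext
  · exact φ.conj (base e)
  · rfl

/-- the map of bases of an isometric bundle map, as a morphism -/
theorem isoMap_graph {W' : Bun B' κ} {W : Bun B ι} (φ : IsoMap W' W) :
    φ.hom ≫ graph (tcb W) = graph (tcb W') ≫ (cmap φ.f ⊗ₘ φ.hom) := by
  apply hom_ext
  intro e
  rfl

end isoMap

end Vale.Agent.P251.Q
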