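import Vale.Agent.P251.Q.LensThom

/-!
# P251, part Q: the trivialisation of the tensor power over the lens space

`map_lensTrivHom : E.map (lensTrivHom V p) (o.thomCl (V.tpow p) _) = E.cross 1 E.sg`,
`map_lensQHom : E.map lensQHom E.sg = E.map (etaToHom ≫ thetaHom) (o.thomCl (V.tpow p) _)`.
-/

set_option linter.unusedSectionVars false
set_option linter.style.haveILetI false

open CategoryTheory MonoidalCategory OnePoint Topology Matrix Filter
open Vale.Agent.P251.G Vale.Agent.P251.G.LC Vale.Agent.P251.G.Bun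

universe v

noncomputable section

namespace Vale.Agent.P251.Q

open MultTheory

section

variable {κ : Type} [Fintype κ]

/-- the rotating unit vector -/
def rotVec (u : κ → ℂ) (t : unitInterval) : κ ⊕ Unit → ℂ :=
  Sum.elim (cT t • u) (sT t • (1 : Unit → ℂ))

theorem nsq_rotVec {u : κ → ℂ} (hu : nsq u = 1) (t : unitInterval) : nsq (rotVec u t) = 1 := by
  unfold rotVec
  have h1 : nsq (1 : Unit → ℂ) = 1 := by simp [nsq]
  rw [nsq_elim, nsq_smul, nsq_smul, hu, h1, mul_one, mul_one]
  have h2 : ((Complex.normSq (cT t) + Complex.normSq (sT t) : ℝ) : ℂ) = 1 := by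
    rw [Complex.ofReal_add, ← Complex.mul_conj, ← Complex.mul_conj]
    have h3 : (starRingEnd ℂ) (cT t) = cT t := star_cT t
    have h4 : (starRingEnd ℂ) (sT t) = sT t := star_sT t
    rw [h3, h4, cT_sq_add_sT_sq]
  exact_mod_cast h2

theorem continuous_rotVec {Y : Type} [TopologicalSpace Y] {u : Y → κ → ℂ} {t : Y → unitInterval}
    (hu : Continuous u) (ht : Continuous t) : Continuous fun y => rotVec (u y) (t y) := by
  unfold rotVec
  refine Bun.continuous_sumElim ?_ ?_
  · exact (continuous_cT.comp ht).smul hu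
  · exact (continuous_sT.comp ht).smul continuous_const

theorem lineP_elim_left (u : κ → ℂ) :
    lineP (Sum.elim u (0 : Unit → ℂ)) = Matrix.fromBlocks (lineP u) 0 0 0 := by
  ext (i | i) (j | j) <;> simp [lineP_apply]

theorem lineP_elim_right :
    lineP (Sum.elim (0 : κ → ℂ) (1 : Unit → ℂ)) = Matrix.fromBlocks 0 0 0 1 := by
  ext (i | i) (j | j) <;> simp [lineP_apply]

end

section

variable {X : Type} [TopologicalSpace X] [T2Space X] [CompactSpace X] {ι : Type} [Fintype ι]
  {V : Bun X ι} {p : ℕ} {E : MultTheory.{v}} (o : Orientation E)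

theorem isProj_one_unit : IsProj 1 (1 : Matrix Unit Unit ℂ) := by
  have h := IsProj.one (I := Unit)
  rwa [Fintype.card_unit] at h

/-- the morphism `ℂ ⟶ Th 1 Unit` -/
def lineHom : LC.of ℂ ⟶ ThO 1 Unit :=
  Th.hom (X := LC.of ℂ) (fun _ => 1) (fun c _ => c) continuous_const
    (continuous_pi fun _ => continuous_id) (fun _ => isProj_one_unit) (fun _ => one_mulVec _) (by
      have h1 : ∀ c : ℂ, nsq (fun _ : Unit => c) = ‖c‖ ^ 2 := by
        intro c; simp [nsq, Complex.normSq_eq_norm_sq]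
      simp only [h1]
      exact (tendsto_pow_atTop two_ne_zero).comp tendsto_norm_cocompact_atTop)

theorem app_lineHom_coe (c : ℂ) : app lineHom (c : OnePoint ℂ) =
    ((Th.mk (n := 1) (1 : Matrix Unit Unit ℂ) (fun _ => c) isProj_one_unit (one_mulVec _) :
      Th 1 Unit) : OnePoint (Th 1 Unit)) := rfl

theorem map_lineHom : E.map lineHom (o.tau 1 Unit) = E.sg :=
  o.tau_one _ fun c => ⟨Th.mk 1 (fun _ => c) isProj_one_unit (one_mulVec _), rfl, rfl, rfl⟩

theorem lensTriv_homotopic [DecidableEq ι] (hV : V.IsRank 1) :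
    Homotopic (lensTrivHom V p ≫ clsHom (B := LC.of X) (V.tpow p) (hV.tpow_one p) ≫
        Th.map (injMat (Sum.inl : (Fin p → ι) → (Fin p → ι) ⊕ Unit))
          (injMat_isom Sum.inl_injective))
      (sndHom (V.Lens p) (LC.of ℂ) ≫ lineHom ≫
        Th.map (injMat (Sum.inr : Unit → (Fin p → ι) ⊕ Unit)) (injMat_isom Sum.inr_injective)) := by
  have hn : ∀ z : (V.Lens p × ℂ) × unitInterval, nsq (rotVec (Sph.vec z.1.1) z.2) = 1 :=
    fun z => nsq_rotVec (Sph.nsq_vec z.1.1) z.2
  have hc : Continuous fun z : (V.Lens p × ℂ) × unitInterval => rotVec (Sph.vec z.1.1) z.2 :=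
    continuous_rotVec (Sph.continuous_vec.comp (continuous_fst.comp continuous_fst)) continuous_snd
  refine Th.homotopic (X := LC.of (V.Lens p × ℂ))
    (fun z => lineP (rotVec (Sph.vec z.1.1) z.2)) (fun z => z.1.2 • rotVec (Sph.vec z.1.1) z.2)
    (continuous_lineP.comp hc) ((continuous_snd.comp continuous_fst).smul hc)
    (fun z => isProj_lineP (hn z)) (fun z => lineP_mulVec_smul (hn z) _) ?_ ?_ ?_
  · have h1 : ∀ z : (V.Lens p × ℂ) × unitInterval,
        nsq (z.1.2 • rotVec (Sph.vec z.1.1) z.2) = ‖z.1.2‖ ^ 2 := by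
      intro z
      rw [nsq_smul, hn, mul_one, Complex.normSq_eq_norm_sq]
    simp only [h1]
    have h3 : Tendsto (fun c : ℂ => ‖c‖ ^ 2) (cocompact ℂ) atTop :=
      (tendsto_pow_atTop two_ne_zero).comp tendsto_norm_cocompact_atTop
    exact h3.comp (tendsto_snd_cocompact.comp tendsto_fst_cocompact)
  · intro z
    rw [app_comp, app_comp, app_lensTrivHom_coe, app_clsHom_coe, Th.app_map_coe]
    have hr : rotVec (Sph.vec z.1) 0 = Sum.elim (Sph.vec z.1) (0 : Unit → ℂ) := by
      simp [rotVec]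
    congr 1
    apply Th.ext
    · rw [Th.mapFun_P, Th.mk_P, hr, lineP_elim_left, injMat_inl_conj]
      congr 1
      exact ((hV.tpow_one p).isProj' (Sph.base z.1)).eq_lineP (Sph.nsq_vec z.1) (Sph.P_vec z.1)
    · rw [Th.mapFun_v, Th.mk_v, hr, injMat_inl_mulVec]
      have : (z.2 • Sum.elim (Sph.vec z.1) (0 : Unit → ℂ) : (Fin p → ι) ⊕ Unit → ℂ) =
          Sum.elim (z.2 • Sph.vec z.1) 0 := by
        ext (i | i) <;> simp
      rw [this]
      rfl
  · rintro ⟨b, c⟩
    have hr : rotVec (Sph.vec b) 1 = Sum.elim (0 : (Fin p → ι) → ℂ) (1 : Unit → ℂ) := by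
      simp [rotVec]
    rw [app_comp, app_comp, app_sndHom_coe, app_lineHom_coe, Th.app_map_coe]
    congr 1
    apply Th.ext
    · rw [Th.mapFun_P, Th.mk_P, Th.mk_P, hr, lineP_elim_right, injMat_inr_conj (I := Fin p → ι)]
    · rw [Th.mapFun_v, Th.mk_v, Th.mk_v, hr, injMat_inr_mulVec (I := Fin p → ι)]
      ext (i | i) <;> simp

variable [E.Good (LC.of X)] [E.Good V.tot] [E.Good (V.tpow p).tot] [E.Good (LC.of (V.Lens p))]
  [E.Good (V.eta p).tot]

/-- The tensor power is trivial over the lens space. -/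
theorem map_lensTrivHom (hV : V.IsRank 1) :
    E.map (lensTrivHom V p) (o.thomCl (B := LC.of X) (V.tpow p) (hV.tpow_one p)) =
      E.map (sndHom (V.Lens p) (LC.of ℂ)) E.sg := by
  classical
  haveI := o.goodTh
  rw [Orientation.thomCl, ← map_lineHom o,
    ← tau_map o 1 (injMat (Sum.inl : (Fin p → ι) → (Fin p → ι) ⊕ Unit))
      (injMat_isom Sum.inl_injective),
    ← tau_map o 1 (injMat (Sum.inr : Unit → (Fin p → ι) ⊕ Unit)) (injMat_isom Sum.inr_injective),
    ← MultTheory.map_comp, ← MultTheory.map_comp, ← MultTheory.map_comp, ← MultTheory.map_comp]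
  exact map_homotopic (lensTriv_homotopic hV) _

/-- The class `q^* σ` on `eta` is the pull back of the Thom class of the tensor power. -/
theorem map_lensQHom (hV : V.IsRank 1) (hp : p ≠ 0) :
    E.map (lensQHom hV hp) E.sg =
      E.map (etaToHom V p) (E.map (thetaHom V hp)
        (o.thomCl (B := LC.of X) (V.tpow p) (hV.tpow_one p))) := by
  rw [← MultTheory.map_comp, etaToHom_thetaHom hV hp, MultTheory.map_comp,
    map_lensTrivHom o hV, ← MultTheory.map_comp, lensPairHom_sndHom]

end

end Vale.Agent.P251.Q
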