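import Vale.Agent.P251.Q.MooreAlg

/-!
# P251, part Q (Q7): the exact sequence of a mapping cone and of the Moore space

* `MultTheory.exact_cone_right`: exactness of `U(cone f ⊗ T) → U(Y ⊗ T) → U(X ⊗ T)`.
* `MultTheory.map_coneConn_eq_zero_iff`: the kernel of `U((X ⊗ ℝ) ⊗ T) → U(cone f ⊗ T)`.
* `MultTheory.mooreSeq`: the case of the map `mfold m` of degree `m` of the line.
-/

open CategoryTheory MonoidalCategory OnePoint Limits
open Vale.Agent.P251.G Vale.Agent.P251.G.LC

universe v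

namespace Vale.Agent.P251.Q

namespace MultTheory

variable {E : MultTheory.{v}}

/-! ### the double suspension, iterated form -/

section susp

/-- `(W ⊗ ℝ) ⊗ ℝ = W ⊗ ℂ` -/
noncomputable def rr2Iso (W : LC) : (W ⊗ RR) ⊗ RR ≅ W ⊗ LC.of ℂ :=
  α_ _ _ _ ≪≫ whiskerLeftIso W rrIso

theorem rr2Iso_naturality {W W' : LC} (g : W ⟶ W') :
    ((g ▷ RR) ▷ RR) ≫ (rr2Iso W').hom = (rr2Iso W).hom ≫ (g ▷ LC.of ℂ) := by
  simp only [rr2Iso, Iso.trans_hom, whiskerLeftIso_hom]
  rw [MonoidalCategory.associator_naturality_left_assoc, ← MonoidalCategory.whisker_exchange,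
    Category.assoc]

/-- The double suspension `U W → U ((W ⊗ ℝ) ⊗ ℝ)`. -/
noncomputable def suspRR (E : MultTheory.{v}) (W : LC) : E.U W →+ E.U ((W ⊗ RR) ⊗ RR) :=
  (E.map (rr2Iso W).hom).comp ((AddMonoidHom.flip E.cross) E.sg)

theorem suspRR_apply {W : LC} (w : E.U W) :
    E.suspRR W w = E.map (rr2Iso W).hom (E.cross w E.sg) := rfl

variable {W W' : LC} [hW : E.Good W] [hW' : E.Good W']

theorem suspRR_injective : Function.Injective (E.suspRR W) := by
  intro a b h
  have h1 := congrArg (E.map (rr2Iso W).inv) h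
  rw [suspRR_apply, suspRR_apply, map_inv_hom, map_inv_hom] at h1
  exact cross_sg_injective h1

theorem suspRR_surjective : Function.Surjective (E.suspRR W) := by
  intro w
  obtain ⟨z, hz⟩ := (E.sg_bijective' hW.out).2 (E.map (rr2Iso W).inv w)
  refine ⟨z, ?_⟩
  have hz' : E.cross z E.sg = E.map (rr2Iso W).inv w := hz
  rw [suspRR_apply, hz', map_hom_inv]

theorem map_suspRR (g : W ⟶ W') (w : E.U W') :
    E.map ((g ▷ RR) ▷ RR) (E.suspRR W' w) = E.suspRR W (E.map g w) := by
  rw [suspRR_apply, suspRR_apply, ← map_comp, rr2Iso_naturality, map_comp, ← cross_map_left]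

end susp

/-! ### mapping cones -/

section cone

variable {X Y T : LC} [hX : E.Good X] [hY : E.Good Y] [hT : E.Good T] (f : X ⟶ Y)

instance good_cone : E.Good (LC.cone f) := Good.cone f

/-- the isomorphism from the base of the cone -/
noncomputable def coneBd (X T : LC) : (X ⊗ RR) ⊗ T ⟶ (X ⊗ T) ⊗ RR :=
  ((CofSeq.base X).whiskerRight T).bd

theorem map_coneBd_bijective :
    Function.Bijective (E.map (coneBd X T)) := by
  constructor
  · rw [injective_iff_map_eq_zero]
    intro x hx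
    obtain ⟨y, rfl⟩ := (exact_susp ((CofSeq.base X).whiskerRight T) x).mp hx
    rw [eq_zero_of_contr (((contr_tensor_HH X).tensor T).tensor RR) y, map_zero]
  · intro c
    obtain ⟨x, hx⟩ := (exact_cof ((CofSeq.base X).whiskerRight T) c).mp
      (eq_zero_of_contr ((contr_tensor_HH X).tensor T) _)
    exact ⟨x, hx⟩

/-- the boundary morphism of a mapping cone -/
theorem map_bd_cone (x : E.U ((Y ⊗ T) ⊗ RR)) :
    E.map ((CofSeq.cone f).whiskerRight T).bd x =
      E.map (coneBd X T) (E.map ((f ▷ T) ▷ RR) x) := by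
  have h := map_bd ((CofSeq.base X).whiskerRight T) ((CofSeq.cone f).whiskerRight T) (f ▷ T)
    (coneInl f ▷ T) (𝟙 _) (by
      rw [← MonoidalCategory.comp_whiskerRight, ← MonoidalCategory.comp_whiskerRight, cone_w])
    (by rw [Category.comp_id, ← MonoidalCategory.comp_whiskerRight, coneInl_conn]) x
  rw [map_id] at h
  exact h

theorem map_bd_cone' (x : E.U (((Y ⊗ T) ⊗ RR) ⊗ RR)) :
    E.map (((CofSeq.cone f).whiskerRight T).whiskerRight RR).bd x =
      E.map (((CofSeq.base X).whiskerRight T).whiskerRight RR).bd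
        (E.map (((f ▷ T) ▷ RR) ▷ RR) x) := by
  have h := map_bd (((CofSeq.base X).whiskerRight T).whiskerRight RR)
    (((CofSeq.cone f).whiskerRight T).whiskerRight RR) ((f ▷ T) ▷ RR)
    ((coneInl f ▷ T) ▷ RR) (𝟙 _) (by
      rw [← MonoidalCategory.comp_whiskerRight, ← MonoidalCategory.comp_whiskerRight,
        ← MonoidalCategory.comp_whiskerRight, ← MonoidalCategory.comp_whiskerRight, cone_w])
    (by rw [Category.comp_id, ← MonoidalCategory.comp_whiskerRight,
      ← MonoidalCategory.comp_whiskerRight, coneInl_conn]) x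
  rw [map_id] at h
  exact h

/-- The composite of a map with the inclusion in its mapping cone induces zero. -/
theorem map_map_coneInr (x : E.U (LC.cone f ⊗ T)) :
    E.map (f ▷ T) (E.map (coneInr f ▷ T) x) = 0 := by
  rw [← map_comp, ← MonoidalCategory.comp_whiskerRight, ← cone_w,
    MonoidalCategory.comp_whiskerRight, map_comp,
    eq_zero_of_contr ((contr_tensor_HH X).tensor T) (E.map (coneInl f ▷ T) x), map_zero]

/-- exactness of `U(cone f ⊗ T) → U(Y ⊗ T) → U(X ⊗ T)` -/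
theorem exact_cone_right (y : E.U (Y ⊗ T)) (hy : E.map (f ▷ T) y = 0) :
    ∃ x : E.U (LC.cone f ⊗ T), E.map (coneInr f ▷ T) x = y := by
  have h1 : E.map (((CofSeq.cone f).whiskerRight T).whiskerRight RR).bd (E.suspRR _ y) = 0 := by
    rw [map_bd_cone', map_suspRR, hy, map_zero, map_zero]
  obtain ⟨t, ht⟩ := (exact_susp (((CofSeq.cone f).whiskerRight T).whiskerRight RR) _).mp h1
  obtain ⟨x, rfl⟩ := suspRR_surjective (E := E) (W := LC.cone f ⊗ T) t
  refine ⟨x, ?_⟩
  rw [map_suspRR] at ht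
  exact suspRR_injective ht

/-- the kernel of `U((X ⊗ ℝ) ⊗ T) → U(cone f ⊗ T)` -/
theorem map_coneConn_eq_zero_iff (w : E.U ((X ⊗ RR) ⊗ T)) :
    E.map (coneConn f ▷ T) w = 0 ↔
      ∃ x : E.U ((Y ⊗ T) ⊗ RR), w = E.map (coneBd X T) (E.map ((f ▷ T) ▷ RR) x) := by
  rw [exact_cof ((CofSeq.cone f).whiskerRight T)]
  constructor
  · rintro ⟨x, rfl⟩
    exact ⟨x, map_bd_cone f x⟩
  · rintro ⟨x, rfl⟩
    exact ⟨x, map_bd_cone f x⟩

end cone

/-! ### the Moore space -/

section moore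

variable {Z : LC} [hZ : E.Good Z]

theorem map_mfold_whiskerRight (m : ℕ) (x : E.U ((RR ⊗ Z) ⊗ RR)) :
    E.map ((mfold m ▷ Z) ▷ RR) x = m • x := by
  have h1 : ((mfold m ▷ Z) ▷ RR : (RR ⊗ Z) ⊗ RR ⟶ (RR ⊗ Z) ⊗ RR) =
      (α_ RR Z RR).hom ≫ (mfold m ▷ (Z ⊗ RR)) ≫ (α_ RR Z RR).inv := by
    rw [MonoidalCategory.whiskerRight_tensor]
    simp
  rw [h1, map_comp, map_comp, map_mfold, map_nsmul, map_hom_inv]

/-- The exact sequence of the Moore space. -/
theorem mooreSeq (m : ℕ) :
    MooreSeq E m (LC.cone (mfold m)) (coneInr (mfold m)) (coneConn (mfold m)) Z where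
  mid x hx := (exact_mid ((CofSeq.cone (mfold m)).whiskerRight Z) x).mp hx
  comp w := (exact_mid ((CofSeq.cone (mfold m)).whiskerRight Z) _).mpr ⟨w, rfl⟩
  ker w hw := by
    obtain ⟨x, hx⟩ := (map_coneConn_eq_zero_iff (mfold m) w).mp hw
    refine ⟨E.map (coneBd RR Z) x, ?_⟩
    rw [hx, map_mfold_whiskerRight, map_nsmul]
  nsmul w := by
    obtain ⟨x, rfl⟩ := (map_coneBd_bijective (E := E) (X := RR) (T := Z)).2 w
    refine (map_coneConn_eq_zero_iff (mfold m) _).mpr ⟨x, ?_⟩
    rw [map_mfold_whiskerRight, map_nsmul]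
  im y hy := exact_cone_right (mfold m) y (by rw [map_mfold, hy])
  im' x := by rw [← map_mfold, map_map_coneInr]

end moore

end MultTheory

end Vale.Agent.P251.Q
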