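import Vale.Agent.P251.Q.Ring
import Vale.Agent.P251.Q.Additive

/-!
# P251, part Q (Q7): application to the Moore space, algebraic part

`MooreSeq E m M i d Z` : the exact sequence of the cofibration `ℝ → M → ℝ ⊗ ℝ` of the mapping
cone `M` of a map of degree `m` of `ℝ`, tensored with `Z`.
`StepHyp E C m X` : the conclusion of Quillen's argument (Theorem Q) for the space `X`.
`ThomTheory.quillen_moore` : from the steps for `ℝ`, `M`, `M ⊗ ℝ` follow: `π_{ev} = C + m π_{ev}`, no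
`m`-torsion in `π_{ev}` and `π_{odd}`, `π_{odd} = m π_{odd}`.
-/

open CategoryTheory MonoidalCategory OnePoint Limits
open Vale.Agent.P251.G Vale.Agent.P251.G.LC

universe v

namespace Vale.Agent.P251.Q

namespace MultTheory

variable {E : MultTheory.{v}}

/-! ### double suspension -/

section susp

/-- `ℝ × ℝ = ℂ` -/
noncomputable def rrIso : RR ⊗ RR ≅ LC.of ℂ :=
  ofHomeo (X := LC.of (ℝ × ℝ)) (Y := LC.of ℂ) Complex.equivRealProdCLM.symm.toHomeomorph

/-- `(ℝ ⊗ ℝ) ⊗ Z = Z ⊗ ℂ` -/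
noncomputable def susp2Iso (Z : LC) : (RR ⊗ RR) ⊗ Z ≅ Z ⊗ LC.of ℂ :=
  whiskerRightIso rrIso Z ≪≫ β_ _ _

/-- The double suspension `U Z → U ((ℝ ⊗ ℝ) ⊗ Z)`. -/
noncomputable def susp2 (E : MultTheory.{v}) (Z : LC) : E.U Z →+ E.U ((RR ⊗ RR) ⊗ Z) :=
  (E.map (susp2Iso Z).hom).comp ((AddMonoidHom.flip E.cross) E.sg)

theorem susp2_apply {Z : LC} (z : E.U Z) :
    E.susp2 Z z = E.map (susp2Iso Z).hom (E.cross z E.sg) := rfl

variable {Z : LC} [hZ : E.Good Z]

theorem susp2_deg {k : ℤ} {z : E.U Z} (hz : z ∈ E.deg Z k) :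
    E.susp2 Z z ∈ E.deg ((RR ⊗ RR) ⊗ Z) (k + 1) :=
  map_deg _ (cross_deg hz E.sg_deg)

theorem susp2_injective : Function.Injective (E.susp2 Z) := by
  intro a b h
  have h1 := congrArg (E.map (susp2Iso Z).inv) h
  rw [susp2_apply, susp2_apply, map_inv_hom, map_inv_hom] at h1
  exact cross_sg_injective h1

theorem exists_susp2 (w : E.U ((RR ⊗ RR) ⊗ Z)) : ∃ z, E.susp2 Z z = w := by
  obtain ⟨z, hz⟩ := (E.sg_bijective' hZ.out).2 (E.map (susp2Iso Z).inv w)
  refine ⟨z, ?_⟩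
  have hz' : E.cross z E.sg = E.map (susp2Iso Z).inv w := hz
  rw [susp2_apply, hz', map_hom_inv]

theorem exists_susp2_deg {k : ℤ} {w : E.U ((RR ⊗ RR) ⊗ Z)}
    (hw : w ∈ E.deg ((RR ⊗ RR) ⊗ Z) (k + 1)) : ∃ z ∈ E.deg Z k, E.susp2 Z z = w := by
  obtain ⟨z, hz, h⟩ := exists_cross_sg (E := E) (X := Z) (map_deg (susp2Iso Z).inv hw)
  exact ⟨z, hz, by rw [susp2_apply, h, map_hom_inv]⟩

theorem susp2_smul (a : E.A) (z : E.U Z) : E.susp2 Z (a • z) = a • E.susp2 Z z := by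
  rw [susp2_apply, cross_smul_left, map_smul, susp2_apply]

end susp

/-! ### The exact sequence of a Moore space -/

/-- The exact sequence of `ℝ → M → ℝ ⊗ ℝ`, where `M` is the cone of a map of degree `m`. -/
structure MooreSeq (E : MultTheory.{v}) (m : ℕ) (M : LC) (i : RR ⟶ M) (d : M ⟶ RR ⊗ RR) (Z : LC) :
    Prop where
  mid : ∀ x : E.U (M ⊗ Z), E.map (i ▷ Z) x = 0 → ∃ w, E.map (d ▷ Z) w = x
  comp : ∀ w, E.map (i ▷ Z) (E.map (d ▷ Z) w) = 0
  ker : ∀ w, E.map (d ▷ Z) w = 0 → ∃ w', w = m • w'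
  nsmul : ∀ w, E.map (d ▷ Z) (m • w) = 0
  im : ∀ y : E.U (RR ⊗ Z), m • y = 0 → ∃ x, E.map (i ▷ Z) x = y
  im' : ∀ x, m • E.map (i ▷ Z) x = 0

variable {m : ℕ} {M : LC} {i : RR ⟶ M} {d : M ⟶ RR ⊗ RR} {Z : LC}

/-- `m ^ 2` kills the cohomology of the Moore space. -/
theorem MooreSeq.sq_smul (h : MooreSeq E m M i d Z) (x : E.U (M ⊗ Z)) : m • m • x = 0 := by
  obtain ⟨w, hw⟩ := h.mid (m • x) (by rw [map_nsmul, h.im'])
  rw [← hw, ← map_nsmul, h.nsmul]

/-- The sub-`C`-module generated by the classes of positive degree. -/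
def RR0 (E : MultTheory.{v}) (C : Subring E.A) (X : LC) : AddSubgroup (E.U X) :=
  AddSubgroup.closure {u | ∃ c ∈ C, ∃ k : ℤ, 0 < k ∧ ∃ x ∈ E.deg X k, u = c • x}

/-- The conclusion of Theorem Q for the space `X`. -/
def StepHyp (E : MultTheory.{v}) (C : Subring E.A) (m : ℕ) (X : LC) : Prop :=
  ∀ q : ℕ, (∀ j : ℕ, j < q → ∀ x ∈ E.deg X (-(j : ℤ)), x ∈ RR0 E C X) →
    ∀ x ∈ E.deg X (-(q : ℤ)), ∃ r ∈ RR0 E C X, ∃ u ∈ E.deg X (-(q : ℤ)), x = r + m • u

theorem StepHyp.mem_RR0 {C : Subring E.A} {X : LC} (h : StepHyp E C m X)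
    (hm : ∀ x : E.U X, m • m • x = 0) [hX : E.Good X] (q : ℕ) :
    ∀ x ∈ E.deg X (-(q : ℤ)), x ∈ RR0 E C X := by
  induction q using Nat.strong_induction_on with
  | _ q ih =>
    intro x hx
    obtain ⟨r, hr, u, hu, rfl⟩ := h q ih x hx
    obtain ⟨r', hr', u', -, rfl⟩ := h q ih u hu
    refine add_mem hr ?_
    rw [smul_add, hm, add_zero]
    exact nsmul_mem hr' m

theorem mem_RR0_of_pos {C : Subring E.A} {X : LC} [hX : E.Good X] {k : ℤ} (hk : 0 < k) {x : E.U X}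
    (hx : x ∈ E.deg X k) : x ∈ RR0 E C X :=
  AddSubgroup.subset_closure ⟨1, C.one_mem, k, hk, x, hx, (one_smul _ _).symm⟩

theorem StepHyp.mem_RR0' {C : Subring E.A} {X : LC} (h : StepHyp E C m X)
    (hm : ∀ x : E.U X, m • m • x = 0) [hX : E.Good X] (x : E.U X) : x ∈ RR0 E C X := by
  refine induction_deg (P := fun x => x ∈ RR0 E C X) (zero_mem _) (fun _ _ => add_mem) ?_ x
  intro k x hx
  rcases lt_or_ge 0 k with hk | hk
  · exact mem_RR0_of_pos hk hx
  · obtain ⟨q, rfl⟩ : ∃ q : ℕ, k = -(q : ℤ) := ⟨k.natAbs, by omega⟩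
    exact h.mem_RR0 hm q x hx

theorem StepHyp.of_iso {C : Subring E.A} {X Y : LC} [hX : E.Good X] (e : X ≅ Y)
    (h : StepHyp E C m X) : StepHyp E C m Y := by
  have hY : E.Good Y := Good.of_iso E e
  have h1 : ∀ (r : E.U X), r ∈ RR0 E C X → E.map e.inv r ∈ RR0 E C Y := by
    intro r hr
    induction hr using AddSubgroup.closure_induction with
    | mem r hr =>
      obtain ⟨c, hc, k, hk, x, hx, rfl⟩ := hr
      rw [map_smul]
      exact AddSubgroup.subset_closure ⟨c, hc, k, hk, _, map_deg _ hx, rfl⟩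
    | zero => rw [map_zero]; exact zero_mem _
    | add a b _ _ ha hb => rw [map_add]; exact add_mem ha hb
    | neg a _ ha => rw [map_neg]; exact neg_mem ha
  have h2 : ∀ (r : E.U Y), r ∈ RR0 E C Y → E.map e.hom r ∈ RR0 E C X := by
    intro r hr
    induction hr using AddSubgroup.closure_induction with
    | mem r hr =>
      obtain ⟨c, hc, k, hk, x, hx, rfl⟩ := hr
      rw [map_smul]
      exact AddSubgroup.subset_closure ⟨c, hc, k, hk, _, map_deg _ hx, rfl⟩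
    | zero => rw [map_zero]; exact zero_mem _
    | add a b _ _ ha hb => rw [map_add]; exact add_mem ha hb
    | neg a _ ha => rw [map_neg]; exact neg_mem ha
  intro q hq x hx
  obtain ⟨r, hr, u, hu, hxu⟩ := h q (fun j hj x hx => by
    have := h2 _ (hq j hj _ (map_deg e.inv hx))
    rwa [map_hom_inv] at this) (E.map e.hom x) (map_deg e.hom hx)
  refine ⟨_, h1 r hr, _, map_deg e.inv hu, ?_⟩
  rw [← map_nsmul, ← map_add, ← hxu, map_inv_hom]

end MultTheory

namespace ThomTheory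

open MultTheory

variable (E : ThomTheory.{v})

section

variable {E}
variable {m : ℕ} {M : LC} [hM : E.Good M] {i : RR ⟶ M} {d : M ⟶ RR ⊗ RR} {C : Subring E.A}

/-- Step (a): `U^0(ℝ) = m U^0(ℝ)`. -/
theorem step_line (hR : StepHyp E.toMultTheory C m RR) (y : E.U RR) (hy : y ∈ E.deg RR 0) :
    ∃ u ∈ E.deg RR 0, y = m • u := by
  have h0 : ∀ r : E.U RR, r ∈ RR0 E.toMultTheory C RR → r = 0 := by
    intro r hr
    induction hr using AddSubgroup.closure_induction with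
    | mem r hr =>
      obtain ⟨c, -, k, hk, x, hx, rfl⟩ := hr
      rw [E.deg_RR_pos k hk x hx, smul_zero]
    | zero => rfl
    | add a b _ _ ha hb => rw [ha, hb, add_zero]
    | neg a _ ha => rw [ha, neg_zero]
  obtain ⟨r, hr, u, hu, hxu⟩ := hR 0 (fun j hj => absurd hj (Nat.not_lt_zero j)) y
    (by simpa using hy)
  refine ⟨u, by simpa using hu, ?_⟩
  rw [hxu, h0 r hr, zero_add]

/-- The generator of `U^1(M)`. -/
noncomputable def sigma (E : ThomTheory.{v}) {M : LC} (d : M ⟶ RR ⊗ RR) : E.U (M ⊗ 𝟙_ LC) :=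
  E.map (d ▷ 𝟙_ LC) (E.susp2 (𝟙_ LC) E.one)

theorem smul_sigma (a : E.A) :
    a • sigma E d = E.map (d ▷ 𝟙_ LC) (E.susp2 (𝟙_ LC) (E.ofA a)) := by
  have h : E.ofA a = a • E.one := by
    rw [← E.ofA_one, ← ofA_mul, mul_one]
  rw [h, susp2_smul, MultTheory.map_smul, sigma]

theorem mem_RR0_moore (hseq : MooreSeq E.toMultTheory m M i d (𝟙_ LC)) (x : E.U (M ⊗ 𝟙_ LC))
    (hx : x ∈ RR0 E.toMultTheory C (M ⊗ 𝟙_ LC)) : ∃ c ∈ C, x = c • sigma E d := by
  induction hx using AddSubgroup.closure_induction with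
  | mem x hx =>
    obtain ⟨c, hc, k, hk, x, hx, rfl⟩ := hx
    have h1 : E.map (i ▷ 𝟙_ LC) x = 0 := by
      have h2 : E.map (i ▷ 𝟙_ LC) x ∈ E.deg (RR ⊗ 𝟙_ LC) k := map_deg _ hx
      have h3 : E.map (ρ_ RR).inv (E.map (i ▷ 𝟙_ LC) x) ∈ E.deg RR k := map_deg _ h2
      have h4 := E.deg_RR_pos k hk _ h3
      have h5 := congrArg (E.map (ρ_ RR).hom) h4
      rwa [map_hom_inv, map_zero] at h5
    obtain ⟨w, hw⟩ := hseq.mid x h1
    obtain ⟨w', hw', hww'⟩ := exists_deg_of_map' (E := E.toMultTheory) (d ▷ 𝟙_ LC) (k := k)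
      (y := w) (by rw [hw]; exact hx)
    obtain ⟨z, hz, rfl⟩ := exists_susp2_deg (E := E.toMultTheory) (Z := 𝟙_ LC) (k := k - 1)
      (w := w') (by rwa [sub_add_cancel])
    rcases lt_or_ge 1 k with hk1 | hk1
    · have hz0 : z = 0 := E.deg_unit_pos (k - 1) (by omega) z hz
      refine ⟨0, C.zero_mem, ?_⟩
      rw [← hw, ← hww', hz0, map_zero, map_zero, smul_zero, zero_smul]
    · have hk2 : k - 1 = 0 := by omega
      rw [hk2] at hz
      obtain ⟨a, rfl⟩ := E.deg_unit_zero z hz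
      refine ⟨c * (a : E.A), C.mul_mem hc (intCast_mem C a), ?_⟩
      rw [← hw, ← hww', map_zsmul, map_zsmul, mul_smul, Int.cast_smul_eq_zsmul]
      rfl
  | zero => exact ⟨0, C.zero_mem, (zero_smul _ _).symm⟩
  | add a b _ _ ha hb =>
    obtain ⟨c, hc, rfl⟩ := ha
    obtain ⟨c', hc', rfl⟩ := hb
    exact ⟨c + c', C.add_mem hc hc', (add_smul _ _ _).symm⟩
  | neg a _ ha =>
    obtain ⟨c, hc, rfl⟩ := ha
    exact ⟨-c, C.neg_mem hc, (neg_smul _ _).symm⟩

/-- Step (b): `U(M) = C σ`. -/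
theorem exists_smul_sigma (hseq : MooreSeq E.toMultTheory m M i d (𝟙_ LC))
    (h : StepHyp E.toMultTheory C m (M ⊗ 𝟙_ LC)) (x : E.U (M ⊗ 𝟙_ LC)) :
    ∃ c ∈ C, x = c • sigma E d :=
  mem_RR0_moore hseq x (h.mem_RR0' hseq.sq_smul x)

/-- `π_{ev} = C + m π_{ev}` -/
theorem exists_add_nsmul (hseq : MooreSeq E.toMultTheory m M i d (𝟙_ LC))
    (h : StepHyp E.toMultTheory C m (M ⊗ 𝟙_ LC)) (a : E.A) : ∃ c ∈ C, ∃ b, a = c + m • b := by
  obtain ⟨c, hc, hac⟩ := exists_smul_sigma hseq h (a • sigma E d)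
  refine ⟨c, hc, ?_⟩
  have h1 : E.map (d ▷ 𝟙_ LC) (E.susp2 (𝟙_ LC) (E.ofA (a - c))) = 0 := by
    rw [← smul_sigma, sub_smul, hac, sub_self]
  obtain ⟨w, hw⟩ := hseq.ker _ h1
  obtain ⟨z, rfl⟩ := exists_susp2 (E := E.toMultTheory) (Z := 𝟙_ LC) w
  rw [← map_nsmul] at hw
  have h2 : E.ofA (a - c) = m • z := susp2_injective hw
  refine ⟨E.toA z, ?_⟩
  have h3 : a - c = m • E.toA z := h2
  rw [← h3, add_sub_cancel]

/-- no `m`-torsion in `π_{odd}` -/
theorem eq_zero_of_nsmul_odd (hseq : MooreSeq E.toMultTheory m M i d (𝟙_ LC))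
    (h : StepHyp E.toMultTheory C m (M ⊗ 𝟙_ LC)) (y : E.U RR) (hy : m • y = 0) : y = 0 := by
  obtain ⟨x, hx⟩ := hseq.im (E.map (ρ_ RR).hom y) (by rw [← map_nsmul, hy, map_zero])
  obtain ⟨c, -, rfl⟩ := exists_smul_sigma hseq h x
  rw [MultTheory.map_smul, sigma, hseq.comp, smul_zero] at hx
  have h1 := congrArg (E.map (ρ_ RR).inv) hx
  rw [map_zero, map_inv_hom] at h1
  exact h1.symm

/-- Step (c): `U(M ⊗ ℝ) = 0`. -/
theorem eq_zero_moore_line (hseq : MooreSeq E.toMultTheory m M i d RR)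
    (h1 : ∀ a : ℤ, m • a • E.one = 0 → a • E.one = 0)
    (hR : StepHyp E.toMultTheory C m RR) (h : StepHyp E.toMultTheory C m (M ⊗ RR))
    (x : E.U (M ⊗ RR)) : x = 0 := by
  have h0 : ∀ r : E.U (M ⊗ RR), r ∈ RR0 E.toMultTheory C (M ⊗ RR) → r = 0 := by
    intro r hr
    induction hr using AddSubgroup.closure_induction with
    | mem r hr =>
      obtain ⟨c, -, k, hk, x, hx, rfl⟩ := hr
      have h2 : E.map (i ▷ RR) x = 0 := by
        have h3 : E.map (ρ_ (RR ⊗ RR)).hom (E.map (i ▷ RR) x) ∈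
            E.deg ((RR ⊗ RR) ⊗ 𝟙_ LC) (k - 1 + 1) := by
          rw [sub_add_cancel]; exact map_deg _ (map_deg _ hx)
        obtain ⟨z, hz, hzx⟩ := exists_susp2_deg (E := E.toMultTheory) (Z := 𝟙_ LC) h3
        have h4 : m • z = 0 := by
          apply susp2_injective (E := E.toMultTheory) (Z := 𝟙_ LC)
          rw [map_nsmul, hzx, ← map_nsmul, hseq.im', map_zero, map_zero]
        have hz0 : z = 0 := by
          rcases lt_or_ge 1 k with hk1 | hk1
          · exact E.deg_unit_pos (k - 1) (by omega) z hz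
          · have hk2 : k - 1 = 0 := by omega
            rw [hk2] at hz
            obtain ⟨a, rfl⟩ := E.deg_unit_zero z hz
            exact h1 a h4
        rw [hz0, map_zero] at hzx
        have h5 := congrArg (E.map (ρ_ (RR ⊗ RR)).inv) hzx
        rw [map_zero, map_inv_hom] at h5
        exact h5.symm
      obtain ⟨w, hw⟩ := hseq.mid x h2
      obtain ⟨w', hw', hww'⟩ := exists_deg_of_map' (E := E.toMultTheory) (d ▷ RR) (k := k)
        (y := w) (by rw [hw]; exact hx)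
      obtain ⟨z, hz, rfl⟩ := exists_susp2_deg (E := E.toMultTheory) (Z := RR) (k := k - 1)
        (w := w') (by rwa [sub_add_cancel])
      have hx0 : x = 0 := by
        rcases lt_or_ge 1 k with hk1 | hk1
        · rw [← hw, ← hww', E.deg_RR_pos (k - 1) (by omega) z hz, map_zero, map_zero]
        · have hk2 : k - 1 = 0 := by omega
          rw [hk2] at hz
          obtain ⟨u, -, rfl⟩ := step_line hR z hz
          rw [← hw, ← hww', map_nsmul, hseq.nsmul]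
      rw [hx0, smul_zero]
    | zero => rfl
    | add a b _ _ ha hb => rw [ha, hb, add_zero]
    | neg a _ ha => rw [ha, neg_zero]
  exact h0 x (h.mem_RR0' hseq.sq_smul x)

/-- `π_{odd} = m π_{odd}` -/
theorem exists_nsmul_odd (hseq : MooreSeq E.toMultTheory m M i d RR)
    (h1 : ∀ a : ℤ, m • a • E.one = 0 → a • E.one = 0)
    (hR : StepHyp E.toMultTheory C m RR) (h : StepHyp E.toMultTheory C m (M ⊗ RR)) (y : E.U RR) :
    ∃ z, y = m • z := by
  obtain ⟨w, hw⟩ := hseq.ker (E.susp2 RR y) (eq_zero_moore_line hseq h1 hR h _)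
  obtain ⟨z, rfl⟩ := exists_susp2 (E := E.toMultTheory) (Z := RR) w
  refine ⟨z, ?_⟩
  apply susp2_injective (E := E.toMultTheory) (Z := RR)
  rw [map_nsmul]
  exact hw

/-- no `m`-torsion in `π_{ev}` -/
theorem eq_zero_of_nsmul (hseq : MooreSeq E.toMultTheory m M i d RR)
    (h1 : ∀ a : ℤ, m • a • E.one = 0 → a • E.one = 0)
    (hR : StepHyp E.toMultTheory C m RR) (h : StepHyp E.toMultTheory C m (M ⊗ RR)) (a : E.A)
    (ha : m • a = 0) : a = 0 := by
  have ha' : m • E.ofA a = 0 := ha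
  set y := E.map (ρ_ (RR ⊗ RR)).inv (E.susp2 (𝟙_ LC) (E.ofA a)) with hy
  have hy0 : m • y = 0 := by rw [hy, ← map_nsmul, ← map_nsmul, ha', map_zero, map_zero]
  obtain ⟨x, hx⟩ := hseq.im y hy0
  rw [eq_zero_moore_line hseq h1 hR h x, map_zero] at hx
  have h2 := congrArg (E.map (ρ_ (RR ⊗ RR)).hom) hx
  rw [map_zero, hy, map_hom_inv] at h2
  have h3 : E.ofA a = 0 := by
    apply susp2_injective (E := E.toMultTheory) (Z := 𝟙_ LC)
    rw [map_zero]
    exact h2.symm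
  exact h3

end

end ThomTheory

end Vale.Agent.P251.Q
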