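import Vale.Agent.P251.Q.ExtPow
import Vale.Agent.P251.G.ThMap

/-!
# P251, part Q (Q3): the direct sum map `(Th m ι)^n ⟶ Th (n m) (ι × κ)` and Thom classes
-/

open CategoryTheory MonoidalCategory OnePoint Matrix Topology
open Vale.Agent.P251.G Vale.Agent.P251.G.LC

universe v

set_option linter.unusedSectionVars false
set_option linter.style.haveILetI false

namespace Vale.Agent.P251.Q

variable {ι κ : Type} [Fintype ι] [Fintype κ] [DecidableEq ι] [DecidableEq κ]

/-- the isometry `ℂ^ι ⊕ ℂ^(ι × n) → ℂ^(ι × κ)` -/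
def splitU {n : ℕ} (ι : Type) [DecidableEq ι] (Φ : Matrix κ (Fin (n + 1)) ℂ) :
    Matrix (ι × κ) (ι ⊕ (ι × Fin n)) ℂ := fun a b =>
  Sum.elim (fun b => if a.1 = b then Φ a.2 0 else 0)
    (fun b => if a.1 = b.1 then Φ a.2 b.2.succ else 0) b

theorem splitU_isom {n : ℕ} {Φ : Matrix κ (Fin (n + 1)) ℂ} (hΦ : Φᴴ * Φ = 1) :
    (splitU ι Φ)ᴴ * splitU ι Φ = 1 := by
  have h : ∀ i k, ∑ c, star (Φ c i) * Φ c k = if i = k then 1 else 0 := by
    intro i k
    have h2 := congrFun (congrFun hΦ i) k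
    rw [Matrix.mul_apply, Matrix.one_apply] at h2
    simpa only [conjTranspose_apply] using h2
  have h2 : ∀ (a b : ι) (i k : Fin (n + 1)), ∑ x : ι × κ, star (if x.1 = a then Φ x.2 i else 0) *
      (if x.1 = b then Φ x.2 k else 0) = if a = b then (if i = k then 1 else 0) else 0 := by
    intro a b i k
    rw [Fintype.sum_prod_type, Finset.sum_eq_single a]
    · by_cases hab : a = b
      · simp only [hab, if_true]; exact h i k
      · simp only [if_neg hab, mul_zero, Finset.sum_const_zero]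
    · intro c _ hc
      refine Finset.sum_eq_zero fun d _ => ?_
      simp [hc]
    · simp
  ext a b
  rw [Matrix.mul_apply]
  simp only [conjTranspose_apply]
  rcases a with a | ⟨a, i⟩ <;> rcases b with b | ⟨b, k⟩
  · rw [one_apply]
    simp only [splitU, Sum.elim_inl, Sum.inl.injEq]
    rw [h2]; simp
  · rw [one_apply]
    simp only [splitU, Sum.elim_inl, Sum.elim_inr, reduceCtorEq, if_false]
    rw [h2]; simp [(Fin.succ_ne_zero k).symm]
  · rw [one_apply]
    simp only [splitU, Sum.elim_inl, Sum.elim_inr, reduceCtorEq, if_false]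
    rw [h2]; simp [Fin.succ_ne_zero i]
  · rw [one_apply]
    simp only [splitU, Sum.elim_inr, Sum.inr.injEq, Prod.mk.injEq]
    rw [h2]
    by_cases hab : a = b
    · simp [hab, Fin.succ_inj]
    · simp [hab]

theorem sum_splitU {n : ℕ} (Φ : Matrix κ (Fin (n + 1)) ℂ) (a : ι) (c : κ)
    (g : ι ⊕ (ι × Fin n) → ℂ) :
    ∑ x, splitU ι Φ (a, c) x * g x =
      Φ c 0 * g (Sum.inl a) + ∑ j : Fin n, Φ c j.succ * g (Sum.inr (a, j)) := by
  rw [Fintype.sum_sum_type]
  congr 1
  · rw [Finset.sum_eq_single a]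
    · simp [splitU]
    · intro b _ hb; simp [splitU, hb.symm]
    · simp
  · rw [Fintype.sum_prod_type, Finset.sum_eq_single a]
    · simp [splitU]
    · intro b _ hb
      refine Finset.sum_eq_zero fun j _ => ?_
      simp [splitU, hb.symm]
    · simp

theorem sum_star_splitU {n : ℕ} (Φ : Matrix κ (Fin (n + 1)) ℂ) (a : ι) (c : κ)
    (g : ι ⊕ (ι × Fin n) → ℂ) :
    ∑ x, g x * star (splitU ι Φ (a, c) x) =
      g (Sum.inl a) * star (Φ c 0) + ∑ j : Fin n, g (Sum.inr (a, j)) * star (Φ c j.succ) := by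
  have h := congrArg star (sum_splitU Φ a c fun x => star (g x))
  simp only [star_sum, star_mul', star_star, star_add] at h
  simpa only [mul_comm] using h

theorem powMat_succ {n : ℕ} (Φ : Matrix κ (Fin (n + 1)) ℂ) (P : Fin (n + 1) → Matrix ι ι ℂ) :
    powMat Φ P = splitU ι Φ * fromBlocks (P 0) 0 0
      (powMat (1 : Matrix (Fin n) (Fin n) ℂ) fun i => P i.succ) * (splitU ι Φ)ᴴ := by
  have h1 : ∀ (a b : ι) (i k : Fin n), powMat (1 : Matrix (Fin n) (Fin n) ℂ) (fun i => P i.succ)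
      (a, i) (b, k) = if i = k then P i.succ a b else 0 := by
    intro a b i k
    simp only [powMat, one_apply]
    rw [Finset.sum_eq_single i]
    · by_cases h : i = k
      · simp [h]
      · simp [h, Ne.symm h]
    · intro j _ hj; simp [hj.symm]
    · simp
  ext ⟨a, c⟩ ⟨b, d⟩
  rw [Matrix.mul_apply]
  simp only [conjTranspose_apply]
  rw [sum_star_splitU, Matrix.mul_apply, sum_splitU]
  simp only [fromBlocks_apply₁₁, fromBlocks_apply₂₁, Matrix.zero_apply, mul_zero,
    Finset.sum_const_zero, add_zero]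
  have h2 : ∀ k : Fin n, (splitU ι Φ * fromBlocks (P 0) 0 0
      (powMat (1 : Matrix (Fin n) (Fin n) ℂ) fun i => P i.succ)) (a, c) (Sum.inr (b, k)) =
      Φ c k.succ * P k.succ a b := by
    intro k
    rw [Matrix.mul_apply, sum_splitU]
    simp only [fromBlocks_apply₁₂, fromBlocks_apply₂₂, Matrix.zero_apply, mul_zero, zero_add, h1]
    rw [Finset.sum_eq_single k]
    · simp
    · intro j _ hj; simp [hj]
    · simp
  simp only [h2, powMat]
  rw [Fin.sum_univ_succ]
  congr 1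
  · ring
  · exact Finset.sum_congr rfl fun j _ => by ring

theorem powVec_succ {n : ℕ} (Φ : Matrix κ (Fin (n + 1)) ℂ) (v : Fin (n + 1) → ι → ℂ) :
    powVec Φ v = splitU ι Φ *ᵥ Sum.elim (v 0)
      (powVec (1 : Matrix (Fin n) (Fin n) ℂ) fun i => v i.succ) := by
  have h1 : ∀ (a : ι) (i : Fin n), powVec (1 : Matrix (Fin n) (Fin n) ℂ) (fun i => v i.succ)
      (a, i) = v i.succ a := by
    intro a i
    simp only [powVec, one_apply]
    rw [Finset.sum_eq_single i]
    · simp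
    · intro j _ hj; simp [hj.symm]
    · simp
  ext ⟨a, c⟩
  rw [mulVec, dotProduct, sum_splitU]
  simp only [Sum.elim_inl, Sum.elim_inr, h1]
  rw [powVec, Fin.sum_univ_succ]
  congr 1
  · ring
  · exact Finset.sum_congr rfl fun j _ => by ring

/-- `g` is the direct sum map of the frame `Φ` -/
def IsPowMap {n m N : ℕ} (Φ : Matrix κ (Fin n) ℂ)
    (g : powObj (Fin n) (LC.of (Th m ι)) ⟶ LC.of (Th N (ι × κ))) : Prop :=
  ∀ t : Fin n → Th m ι, ∃ z : Th N (ι × κ), app g (t : OnePoint (Fin n → Th m ι)) =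
    (z : OnePoint (Th N (ι × κ))) ∧ z.P = powMat Φ (fun j => (t j).P) ∧
    z.v = powVec Φ (fun j => (t j).v)

/-- the direct sum morphism of one frame -/
noncomputable def thPow {n m N : ℕ} (hN : n * m = N) (ι : Type) [Fintype ι]
    (Φ : Matrix κ (Fin n) ℂ) (hΦ : Φᴴ * Φ = 1) :
    powObj (Fin n) (LC.of (Th m ι)) ⟶ LC.of (Th N (ι × κ)) :=
  LC.ofIsProper (X := LC.of (Fin n → Th m ι)) (Y := LC.of (Th N (ι × κ)))
    (fun t => Th.pow (by simpa using hN) Φ hΦ t) (by
    have h1 : IsClosedEmbedding (fun w : Fin n → Th m ι => (((), w) : Unit × (Fin n → Th m ι))) := by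
      have hr : Function.LeftInverse (Prod.snd : Unit × (Fin n → Th m ι) → _)
        (fun w : Fin n → Th m ι => (((), w) : Unit × (Fin n → Th m ι))) := fun a => rfl
      exact hr.isClosedEmbedding continuous_snd (by fun_prop)
    exact (Th.isProperMap_pow (ι := ι) (S := Unit) (by simpa using hN) (Φ := fun _ => Φ)
      continuous_const (fun _ => hΦ)).comp h1.isProperMap)

theorem isPowMap_thPow {n m N : ℕ} (hN : n * m = N) (Φ : Matrix κ (Fin n) ℂ) (hΦ : Φᴴ * Φ = 1) :
    IsPowMap (m := m) Φ (thPow hN ι Φ hΦ) := fun _ => ⟨_, rfl, rfl, rfl⟩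

theorem IsPowMap.unique {n m N : ℕ} {Φ : Matrix κ (Fin n) ℂ}
    {g g' : powObj (Fin n) (LC.of (Th m ι)) ⟶ LC.of (Th N (ι × κ))} (h : IsPowMap Φ g)
    (h' : IsPowMap Φ g') : g = g' := by
  apply hom_ext
  intro t
  obtain ⟨z, h1, h2, h3⟩ := h t
  obtain ⟨z', h1', h2', h3'⟩ := h' t
  refine h1.trans (Eq.trans ?_ h1'.symm)
  congr 1
  exact Th.ext (h2.trans h2'.symm) (h3.trans h3'.symm)

/-- the direct sum of `n` Thom classes -/
theorem map_thPow_tau {E : MultTheory.{v}} (o : Orientation E) (m : ℕ) :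
    ∀ (n : ℕ) {κ : Type} [Fintype κ] [DecidableEq κ] {N : ℕ} (_ : n * m = N)
      (Φ : Matrix κ (Fin n) ℂ) (_ : Φᴴ * Φ = 1)
      (g : powObj (Fin n) (LC.of (Th m ι)) ⟶ LC.of (Th N (ι × κ))) (_ : IsPowMap Φ g),
      E.map g (o.tau N (ι × κ)) = E.xpow (o.tau m ι) n := by
  intro n
  induction n with
  | zero =>
    intro κ _ _ N hN Φ hΦ g hg
    have hN' : N = 0 := by rw [← hN, zero_mul]
    subst hN'
    haveI h1 : E.Good (LC.of (Th 0 (ι × κ))) := ⟨o.good_Th _ _⟩
    haveI h2 : E.Good (LC.of (Th m ι)) := ⟨o.good_Th _ _⟩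
    have h3 : E.map ((nilIso (LC.of (Th m ι))).inv ≫ g) (o.tau 0 (ι × κ)) = E.one := by
      apply o.tau_zero
      intro x
      obtain ⟨z, hz, hz1, hz2⟩ := hg ((nilHomeo (Th m ι)).symm x)
      refine ⟨z, hz, ?_, ?_⟩
      · rw [hz1]; ext a b; simp [powMat]
      · rw [hz2]; ext a; simp [powVec]
    rw [MultTheory.map_comp] at h3
    rw [MultTheory.xpow_zero, ← h3, MultTheory.map_hom_inv]
  | succ n ih =>
    intro κ _ _ N hN Φ hΦ g hg
    haveI h1 : E.Good (LC.of (Th N (ι × κ))) := ⟨o.good_Th _ _⟩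
    haveI h2 : E.Good (LC.of (Th m ι)) := ⟨o.good_Th _ _⟩
    haveI h3 : E.Good (LC.of (Th (n * m) (ι × Fin n))) := ⟨o.good_Th _ _⟩
    haveI h4 : E.Good (LC.of (Th N (ι ⊕ ι × Fin n))) := ⟨o.good_Th _ _⟩
    have hu := splitU_isom (ι := ι) hΦ
    have h5 : m + n * m = N := by rw [← hN]; ring
    have hfac : g = (consIso n (LC.of (Th m ι))).hom ≫
        (LC.of (Th m ι) ◁ thPow (κ := Fin n) rfl ι 1 (by simp)) ≫ Th.sum h5 ≫
        Th.map (splitU ι Φ) hu := by
      apply hom_ext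
      intro t
      obtain ⟨z, hz, hz1, hz2⟩ := hg t
      refine hz.trans ?_
      have h6 : app ((consIso n (LC.of (Th m ι))).hom ≫
        (LC.of (Th m ι) ◁ thPow (κ := Fin n) rfl ι 1 (by simp)) ≫ Th.sum h5 ≫
        Th.map (splitU ι Φ) hu) (t : OnePoint (Fin (n + 1) → Th m ι)) =
          ((Th.mapFun (splitU ι Φ) hu (Th.sumFun h5 (t 0)
            (Th.pow (J := Fin n) (N := n * m) (by simp) (1 : Matrix (Fin n) (Fin n) ℂ) (by simp)
              fun i => t i.succ)) : Th N (ι × κ)) : OnePoint (Th N (ι × κ))) := rfl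
      rw [h6]
      congr 1
      refine Th.ext ?_ ?_
      · rw [hz1]
        exact powMat_succ Φ _
      · rw [hz2]
        exact powVec_succ Φ _
    rw [hfac, MultTheory.map_comp, MultTheory.map_comp, MultTheory.map_comp,
      o.tau_isom _ hu (Th.map (splitU ι Φ) hu) (fun x => ⟨_, rfl, rfl, rfl⟩),
      o.tau_sum h5 (Th.sum h5) (fun x y => ⟨_, rfl, rfl, rfl⟩),
      ← MultTheory.cross_map_right, ih rfl 1 (by simp) _ (isPowMap_thPow _ _ _),
      MultTheory.xpow_succ]

end Vale.Agent.P251.Q
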