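import Vale.Agent.P251.Q.PowerPt
import Vale.Agent.P251.Q.Thom

/-!
# P251, part Q (Q3): the class of `cl` and the Thom isomorphism for the power operation
-/

open CategoryTheory MonoidalCategory OnePoint Matrix Topology Filter
open Vale.Agent.P251.G Vale.Agent.P251.G.LC

universe v

set_option linter.unusedSectionVars false
set_option linter.style.haveILetI false

namespace Vale.Agent.P251.Q

/-! ### The Thom isomorphism `U(X ⊗ B) ≅ U(X ⊗ E(V))` -/

section thomX

variable {B : Type} [TopologicalSpace B] [CompactSpace B] [T2Space B]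
variable {I : Type} [Fintype I]

/-- the bundle `X × V` over `X ⊗ B` -/
def sndBun (X : LC) (V : Bun B I) : Bun (X ⊗ LC.of B : LC) I :=
  V.pullback (⟨Prod.snd, continuous_snd⟩ : C(X × B, B))

theorem sndBun_isRank {n : ℕ} (X : LC) {V : Bun B I} (hV : V.IsRank n) :
    (sndBun X V).IsRank n := fun _ => hV _

/-- `X ⊗ E(V) ≅ E(X × V)` -/
def sndIso (X : LC) (V : Bun B I) : X ⊗ V.tot ≅ (sndBun X V).tot :=
  ofHomeo (X := LC.of (X × V.E)) (Y := (sndBun X V).tot) (Bun.sndHomeo V X).symm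

theorem kap_classHom {n : ℕ} (X : LC) (V : Bun B I) (hV : V.IsRank n) :
    kap X V ≫ ((X ⊗ LC.of B) ◁ classHom V hV) =
      (sndIso X V).hom ≫ thomMor (sndBun X V) (sndBun_isRank X hV) := by
  apply tensor_ext
  intro x p
  rfl

variable {E : MultTheory.{v}} (o : Orientation E)

theorem thomX_eq {n : ℕ} (X : LC) [E.Good X] [E.Good (LC.of B)] (V : Bun B I) [E.Good V.tot]
    (hV : V.IsRank n) (u : E.U (X ⊗ LC.of B)) :
    haveI : E.Good (sndBun X V).tot := MultTheory.Good.of_iso E (sndIso X V)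
    MultTheory.thomX o X V hV u =
      E.map (sndIso X V).hom (o.phi (sndBun X V) (sndBun_isRank X hV) u) := by
  haveI : E.Good (sndBun X V).tot := MultTheory.Good.of_iso E (sndIso X V)
  haveI : E.Good (LC.of (Th n I)) := ⟨o.good_Th _ _⟩
  haveI : E.Good (ThO n I) := ⟨o.good_Th _ _⟩
  rw [MultTheory.thomX_apply, MultTheory.thomCl, MultTheory.cross_map_right, phi_apply,
    ← MultTheory.map_comp, ← MultTheory.map_comp, kap_classHom]

theorem thomX_bijective {n : ℕ} (X : LC) [E.Good X] [E.Good (LC.of B)] (V : Bun B I)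
    [E.Good V.tot] (hV : V.IsRank n) : Function.Bijective (MultTheory.thomX o X V hV) := by
  haveI : E.Good (sndBun X V).tot := MultTheory.Good.of_iso E (sndIso X V)
  have h : ⇑(MultTheory.thomX o X V hV) =
      E.map (sndIso X V).hom ∘ o.phi (sndBun X V) (sndBun_isRank X hV) :=
    funext fun u => thomX_eq o X V hV u
  rw [h]
  exact (map_iso_bijective _).comp (phi_bijective o (sndBun X V) (sndBun_isRank X hV))

theorem thomX_deg {n : ℕ} (X : LC) [E.Good X] [E.Good (LC.of B)] (V : Bun B I)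
    [E.Good V.tot] (hV : V.IsRank n) {k : ℤ} {u : E.U (X ⊗ LC.of B)}
    (hu : u ∈ E.deg (X ⊗ LC.of B) k) :
    MultTheory.thomX o X V hV u ∈ E.deg (X ⊗ V.tot) (k + n) := by
  haveI : E.Good (sndBun X V).tot := MultTheory.Good.of_iso E (sndIso X V)
  rw [thomX_eq]
  exact MultTheory.map_deg _ (phi_deg o _ _ hu)

/-- surjectivity of the Thom isomorphism, with degrees -/
theorem exists_thomX {n : ℕ} (X : LC) [E.Good X] [E.Good (LC.of B)] (V : Bun B I)
    [E.Good V.tot] (hV : V.IsRank n) {k : ℤ} {y : E.U (X ⊗ V.tot)}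
    (hy : y ∈ E.deg (X ⊗ V.tot) (k + n)) :
    ∃ u ∈ E.deg (X ⊗ LC.of B) k, MultTheory.thomX o X V hV u = y := by
  obtain ⟨u, hu⟩ := (thomX_bijective o X V hV).2 y
  refine ⟨u, ?_, hu⟩
  refine MultTheory.mem_deg_of_injective (f := MultTheory.thomX o X V hV) (m := n)
    (fun k x hx => thomX_deg o X V hV hx) (thomX_bijective o X V hV).1 ?_
  rwa [hu]

end thomX

/-! ### Scaling -/

section scale

variable {ι : Type} [Fintype ι]

/-- scaling by a positive real number -/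
noncomputable def scaleTh (m : ℕ) (ι : Type) [Fintype ι] (c : ℝ) (hc : 0 < c) :
    LC.of (Th m ι) ⟶ LC.of (Th m ι) :=
  Th.hom (X := LC.of (Th m ι)) (fun x => x.P) (fun x => (c : ℂ) • x.v) Th.continuous_P
    (Th.continuous_v.const_smul (c : ℂ)) (fun x => x.isProj)
    (fun x => by rw [mulVec_smul, x.P_mulVec]) (by
      have h : ∀ x : Th m ι, nsq ((c : ℂ) • x.v) = c ^ 2 * nsq x.v := fun x => by
        rw [nsq_smul, Complex.normSq_ofReal]; ring
      simp only [h]
      exact Tendsto.const_mul_atTop (by positivity) Th.tendsto_nsq)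

theorem scaleTh_homotopic (m : ℕ) (c : ℝ) (hc : 0 < c) :
    Homotopic (scaleTh m ι c hc) (𝟙 (LC.of (Th m ι))) := by
  let l : unitInterval → ℝ := fun t => (1 - (t : ℝ)) * c + t
  have hl : Continuous l := by fun_prop
  have hl0 : ∀ t, min c 1 ≤ l t := by
    intro t
    have h1 := t.2.1
    have h2 := t.2.2
    rcases le_total c 1 with h | h
    · rw [min_eq_left h]; simp only [l]; nlinarith
    · rw [min_eq_right h]; simp only [l]; nlinarith
  have hl1 : ∀ t, 0 < l t := fun t => lt_of_lt_of_le (lt_min hc one_pos) (hl0 t)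
  refine Th.homotopic (X := LC.of (Th m ι)) (fun x : Th m ι × unitInterval => x.1.P)
    (fun x : Th m ι × unitInterval => ((l x.2 : ℝ) : ℂ) • x.1.v)
    (Th.continuous_P.comp continuous_fst) ?_ (fun x => x.1.isProj)
    (fun x => by rw [mulVec_smul, x.1.P_mulVec]) ?_ ?_ ?_
  · exact (Complex.continuous_ofReal.comp (hl.comp continuous_snd)).smul
      (Th.continuous_v.comp continuous_fst)
  · have h : ∀ x : Th m ι × unitInterval, (min c 1) ^ 2 * nsq x.1.v ≤
        nsq (((l x.2 : ℝ) : ℂ) • x.1.v) := fun x => by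
      rw [nsq_smul, Complex.normSq_ofReal, ← sq]
      have h1 : (min c 1) ^ 2 ≤ (l x.2) ^ 2 :=
        pow_le_pow_left₀ (lt_min hc one_pos).le (hl0 _) 2
      exact mul_le_mul_of_nonneg_right h1 (nsq_nonneg _)
    refine tendsto_atTop_mono h ?_
    have h2 : Tendsto (fun x : Th m ι × unitInterval => nsq x.1.v)
        (cocompact (Th m ι × unitInterval)) atTop :=
      Th.tendsto_nsq.comp (tendsto_fst_cocompact (X := Th m ι) (Y := unitInterval))
    exact Tendsto.const_mul_atTop (by have := lt_min hc one_pos; positivity) h2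
  · intro x
    refine congrArg OnePoint.some (Th.ext rfl ?_)
    change (c : ℂ) • x.v = ((l 0 : ℝ) : ℂ) • x.v
    simp [l]
  · intro x
    refine congrArg OnePoint.some (Th.ext rfl ?_)
    change x.v = ((l 1 : ℝ) : ℂ) • x.v
    simp [l]

end scale

/-! ### Euler classes over compact bases -/

section euler

variable {Z : Type} [TopologicalSpace Z] [CompactSpace Z] [T2Space Z] {I : Type} [Fintype I]

/-- `Z ⟶ Th n I`, `z ↦ (V_z, 0)` -/
noncomputable def zeroCl {n : ℕ} (V : Bun Z I) (hV : V.IsRank n) :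
    LC.of Z ⟶ LC.of (Th n I) :=
  ofCompact (X := LC.of Z) (Y := LC.of (Th n I))
    (fun z => Th.mk (V.P z) 0 (hV.isProj z) (mulVec_zero _))
    ((V.cont.prodMk continuous_const).subtype_mk _)

theorem app_zeroCl {n : ℕ} (V : Bun Z I) (hV : V.IsRank n) (z : Z) :
    app (zeroCl V hV) (z : OnePoint Z) =
      (Th.mk (V.P z) 0 (hV.isProj z) (mulVec_zero _) : OnePoint (Th n I)) := rfl

/-- the Euler class of a bundle over a compact base -/
noncomputable def eulerCl {E : MultTheory.{v}} (o : Orientation E) {n : ℕ} (V : Bun Z I)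
    (hV : V.IsRank n) : E.U (LC.of Z) :=
  E.map (zeroCl V hV) (o.tau n I)

end euler

/-! ### The class of `cl` -/

section cl

variable {B : Type} [TopologicalSpace B] [CompactSpace B] [T2Space B]
variable {κ' ι : Type} [Fintype κ'] [Fintype ι] [DecidableEq κ'] [DecidableEq ι]

/-- the bundle `γ ⊗ ρ̄` over `Gr m ι × B` -/
noncomputable def gamRho (m : ℕ) (ι : Type) [Fintype ι] (ρb : Bun B κ') :
    Bun (Gr m ι × B) (ι × κ') :=
  ((taut m ι).pullback (⟨Prod.fst, continuous_fst⟩ : C(Gr m ι × B, Gr m ι))).tensor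
    (ρb.pullback (⟨Prod.snd, continuous_snd⟩ : C(Gr m ι × B, B)))

omit [DecidableEq κ'] [DecidableEq ι] in
theorem gamRho_isRank (m : ℕ) {k : ℕ} {ρb : Bun B κ'} (h : ρb.IsRank k) :
    (gamRho m ι ρb).IsRank (m * k) :=
  Bun.IsRank.tensor ((taut_isRank m ι).pullback _) (h.pullback _)

/-- `ι ⊕ (ι × κ') ≃ ι × (Unit ⊕ κ')` -/
def distribEquiv (ι κ' : Type) : ι ⊕ (ι × κ') ≃ ι × (Unit ⊕ κ') where
  toFun := Sum.elim (fun a => (a, Sum.inl ())) (fun p => (p.1, Sum.inr p.2))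
  invFun p := Sum.elim (fun _ => Sum.inl p.1) (fun c => Sum.inr (p.1, c)) p.2
  left_inv := by rintro (a | ⟨a, c⟩) <;> rfl
  right_inv := by rintro ⟨a, (⟨⟩ | c)⟩ <;> rfl

/-- the projection `Th m ι → Gr m ι` as a continuous map -/
def grC (m : ℕ) (ι : Type) [Fintype ι] :
    C((LC.of (Th m ι) : LC), (LC.of (Gr m ι) : LC)) := ⟨Th.gr, Th.continuous_gr⟩

/-- `((P, v), b) ↦ ((P, v), (P, b))` -/
noncomputable def grMor (m : ℕ) (ι : Type) [Fintype ι] (B : Type) [TopologicalSpace B]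
    [CompactSpace B] [T2Space B] :
    LC.of (Th m ι) ⊗ LC.of B ⟶ LC.of (Th m ι) ⊗ (LC.of (Gr m ι) ⊗ LC.of B) :=
  ((graph (grC m ι) ≫ (β_ (LC.of (Gr m ι)) (LC.of (Th m ι))).hom) ▷ LC.of B) ≫
    (α_ (LC.of (Th m ι)) (LC.of (Gr m ι)) (LC.of B)).hom

variable {k : ℕ} (F : Frames B (Unit ⊕ κ') (Fin (k + 1))) {ρb : Bun B κ'}
  (hk : ρb.IsRank k) (hρ : F.ρ = (Bun.triv B Unit).sum ρb) {c : ℝ} (hc : 0 < c)
  (hs : ∀ b, F.s b = Sum.elim (fun _ => (c : ℂ)) (fun _ => 0))

include hρ hs in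
theorem cl_eq {m N : ℕ} (hN : Fintype.card (Fin (k + 1)) * m = N) (hN' : m + m * k = N) :
    (F.cl hN : LC.of (Th m ι) ⊗ LC.of B ⟶ _) = (scaleTh m ι c hc ▷ LC.of B) ≫ grMor m ι B ≫
      (LC.of (Th m ι) ◁ (zeroCl (gamRho m ι ρb) (gamRho_isRank m hk) :
        LC.of (Gr m ι) ⊗ LC.of B ⟶ LC.of (Th (m * k) (ι × κ')))) ≫ Th.sum hN' ≫
      (Th.reindex (distribEquiv ι κ')).hom := by
  apply tensor_ext
  intro x b
  have h1 : app (F.cl hN : LC.of (Th m ι) ⊗ LC.of B ⟶ _)
      (smash (x : OnePoint (Th m ι)) (b : OnePoint B)) =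
      (F.clFun hN (x, b) : OnePoint (Th N (ι × (Unit ⊕ κ')))) := rfl
  have h2 : app ((scaleTh m ι c hc ▷ LC.of B) ≫ grMor m ι B ≫
      (LC.of (Th m ι) ◁ (zeroCl (gamRho m ι ρb) (gamRho_isRank m hk) :
        LC.of (Gr m ι) ⊗ LC.of B ⟶ LC.of (Th (m * k) (ι × κ')))) ≫ Th.sum hN' ≫
      (Th.reindex (distribEquiv ι κ')).hom) (smash (x : OnePoint (Th m ι)) (b : OnePoint B)) =
      app (Th.reindex (distribEquiv ι κ')).hom
        (Th.sumFun hN' (Th.mk x.P ((c : ℂ) • x.v) x.isProj (by rw [mulVec_smul, x.P_mulVec]))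
          (Th.mk ((gamRho m ι ρb).P (x.gr, b)) 0 ((gamRho_isRank m hk).isProj _)
            (mulVec_zero _)) : OnePoint (Th N (ι ⊕ ι × κ'))) := rfl
  rw [h1, h2, Th.app_reindex_hom_coe]
  refine congrArg OnePoint.some (Th.ext ?_ ?_)
  · rw [F.clFun_P, hρ]
    ext ⟨a, a'⟩ ⟨d, d'⟩
    rcases a' with ⟨⟩ | a' <;> rcases d' with ⟨⟩ | d' <;>
      simp [distribEquiv, kroneckerMap_apply, gamRho, Th.gr, Gr.P, taut]
  · rw [F.clFun_v, hs]
    ext ⟨a, a'⟩
    rcases a' with ⟨⟩ | a'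
    · simp [distribEquiv, mul_comm]
    · simp [distribEquiv]

variable {E : MultTheory.{v}} (o : Orientation E)

include hρ hs hc in
theorem map_cl_tau [hB : E.Good (LC.of B)] {m N : ℕ}
    [hG : E.Good (LC.of (Gr m ι))]
    (hN : Fintype.card (Fin (k + 1)) * m = N) :
    E.map (F.cl hN : LC.of (Th m ι) ⊗ LC.of B ⟶ _) (o.tau N (ι × (Unit ⊕ κ'))) =
      E.map (grMor m ι B) (E.cross (o.tau m ι)
        (eulerCl o (gamRho m ι ρb) (gamRho_isRank m hk) :
          E.U (LC.of (Gr m ι) ⊗ LC.of B))) := by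
  have hN' : m + m * k = N := by rw [← hN, Fintype.card_fin]; ring
  haveI h1 : E.Good (LC.of (Th m ι)) := ⟨o.good_Th _ _⟩
  haveI h2 : E.Good (LC.of (Th (m * k) (ι × κ'))) := ⟨o.good_Th _ _⟩
  haveI h3 : E.Good (LC.of (Th N (ι ⊕ ι × κ'))) := ⟨o.good_Th _ _⟩
  haveI h4 : E.Good (LC.of (Th N (ι × (Unit ⊕ κ')))) := ⟨o.good_Th _ _⟩
  rw [cl_eq F hk hρ hc hs hN hN', MultTheory.map_comp, MultTheory.map_comp, MultTheory.map_comp,
    MultTheory.map_comp, MultTheory.map_homotopic ((scaleTh_homotopic m c hc).whiskerRight _),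
    id_whiskerRight, MultTheory.map_id]
  have h5 : E.map (Th.reindex (distribEquiv ι κ')).hom (o.tau N (ι × (Unit ⊕ κ'))) =
      o.tau N (ι ⊕ ι × κ') :=
    o.tau_isom (injMat (distribEquiv ι κ')) (injMat_isom (distribEquiv ι κ').injective) _
      (fun _ => ⟨_, rfl, rfl, rfl⟩)
  rw [h5, tau_sum', ← MultTheory.cross_map_right]
  rfl

/-- the restriction to `(P, v), b ↦ (P,v), (P,b)` of a product -/
theorem map_grMor_cross [hB : E.Good (LC.of B)] {m : ℕ} [hG : E.Good (LC.of (Gr m ι))]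
    [hT : E.Good (LC.of (Th m ι))] (g : E.U (LC.of (Gr m ι))) (z : E.U (LC.of B))
    (t : E.U (LC.of (Th m ι))) :
    E.map (grMor m ι B) (E.cross t (E.cross g z)) = E.cross (E.act (grC m ι) g t) z := by
  rw [grMor, MultTheory.map_comp, MultTheory.cross_assoc, ← MultTheory.cross_map_left,
    MultTheory.map_comp, MultTheory.cross_comm]
  rfl

end cl

end Vale.Agent.P251.Q
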