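import Vale.Agent.P251.Q.PowTau
import Vale.Agent.P251.Q.Ring
import Vale.Agent.P251.G.Segre

/-!
# P251, part Q (Q3): restriction of the power operation to a point of the base
-/

open CategoryTheory MonoidalCategory OnePoint Matrix Topology Filter
open Vale.Agent.P251.G Vale.Agent.P251.G.LC

universe v

set_option linter.unusedSectionVars false
set_option linter.style.haveILetI false

namespace Vale.Agent.P251.Q

/-! ### Classifying morphisms and Thom classes over compact bases -/

section classHom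

variable {B : Type} [TopologicalSpace B] [CompactSpace B] [T2Space B]
variable {I J : Type} [Fintype I] [Fintype J]

theorem tendsto_nsq_vec (V : Bun B I) :
    Tendsto (fun p : V.E => nsq (Bun.vec p)) (cocompact V.E) atTop := by
  have h1 : Tendsto (fun p : V.E => ((p.1 : B × (I → ℂ)).2)) (cocompact V.E) (cocompact (I → ℂ)) :=
    (tendsto_snd_cocompact (X := B) (Y := I → ℂ)).comp V.isClosedEmbedding_val.tendsto_cocompact
  rw [cocompact_vec, tendsto_comap_iff] at h1
  exact h1

/-- the classifying morphism `E(V) ⟶ Th n I`, `(b, v) ↦ (V_b, v)` -/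
noncomputable def classHom {n : ℕ} (V : Bun B I) (hV : V.IsRank n) : V.tot ⟶ LC.of (Th n I) :=
  Th.hom (X := V.tot) (fun p => V.P (Bun.base p)) (fun p => Bun.vec p)
    (V.cont.comp Bun.continuous_base) Bun.continuous_vec (fun _ => hV.isProj _)
    (fun p => Bun.P_vec p) (tendsto_nsq_vec V)

theorem app_classHom {n : ℕ} (V : Bun B I) (hV : V.IsRank n) (p : V.E) :
    app (classHom V hV) (p : OnePoint V.E) =
      (Th.mk (V.P (Bun.base p)) (Bun.vec p) (hV.isProj _) (Bun.P_vec p) : OnePoint (Th n I)) := rfl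

/-- the projection to the base as a continuous map -/
def baseC {X : LC} (V : Bun X I) : C((V.tot : LC), X) := ⟨Bun.base, Bun.continuous_base⟩

/-- `X ⊗ E(V) ⟶ (X ⊗ B) ⊗ E(V)`, `(x, e) ↦ ((x, base e), e)` -/
noncomputable def kap (X : LC) (V : Bun B I) : X ⊗ V.tot ⟶ (X ⊗ LC.of B) ⊗ V.tot :=
  (X ◁ graph (baseC (X := LC.of B) V)) ≫ (α_ X (LC.of B) V.tot).inv

end classHom

namespace MultTheory

variable {E : MultTheory.{v}} (o : Orientation E)

section thom

variable {B : Type} [TopologicalSpace B] [CompactSpace B] [T2Space B]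
variable {I J : Type} [Fintype I] [Fintype J]

/-- the Thom class of a bundle over a compact space -/
noncomputable def thomCl {n : ℕ} (V : Bun B I) (hV : V.IsRank n) : E.U V.tot :=
  E.map (classHom V hV) (o.tau n I)

/-- the Thom homomorphism `U(X ⊗ B) → U(X ⊗ E(V))` -/
noncomputable def thomX {n : ℕ} (X : LC) (V : Bun B I) (hV : V.IsRank n) :
    E.U (X ⊗ LC.of B) →+ E.U (X ⊗ V.tot) :=
  (E.map (kap X V)).comp (E.cross.flip (thomCl o V hV))

theorem thomX_apply {n : ℕ} (X : LC) (V : Bun B I) (hV : V.IsRank n) (u : E.U (X ⊗ LC.of B)) :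
    thomX o X V hV u = E.map (kap X V) (E.cross u (thomCl o V hV)) := rfl

end thom

/-! ### Powers -/

/-- `x ^ (n + 1)` in the non unital ring `U X` -/
noncomputable def ipow {X : LC} [E.Good X] (x : E.U X) : ℕ → E.U X
  | 0 => x
  | n + 1 => x * ipow x n

/-- the diagonal `X ⟶ X^{n+1}` -/
def mdiag (n : ℕ) (X : LC) : X ⟶ powObj (Fin (n + 1)) X :=
  ofClosed (Y := LC.of (Fin (n + 1) → X)) (fun x _ => x)
    (Function.LeftInverse.isClosedEmbedding (f := fun a : Fin (n + 1) → X => a 0) (fun _ => rfl)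
      (continuous_apply 0) (by fun_prop))

theorem mdiag_zero (X : LC) : mdiag 0 X ≫ (consIso 0 X).hom ≫ (X ◁ (nilIso X).hom) =
    (ρ_ X).inv := by
  apply hom_ext
  intro x
  rfl

theorem mdiag_succ (n : ℕ) (X : LC) : mdiag (n + 1) X ≫ (consIso (n + 1) X).hom =
    diag X ≫ (X ◁ mdiag n X) := by
  apply hom_ext
  intro x
  rfl

theorem map_mdiag_xpow {X : LC} [hX : E.Good X] (x : E.U X) (n : ℕ) :
    E.map (mdiag n X) (E.xpow x (n + 1)) = ipow x n := by
  induction n with
  | zero =>
    rw [xpow_succ, xpow_zero, cross_map_right, ← map_comp, ← map_comp, Category.assoc, mdiag_zero,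
      cross_one, map_inv_hom]
    rfl
  | succ n ih =>
    rw [xpow_succ, ← map_comp, mdiag_succ, map_comp, ← cross_map_right, ih, ipow, mul_eq]

theorem shuffle_eq (n : ℕ) (X V : LC) : shuffle X V (Fin (n + 1)) =
    (mdiag n X ▷ powObj (Fin (n + 1)) V) ≫ (unshIso (n + 1) X V).hom := by
  apply tensor_ext
  intro x w
  rfl

/-- injectivity of the product with a suspension class passes to external powers -/
theorem cross_xpow_injective {V : LC} [hV : E.Good V] {l : E.U V}
    (h : ∀ (X : LC) [E.Good X], Function.Injective fun u : E.U X => E.cross u l) (n : ℕ) :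
    ∀ (X : LC) [E.Good X], Function.Injective fun u : E.U X => E.cross u (E.xpow l n) := by
  induction n with
  | zero =>
    intro X hX a b hab
    have hab' : E.cross a (E.map (nilIso V).hom E.one) =
        E.cross b (E.map (nilIso V).hom E.one) := hab
    rw [cross_map_right, cross_map_right, cross_one, cross_one] at hab'
    have h1 := congrArg (E.map (X ◁ (nilIso V).inv)) hab'
    rw [← map_comp, ← map_comp, ← map_comp, ← map_comp, ← whiskerLeft_comp,
      Iso.inv_hom_id, whiskerLeft_id, Category.id_comp] at h1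
    have h2 := congrArg (E.map (ρ_ X).inv) h1
    rwa [map_inv_hom, map_inv_hom] at h2
  | succ n ih =>
    intro X hX a b hab
    have hab' : E.cross a (E.map (consIso n V).hom (E.cross l (E.xpow l n))) =
        E.cross b (E.map (consIso n V).hom (E.cross l (E.xpow l n))) := hab
    rw [cross_map_right, cross_map_right] at hab'
    have h1 := congrArg (E.map (X ◁ (consIso n V).inv)) hab'
    rw [← map_comp, ← map_comp, ← whiskerLeft_comp, Iso.inv_hom_id, whiskerLeft_id, map_id,
      map_id] at h1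
    have h2 := congrArg (E.map (α_ X V (powObj (Fin n) V)).hom) h1
    rw [cross_assoc, cross_assoc] at h2
    exact h X (ih (X ⊗ V) h2)

end MultTheory

/-! ### Restriction to a point -/

section pt

variable {B : Type} [TopologicalSpace B] [CompactSpace B] [T2Space B]
variable {κ ι W : Type} [Fintype κ] [Fintype ι] [Fintype W] [DecidableEq W] [DecidableEq κ]
  [DecidableEq ι]

/-- the inclusion `X ⟶ X ⊗ B` at a point of `B` -/
noncomputable def atPt (X : LC) (b : B) : X ⟶ X ⊗ LC.of B :=
  (ρ_ X).inv ≫ X ◁ point (X := LC.of B) b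

theorem app_atPt (X : LC) (b : B) (x : X) :
    app (atPt X b) (x : OnePoint X) = (((x, b) : X × B) : OnePoint (X × B)) := rfl

theorem fibre_kap {k : ℕ} (F : Frames B κ (Fin (k + 1))) (X : LC) (e : F.S) :
    (X ◁ F.fibre (W := W) e) ≫ kap X (F.ρW W) = atPt X (F.π e) ⊗ₘ F.fibre (W := W) e := by
  apply tensor_ext
  intro x w
  rfl

theorem isRank_ρW {k : ℕ} (F : Frames B κ (Fin (k + 1))) :
    (F.ρW W).IsRank ((k + 1) * Fintype.card W) := by
  intro b
  obtain ⟨e, rfl⟩ := F.surj b
  rw [F.ρW_P, trace_kronecker, F.ρ_P_π, trace_mul_comm, F.isom]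
  simp [mul_comm]

theorem fibre_classHom {k : ℕ} (F : Frames B κ (Fin (k + 1))) (e : F.S) :
    F.fibre (W := W) e ≫ classHom (F.ρW W) (isRank_ρW F) =
      powHom (Fin (k + 1)) (linMap W) ≫ thPow rfl W (F.Φ e) (F.isom e) := by
  apply hom_ext
  intro w
  have h1 : app (F.fibre (W := W) e ≫ classHom (F.ρW W) (isRank_ρW F))
      (w : OnePoint (Fin (k + 1) → W → ℂ)) =
      (Th.mk ((F.ρW W).P (F.π e)) (powVec (F.Φ e) w) ((isRank_ρW F).isProj _)
        (F.ρW_powVec e w) : OnePoint (Th ((k + 1) * Fintype.card W) (W × κ))) := rfl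
  have h2 : app (powHom (Fin (k + 1)) (linMap W) ≫ thPow rfl W (F.Φ e) (F.isom e))
      (w : OnePoint (Fin (k + 1) → W → ℂ)) =
      app (thPow rfl W (F.Φ e) (F.isom e)) (OP.smash fun j => ((Th.mk (1 : Matrix W W ℂ) (w j)
        IsProj.one (one_mulVec _) : Th (Fintype.card W) W) : OnePoint (Th (Fintype.card W) W))) :=
    rfl
  rw [h1, h2, OP.smash_coe]
  have h3 : app (thPow rfl W (F.Φ e) (F.isom e)) (((fun j => Th.mk (1 : Matrix W W ℂ) (w j)
        IsProj.one (one_mulVec _)) : Fin (k + 1) → Th (Fintype.card W) W) : OnePoint _) =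
      (Th.pow (N := (k + 1) * Fintype.card W) (by simp) (F.Φ e) (F.isom e)
        (fun j => Th.mk (1 : Matrix W W ℂ) (w j) IsProj.one (one_mulVec _)) :
        OnePoint (Th ((k + 1) * Fintype.card W) (W × κ))) := rfl
  rw [h3]
  congr 1
  refine Th.ext ?_ rfl
  change (F.ρW W).P (F.π e) = powMat (F.Φ e) (fun _ => 1)
  rw [powMat_const, F.ρW_P, F.ρ_P_π]

namespace MultTheory

variable {E : MultTheory.{v}} (o : Orientation E)

theorem map_fibre_thomCl {k : ℕ} (F : Frames B κ (Fin (k + 1))) (e : F.S)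
    [h1 : E.Good (F.ρW W).tot] [h2 : E.Good (Cpow W)] :
    E.map (F.fibre e) (thomCl o (F.ρW W) (isRank_ρW F)) = E.xpow (o.lin W) (k + 1) := by
  haveI h3 : E.Good (LC.of (Th ((k + 1) * Fintype.card W) (W × κ))) := ⟨o.good_Th _ _⟩
  haveI h4 : E.Good (LC.of (Th (Fintype.card W) W)) := ⟨o.good_Th _ _⟩
  haveI h5 : E.Good (LC.of (Fin (k + 1) → W → ℂ)) := good_finPow' (k + 1) (Cpow W)
  rw [thomCl, ← map_comp, fibre_classHom, map_comp,
    map_thPow_tau o _ _ rfl (F.Φ e) (F.isom e) _ (isPowMap_thPow _ _ _), map_powHom_xpow]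
  rfl

/-- restriction of the power operation to a point of the base: `P|_b = x^{k+1}` -/
theorem power_pt {k : ℕ} (F : Frames B κ (Fin (k + 1))) {X : LC} [hX : E.Good X]
    [hB : E.Good (LC.of B)] [h1 : E.Good (F.ρW W).tot] [h2 : E.Good (Cpow W)]
    (hlin : ∀ (Y : LC) [E.Good Y], Function.Injective fun u : E.U Y => E.cross u (o.lin W))
    {m N : ℕ} (hN : Fintype.card (Fin (k + 1)) * m = N) (f : X ⊗ Cpow W ⟶ LC.of (Th m ι))
    {x : E.U X} (hf : E.cross x (o.lin W) = E.map f (o.tau m ι))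
    {P : E.U (X ⊗ LC.of B)}
    (hP : thomX o X (F.ρW W) (isRank_ρW F) P = E.map (F.pow hN f) (o.tau N (ι × κ))) (b : B) :
    E.map (atPt X b) P = ipow x k := by
  obtain ⟨e, rfl⟩ := F.surj b
  haveI h3 : E.Good (LC.of (Th N (ι × κ))) := ⟨o.good_Th _ _⟩
  haveI h4 : E.Good (LC.of (Th m ι)) := ⟨o.good_Th _ _⟩
  haveI h5 : E.Good (LC.of (Fin (k + 1) → W → ℂ)) := good_finPow' (k + 1) (Cpow W)
  haveI h6 : E.Good (LC.of (Fin (k + 1) → X × (W → ℂ))) := good_finPow' (k + 1) (X ⊗ Cpow W)
  have hN' : (k + 1) * m = N := by simpa using hN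
  -- left hand side
  have hL : E.map (X ◁ F.fibre (W := W) e) (thomX o X (F.ρW W) (isRank_ρW F) P) =
      E.cross (E.map (atPt X (F.π e)) P) (E.xpow (o.lin W) (k + 1)) := by
    rw [thomX_apply, ← map_comp, fibre_kap, ← cross_map, map_fibre_thomCl]
  -- right hand side
  have hR : E.map (X ◁ F.fibre (W := W) e) (E.map (F.pow hN f) (o.tau N (ι × κ))) =
      E.cross (ipow x k) (E.xpow (o.lin W) (k + 1)) := by
    have h7 : F.thPow hN e = thPow hN' ι (F.Φ e) (F.isom e) := rfl
    rw [← map_comp, F.pow_pt, map_comp, map_comp, h7,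
      map_thPow_tau o _ _ hN' (F.Φ e) (F.isom e) _ (isPowMap_thPow _ _ _), map_powHom_xpow,
      ← hf, shuffle_eq, map_comp, map_unshIso_xpow, ← cross_map_left, map_mdiag_xpow]
  rw [hP, hR] at hL
  exact (cross_xpow_injective hlin (k + 1) X hL).symm

end MultTheory

end pt

end Vale.Agent.P251.Q
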