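import Vale.Agent.P251.Q.Ring
import Vale.Agent.P251.Q.Homog
import Vale.Agent.P251.Q.HomSeries

/-!
# P251, part Q: the lens tower of a multiplicative theory

`LensData E φ F p` : the lens spaces `B k` together with the Euler class `v k` and the lens lemma,
for a multiplicative theory `E` and a formal group law `F` over `C`, `φ : C → E.A`.
`LensData.tower X` : the algebraic tower of `Q/Core.lean` for a good space `X`.
-/

open CategoryTheory MonoidalCategory Topology Finset
open Vale.Agent.P251.G Vale.Agent.P251.G.LC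

universe v

namespace Vale.Agent.P251.Q

/-- A graded ring `C` over the coefficient ring, with a homogeneous formal group law. -/
structure CoeffData (E : MultTheory.{v}) (C : Type) [CommRing C] where
  /-- the homogeneous elements of `C` -/
  gC : ℤ → AddSubgroup C
  mulGr : IsMulGr gC
  total : ∀ c : C, c ∈ ⨆ i, gC i
  /-- the structure map -/
  φ : C →+* E.A
  φ_deg : ∀ i c, c ∈ gC i → φ c ∈ E.degA i
  /-- the formal group law -/
  F : FormalGroup C
  homF : HomPS gC 1 F.toPowerSeries

section

variable {E : MultTheory.{v}} {C : Type} [CommRing C]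

/-- `U X` as a module over `C` -/
abbrev CoeffData.mod (D : CoeffData E C) (X : LC) [E.Good X] : Module C (E.U X) :=
  Module.compHom (E.U X) D.φ

/-- pull back along the projection `Y ⊗ X → X`, for compact `Y` -/
noncomputable def pull (E : MultTheory.{v}) (Y X : LC) [CompactSpace Y] : E.U X →+ E.U (Y ⊗ X) :=
  E.cross (E.oneU Y)

/-- restriction to a point of `Y` -/
noncomputable def ptRes (E : MultTheory.{v}) {Y : LC} (y : Y) (X : LC) : E.U (Y ⊗ X) →+ E.U X :=
  E.map ((λ_ X).inv ≫ (point y ▷ X))

/-- The lens spaces, as seen by the theory `E`. -/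
structure LensData (E : MultTheory.{v}) {C : Type} [CommRing C] (D : CoeffData E C) (p : ℕ) where
  /-- the lens space of dimension `2 k + 1` -/
  B : ℕ → LC
  [cpt : ∀ k, CompactSpace (B k)]
  [good : ∀ k, E.Good (B k)]
  /-- the base point -/
  b : ∀ k, B k
  /-- the inclusion -/
  inc : ∀ k, C(B k, B (k + 1))
  inc_b : ∀ k, inc k (b k) = b (k + 1)
  /-- the Euler class -/
  v : ∀ k, E.U (B k)
  v_deg : ∀ k, v k ∈ E.deg (B k) 1
  v_pow : ∀ k, v k ^ (k + 1) = 0
  v_b : ∀ k, E.map (point (b k)) (v k) = 0
  v_inc : ∀ k, E.map (cmap (inc k)) (v (k + 1)) = v k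
  /-- the lens lemma -/
  lens : ∀ (X : LC) [E.Good X] (k : ℕ) (i : ℤ) (z : E.U (B (k + 2) ⊗ X)),
    z ∈ E.deg (B (k + 2) ⊗ X) i → E.act (fstC (B (k + 2)) X) (v (k + 2)) z = 0 →
    ∃ y ∈ E.deg X i, E.map (cmap (inc k) ▷ X) (E.map (cmap (inc (k + 1)) ▷ X) z) =
      ∑ l ∈ range (k + 1), D.φ (PowerSeries.coeff l (divSeries D.F p)) •
        ((E.act (fstC (B k) X) (v k))^[l]) (pull E (B k) X y)

attribute [instance] LensData.cpt LensData.good

namespace LensData

open MultTheory

variable {D : CoeffData E C} {p : ℕ} (L : LensData E D p)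

theorem iterate_act (X : LC) [E.Good X] {Y : LC} [E.Good Y] [CompactSpace Y] (a : E.U Y) (l : ℕ)
    (z : E.U (Y ⊗ X)) :
    ((E.act (fstC Y X) a)^[l]) z = E.act (fstC Y X) (a ^ l) z := by
  induction l with
  | zero => rw [Function.iterate_zero, id, pow_zero, one_def, act_oneU]
  | succ l ih => rw [Function.iterate_succ_apply', ih, pow_succ', MultTheory.act_mul]

theorem map_whisker_act {Y Y' : LC} [E.Good Y] [E.Good Y'] [CompactSpace Y] (X : LC)
    [E.Good X] (f : C(Y, Y')) (a : E.U Y') (z : E.U (Y' ⊗ X)) :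
    E.map (cmap f ▷ X) (E.act (fstC Y' X) a z) =
      E.act (fstC Y X) (E.map (cmap f) a) (E.map (cmap f ▷ X) z) := by
  rw [act_map (fstC Y X) (cmap f) (f.comp (fstC Y X)) (fun _ => rfl)]
  refine map_act _ _ _ ?_ _ _
  rintro ⟨y, x⟩ ⟨y', x'⟩ h
  have h' : ((f y, x) : Y' × X) = (y', x') := OnePoint.coe_injective h
  rw [Prod.mk.injEq] at h'
  exact h'.1.symm

theorem map_whisker_pull {Y Y' : LC} [E.Good Y] [E.Good Y'] [CompactSpace Y] [CompactSpace Y']
    (X : LC) [E.Good X] (f : C(Y, Y')) (x : E.U X) :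
    E.map (cmap f ▷ X) (pull E Y' X x) = pull E Y X x := by
  unfold pull
  rw [← cross_map_left, map_oneU]

theorem map_point_oneU {Y : LC} [E.Good Y] [CompactSpace Y] (y : Y) :
    E.map (point y) (E.oneU Y) = E.one := by
  unfold oneU
  rw [← MultTheory.map_comp]
  have : point y ≫ cmap (toPt Y) = 𝟙 (𝟙_ LC) := hom_ext fun _ => rfl
  rw [this, map_id]

theorem ptRes_cross {Y : LC} [E.Good Y] (y : Y) (X : LC) [E.Good X] (a : E.U Y) (x : E.U X) :
    ptRes E y X (E.cross a x) = E.map (λ_ X).inv (E.cross (E.map (point y) a) x) := by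
  unfold ptRes
  rw [MultTheory.map_comp, ← cross_map_left]

theorem ptRes_pull {Y : LC} [E.Good Y] [CompactSpace Y] (y : Y) (X : LC) [E.Good X] (x : E.U X) :
    ptRes E y X (pull E Y X x) = x := by
  unfold pull
  rw [ptRes_cross, map_point_oneU, one_cross, map_inv_hom]

theorem ptRes_act {Y : LC} [E.Good Y] (y : Y) (X : LC) [E.Good X] (a : E.U Y) (z : E.U (Y ⊗ X)) :
    ptRes E y X (E.act (fstC Y X) a z) =
      E.toA (E.map (point y) a) • ptRes E y X z := by
  unfold ptRes
  rw [smul_eq_act, ofA_toA,
    act_map (toPt X) (point y) ⟨fun _ => y, continuous_const⟩ (fun _ => rfl)]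
  refine map_act _ _ _ ?_ _ _
  rintro x ⟨y', x'⟩ h
  have h' : ((y, x) : Y × X) = (y', x') := OnePoint.coe_injective h
  rw [Prod.mk.injEq] at h'
  exact h'.1.symm

theorem ptRes_map {Y Y' : LC} [E.Good Y] [E.Good Y'] [CompactSpace Y] (X : LC)
    [E.Good X] (f : C(Y, Y')) (y : Y) (z : E.U (Y' ⊗ X)) :
    ptRes E y X (E.map (cmap f ▷ X) z) = ptRes E (f y) X z := by
  unfold ptRes
  rw [← MultTheory.map_comp, Category.assoc, ← comp_whiskerRight]
  have : point y ≫ cmap f = point (f y) := hom_ext fun _ => rfl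
  rw [this]

/-- The algebraic tower of a good space. -/
noncomputable def tower (X : LC) [E.Good X] :
    @LensTower p C _ (E.U X) _ (D.mod X) (fun k => E.U (L.B k ⊗ X)) _ (fun _ => D.mod _) :=
  letI : Module C (E.U X) := D.mod X
  letI : ∀ k, Module C (E.U (L.B k ⊗ X)) := fun _ => D.mod _
  { gC := D.gC
    gU := E.deg X
    gV := fun k => E.deg (L.B k ⊗ X)
    v := fun k =>
      { toFun := E.act (fstC (L.B k) X) (L.v k)
        map_add' := map_add _
        map_smul' := fun c z => act_smul_right _ _ _ _ }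
    pull := fun k =>
      { toFun := pull E (L.B k) X
        map_add' := map_add _
        map_smul' := fun c z => cross_smul_right _ _ _ }
    pt := fun k =>
      { toFun := ptRes E (L.b k) X
        map_add' := map_add _
        map_smul' := fun c z => map_smul _ _ _ }
    res := fun k =>
      { toFun := E.map (cmap (L.inc k) ▷ X)
        map_add' := map_add _
        map_smul' := fun c z => map_smul _ _ _ }
    pser := divSeries D.F p
    pser_zero := coeff_zero_divSeries _ _
    pser_deg := fun l => coeff_divSeries_mem D.mulGr D.homF p l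
    one_deg := D.mulGr.one_mem
    mul_deg := D.mulGr.mul_mem
    smul_deg := fun i j c u hc hu => smul_deg (D.φ_deg i c hc) hu
    smul_deg' := fun k i j c u hc hu => smul_deg (D.φ_deg i c hc) hu
    v_pow := fun k => by
      ext z
      rw [Module.End.pow_apply]
      have h : ((E.act (fstC (L.B k) X) (L.v k))^[k + 1]) z = 0 := by
        rw [iterate_act, L.v_pow, map_zero]; rfl
      exact h
    v_deg := fun k i z hz => by
      have := act_deg (fstC (L.B k) X) (L.v_deg k) hz
      rw [add_comm]; exact this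
    pull_deg := fun k i u hu => by
      have := cross_deg (oneU_deg (L.B k)) hu
      rwa [zero_add] at this
    res_deg := fun k i z hz => map_deg _ hz
    pt_pull := fun k u => ptRes_pull _ _ _
    pt_v := fun k z => by
      change ptRes E (L.b k) X (E.act (fstC (L.B k) X) (L.v k) z) = 0
      rw [ptRes_act, L.v_b]
      exact zero_smul E.A _
    pt_res := fun k z => by
      change ptRes E (L.b k) X (E.map (cmap (L.inc k) ▷ X) z) = ptRes E (L.b (k + 1)) X z
      rw [ptRes_map, L.inc_b]
    res_v := fun k z => by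
      change E.map (cmap (L.inc k) ▷ X) (E.act (fstC (L.B (k + 1)) X) (L.v (k + 1)) z) =
        E.act (fstC (L.B k) X) (L.v k) (E.map (cmap (L.inc k) ▷ X) z)
      rw [map_whisker_act, L.v_inc]
    res_pull := fun k u => map_whisker_pull _ _ _
    lens := fun k i z hz hv => by
      obtain ⟨y, hy, h⟩ := L.lens X k i z hz hv
      refine ⟨y, hy, ?_⟩
      rw [act_apply]
      refine h.trans (sum_congr rfl fun l _ => ?_)
      rw [Module.End.pow_apply]
      rfl }

end LensData

end

end Vale.Agent.P251.Q
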