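import Vale.Agent.P251.Q.PowerDiag
import Vale.Agent.P251.Q.Tower

/-!
# P251, part Q: the power operation in a Thom theory (Q3)
-/

open CategoryTheory MonoidalCategory OnePoint Matrix Topology Filter
open Vale.Agent.P251.G Vale.Agent.P251.G.LC

universe v

set_option linter.unusedSectionVars false
set_option linter.style.haveILetI false

namespace Vale.Agent.P251.Q

open MultTheory

section

variable {B : Type} [TopologicalSpace B] [CompactSpace B] [T2Space B]
variable {κ' : Type} [Fintype κ'] [DecidableEq κ']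

instance : CompactSpace (LC.of B : LC) := inferInstanceAs (CompactSpace B)

/-- `e(γ ⊗ ρ̄) = 1 × w^m + ∑ g_t × c_t` with `g_t` of positive degree and `c_t ∈ S`. -/
def EulerForm {E : MultTheory.{v}} (o : Orientation E) [E.Good (LC.of B)] {k : ℕ}
    (ρb : Bun B κ') (hk : ρb.IsRank k) (w : E.U (LC.of B)) (S : Set (E.U (LC.of B)))
    (m : ℕ) (ι : Type) [Fintype ι] : Prop :=
  ∃ (T : Type) (_ : Fintype T) (g : T → E.U (LC.of (Gr m ι))) (d : T → ℤ)
    (c : T → E.U (LC.of B)), (∀ t, g t ∈ E.deg _ (d t)) ∧ (∀ t, 0 < d t) ∧ (∀ t, c t ∈ S) ∧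
      (eulerCl o (gamRho m ι ρb) (gamRho_isRank m hk) : E.U (LC.of (Gr m ι) ⊗ LC.of B)) =
        E.cross (E.oneU (LC.of (Gr m ι))) (w ^ m) + ∑ t, E.cross (g t) (c t)

variable {E : MultTheory.{v}} (o : Orientation E)
variable {k : ℕ} (F : Frames B (Unit ⊕ κ') (Fin (k + 1))) {ρb : Bun B κ'}
  (hk : ρb.IsRank k) (hρ : F.ρ = (Bun.triv B Unit).sum ρb) {c₀ : ℝ} (hc : 0 < c₀)
  (hs : ∀ b, F.s b = Sum.elim (fun _ => (c₀ : ℂ)) (fun _ => 0))

include hρ hs hc in
/-- the class of `cl` from the Euler class -/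
theorem map_cl_tau' [hB : E.Good (LC.of B)] {m N : ℕ} {ι : Type} [Fintype ι] [DecidableEq ι]
    [hG : E.Good (LC.of (Gr m ι))]
    (hN : Fintype.card (Fin (k + 1)) * m = N) {w : E.U (LC.of B)} {T : Type} [Fintype T]
    {g : T → E.U (LC.of (Gr m ι))} {c : T → E.U (LC.of B)}
    (h : (eulerCl o (gamRho m ι ρb) (gamRho_isRank m hk) : E.U (LC.of (Gr m ι) ⊗ LC.of B)) =
        E.cross (E.oneU (LC.of (Gr m ι))) (w ^ m) + ∑ t, E.cross (g t) (c t)) :
    E.map (F.cl hN : LC.of (Th m ι) ⊗ LC.of B ⟶ _) (o.tau N (ι × (Unit ⊕ κ'))) =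
      E.cross (o.tau m ι) (w ^ m) + ∑ t, E.cross (E.act (grC m ι) (g t) (o.tau m ι)) (c t) := by
  haveI h1 : E.Good (LC.of (Th m ι)) := ⟨o.good_Th _ _⟩
  rw [map_cl_tau F hk hρ hc hs o hN, h, map_add, map_add, map_grMor_cross, act_oneU]
  congr 1
  rw [map_sum, map_sum]
  exact Finset.sum_congr rfl fun t _ => map_grMor_cross _ _ _

variable {W : Type} [Fintype W] [DecidableEq W]

theorem diag_classHom :
    (F.diag : LC.of (W → ℂ) ⊗ LC.of B ⟶ _) ≫ classHom (F.ρW W) (isRank_ρW F) =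
      (linMap W ▷ LC.of B) ≫ F.cl (ι := W) (n := Fintype.card W)
        (N := (k + 1) * Fintype.card W) (by simp) := by
  apply tensor_ext
  intro x b
  have h1 : app ((F.diag : LC.of (W → ℂ) ⊗ LC.of B ⟶ _) ≫ classHom (F.ρW W) (isRank_ρW F))
      (smash (x : OnePoint (W → ℂ)) (b : OnePoint B)) =
      (Th.mk ((F.ρW W).P b) (Bun.vec (F.diagFun (x, b))) ((isRank_ρW F).isProj _)
        (Bun.P_vec (F.diagFun (x, b))) : OnePoint (Th ((k + 1) * Fintype.card W) _)) := rfl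
  have h2 : app ((linMap W ▷ LC.of B) ≫ F.cl (ι := W) (n := Fintype.card W)
        (N := (k + 1) * Fintype.card W) (by simp))
      (smash (x : OnePoint (W → ℂ)) (b : OnePoint B)) =
      (F.clFun (N := (k + 1) * Fintype.card W) (by simp)
        ((Th.mk (1 : Matrix W W ℂ) x IsProj.one (one_mulVec _) : Th (Fintype.card W) W), b) :
        OnePoint (Th ((k + 1) * Fintype.card W) _)) := rfl
  rw [h1, h2]
  refine congrArg OnePoint.some (Th.ext ?_ ?_)
  · rw [F.clFun_P]; rfl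
  · rw [F.clFun_v]; rfl

theorem map_linMap_act {m : ℕ} (hm : Fintype.card W = m) [E.Good (LC.of (Gr m W))]
    (g : E.U (LC.of (Gr m W))) (f : Cpow W ⟶ LC.of (Th m W))
    (hf : ∀ v : W → ℂ, app f (v : OnePoint (W → ℂ)) =
      (Th.mk (1 : Matrix W W ℂ) v (hm ▸ IsProj.one) (one_mulVec _) : OnePoint (Th m W))) :
    E.map f (E.act (grC m W) g (o.tau m W)) =
      E.toA (E.map (point (X := LC.of (Gr m W)) (⟨1, hm ▸ IsProj.one⟩ : Gr m W)) g) •
        E.map f (o.tau m W) := by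
  haveI h1 : E.Good (LC.of (Th m W)) := ⟨o.good_Th _ _⟩
  rw [smul_eq_act, ofA_toA, act_map (toPt (Cpow W))
    (point (X := LC.of (Gr m W)) (⟨1, hm ▸ IsProj.one⟩ : Gr m W))
    (⟨fun _ => (⟨1, hm ▸ IsProj.one⟩ : Gr m W), continuous_const⟩ : C((Cpow W : LC), _))
    (fun _ => rfl)]
  refine map_act f _ _ ?_ _ _
  intro v z h
  rw [hf v] at h
  have h' := OnePoint.coe_injective h
  rw [← h']
  rfl

/-- the pull back of the Thom class of `W ⊗ ρ` along the diagonal -/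
theorem map_diag_thomCl (hpos : ∀ j : ℤ, 0 < j → ∀ x ∈ E.deg (𝟙_ LC) j, x = 0)
    [hB : E.Good (LC.of B)] [hG : E.Good (LC.of (Gr (Fintype.card W) W))]
    [hV : E.Good (F.ρW W).tot] (hρ : F.ρ = (Bun.triv B Unit).sum ρb) (hc : 0 < c₀)
    (hs : ∀ b, F.s b = Sum.elim (fun _ => (c₀ : ℂ)) (fun _ => 0))
    {w : E.U (LC.of B)} {S : Set (E.U (LC.of B))}
    (H : EulerForm o ρb hk w S (Fintype.card W) W) :
    E.map F.diag (thomCl o (F.ρW W) (isRank_ρW F)) =
      E.cross (o.lin W) (w ^ Fintype.card W) := by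
  haveI h1 : E.Good (LC.of (Th (Fintype.card W) W)) := ⟨o.good_Th _ _⟩
  haveI h2 : E.Good (LC.of (Th ((k + 1) * Fintype.card W) (W × (Unit ⊕ κ')))) := ⟨o.good_Th _ _⟩
  haveI h3 : E.Good (LC.of (W → ℂ)) := good_Cpow E W
  obtain ⟨T, hT, g, d, c, hg, hd, -, h⟩ := H
  rw [thomCl, ← MultTheory.map_comp, diag_classHom, MultTheory.map_comp,
    map_cl_tau' o F hk hρ hc hs _ h, map_add, ← cross_map_left, map_sum]
  have h4 : ∀ t, E.map (linMap W ▷ LC.of B)
      (E.cross (E.act (grC (Fintype.card W) W) (g t) (o.tau (Fintype.card W) W)) (c t)) = 0 := by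
    intro t
    rw [← cross_map_left, map_linMap_act o rfl (g t) (linMap W) (fun _ => rfl),
      hpos (d t) (hd t) _ (map_deg _ (hg t))]
    have : E.toA 0 = 0 := rfl
    rw [this, zero_smul, map_zero, AddMonoidHom.zero_apply]
  rw [Finset.sum_congr rfl fun t _ => h4 t, Finset.sum_const_zero, add_zero]
  rfl

/-- `(x, (w, b)) ↦ ((x, b), (w, b))` -/
noncomputable def tauMor (X C : LC) (B : Type) [TopologicalSpace B] [CompactSpace B] [T2Space B] :
    X ⊗ (C ⊗ LC.of B) ⟶ (X ⊗ LC.of B) ⊗ (C ⊗ LC.of B) :=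
  (X ◁ graph (sndC C (LC.of B))) ≫ (α_ X (LC.of B) (C ⊗ LC.of B)).inv

/-- `(x, (w, b)) ↦ ((x, b), w)` -/
noncomputable def sigMor (X C D : LC) : X ⊗ (C ⊗ D) ⟶ (X ⊗ D) ⊗ C :=
  (X ◁ (β_ C D).hom) ≫ (α_ X D C).inv

theorem diag_kap (X : LC) : (X ◁ F.diag) ≫ kap X (F.ρW W) =
    tauMor X (LC.of (W → ℂ)) B ≫ ((X ⊗ LC.of B) ◁ F.diag) := by
  apply tensor_ext
  rintro x ⟨w, b⟩
  rfl

theorem map_tauMor {X C : LC} [E.Good X] [E.Good C] [E.Good (LC.of B)]
    (P : E.U (X ⊗ LC.of B)) (l : E.U C) (w : E.U (LC.of B)) :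
    E.map (tauMor X C B) (E.cross P (E.cross l w)) =
      E.map (sigMor X C (LC.of B)) (E.cross (E.act (sndC X (LC.of B)) w P) l) := by
  rw [← cross_comm l w, cross_map_right, ← cross_assoc_inv, ← cross_comm P w, cross_map_left,
    MultTheory.act_apply, cross_map_left]
  simp only [← MultTheory.map_comp]
  refine congrArg (fun k => E.map k _) ?_
  apply tensor_ext
  rintro x ⟨w, b⟩
  rfl

theorem cross_cross_sig {X C D : LC} [E.Good X] [E.Good C] [E.Good D]
    (x : E.U X) (l : E.U C) (w : E.U D) :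
    E.cross (E.cross x l) w = E.map ((α_ X C D).hom ≫ sigMor X C D)
      (E.cross (E.cross x w) l) := by
  rw [← cross_assoc, ← cross_comm l w, cross_map_right, ← cross_assoc_inv]
  simp only [← MultTheory.map_comp]
  rfl

theorem map_sig_injective {X C D : LC} [E.Good X] [E.Good C] [E.Good D] :
    Function.Injective (E.map ((α_ X C D).hom ≫ sigMor X C D)) := by
  intro a b hab
  have h : ((α_ X D C).hom ≫ (X ◁ (β_ D C).hom) ≫ (α_ X C D).inv) ≫
      ((α_ X C D).hom ≫ sigMor X C D) = 𝟙 _ := by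
    apply tensor_ext
    rintro ⟨x, d⟩ c
    rfl
  have h2 := congrArg (E.map ((α_ X D C).hom ≫ (X ◁ (β_ D C).hom) ≫ (α_ X C D).inv)) hab
  rwa [← MultTheory.map_comp, ← MultTheory.map_comp, h, MultTheory.map_id,
    MultTheory.map_id] at h2

theorem cross_add_sum_left {X Y : LC} {T : Type} [Fintype T] (a : E.U X) (b : T → E.U X)
    (l : E.U Y) : E.cross (a + ∑ t, b t) l = E.cross a l + ∑ t, E.cross (b t) l := by
  rw [map_add, AddMonoidHom.add_apply, map_sum, AddMonoidHom.finsetSum_apply]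

/-- The identity for the power operation: `w^{|W|} P = x w^m + ∑ x_t c_t` in `U(X ⊗ B)`. -/
theorem power_identity (hpos : ∀ j : ℤ, 0 < j → ∀ x ∈ E.deg (𝟙_ LC) j, x = 0)
    {X : LC} [hX : E.Good X] [hB : E.Good (LC.of B)]
    [hG : E.Good (LC.of (Gr (Fintype.card W) W))] [hV : E.Good (F.ρW W).tot]
    (hρ : F.ρ = (Bun.triv B Unit).sum ρb) (hc : 0 < c₀)
    (hs : ∀ b, F.s b = Sum.elim (fun _ => (c₀ : ℂ)) (fun _ => 0))
    {w : E.U (LC.of B)} {S : Set (E.U (LC.of B))}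
    (H : EulerForm o ρb hk w S (Fintype.card W) W)
    {m N : ℕ} {ι : Type} [Fintype ι] [DecidableEq ι] [hG' : E.Good (LC.of (Gr m ι))]
    (hN : Fintype.card (Fin (k + 1)) * m = N)
    {T : Type} [Fintype T] {g : T → E.U (LC.of (Gr m ι))} {c : T → E.U (LC.of B)}
    (h : (eulerCl o (gamRho m ι ρb) (gamRho_isRank m hk) : E.U (LC.of (Gr m ι) ⊗ LC.of B)) =
        E.cross (E.oneU (LC.of (Gr m ι))) (w ^ m) + ∑ t, E.cross (g t) (c t))
    (f : X ⊗ LC.of (W → ℂ) ⟶ LC.of (Th m ι)) {x : E.U X}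
    (hf : E.cross x (o.lin W) = E.map f (o.tau m ι)) {x' : T → E.U X}
    (hx' : ∀ t, E.cross (x' t) (o.lin W) = E.map f (E.act (grC m ι) (g t) (o.tau m ι)))
    {P : E.U (X ⊗ LC.of B)}
    (hP : thomX o X (F.ρW W) (isRank_ρW F) P = E.map (F.pow hN f) (o.tau N (ι × (Unit ⊕ κ')))) :
    E.act (sndC X (LC.of B)) (w ^ Fintype.card W) P =
      E.cross x (w ^ m) + ∑ t, E.cross (x' t) (c t) := by
  haveI h1 : E.Good (LC.of (Th m ι)) := ⟨o.good_Th _ _⟩
  haveI h2 : E.Good (LC.of (Th N (ι × (Unit ⊕ κ')))) := ⟨o.good_Th _ _⟩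
  haveI h3 : E.Good (LC.of (W → ℂ)) := good_Cpow E W
  -- left hand side
  have hL : E.map (α_ X (LC.of (W → ℂ)) (LC.of B)).hom (E.map (X ◁ F.diag)
      (thomX o X (F.ρW W) (isRank_ρW F) P)) =
      E.map ((α_ X (LC.of (W → ℂ)) (LC.of B)).hom ≫ sigMor X (LC.of (W → ℂ)) (LC.of B))
        (E.cross (E.act (sndC X (LC.of B)) (w ^ Fintype.card W) P) (o.lin W)) := by
    rw [thomX_apply, ← MultTheory.map_comp (X ◁ F.diag), diag_kap, MultTheory.map_comp,
      ← cross_map_right, map_diag_thomCl o F hk hpos hρ hc hs H, map_tauMor,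
      ← MultTheory.map_comp]
  -- right hand side
  have hR : E.map (α_ X (LC.of (W → ℂ)) (LC.of B)).hom (E.map (X ◁ F.diag)
      (E.map (F.pow hN f) (o.tau N (ι × (Unit ⊕ κ'))))) =
      E.map ((α_ X (LC.of (W → ℂ)) (LC.of B)).hom ≫ sigMor X (LC.of (W → ℂ)) (LC.of B))
        (E.cross (E.cross x (w ^ m) + ∑ t, E.cross (x' t) (c t)) (o.lin W)) := by
    rw [← MultTheory.map_comp, ← MultTheory.map_comp, Category.assoc, F.pow_diag hN f,
      MultTheory.map_comp,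
      map_cl_tau' o F hk hρ hc hs hN h, cross_add_sum_left, map_add, map_add, ← cross_map_left,
      ← hf, cross_cross_sig, map_sum, map_sum]
    congr 1
    refine Finset.sum_congr rfl fun t _ => ?_
    rw [← cross_map_left, ← hx' t, cross_cross_sig]
  rw [hP, hR] at hL
  exact ((lin_bijective o W (X ⊗ LC.of B)).1 (map_sig_injective hL)).symm

end

/-- **The power operation (Q3).**  `x ∈ U^{-q}(X)` is represented by a morphism
`X ⊗ ℂ^N ⟶ Th m I` (`m + q = N`); then for every family `F` of frames over a compact space `B` with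
`ρ = 1 ⊕ ρ̄` there is `P ∈ U^{-(k+1)q}(B ⊗ X)` with
`w^N P = w^m x + ∑ c_t x_t`, `x_t` of degree `> -q`, and `P` restricted to any point of `B` is
`x^{k+1}`. -/
theorem power_exists (E : ThomTheory.{v})
    (hGr : ∀ (m : ℕ) (I : Type) [Fintype I], E.Good (LC.of (Gr m I)))
    {X : LC} [hX : E.Good X] {q : ℕ} {x : E.U X} (hx : x ∈ E.deg X (-(q : ℤ))) :
    ∃ N m : ℕ, m + q = N ∧
      ∀ {B : Type} [TopologicalSpace B] [CompactSpace B] [T2Space B] {κ' : Type} [Fintype κ']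
        [DecidableEq κ'] [E.Good (LC.of B)] {k : ℕ} (F : Frames B (Unit ⊕ κ') (Fin (k + 1)))
        (_ : E.Good (F.ρW (Fin N)).tot)
        {ρb : Bun B κ'} (hk : ρb.IsRank k) (_ : F.ρ = (Bun.triv B Unit).sum ρb)
        {c₀ : ℝ} (_ : 0 < c₀) (_ : ∀ b, F.s b = Sum.elim (fun _ => (c₀ : ℂ)) (fun _ => 0))
        {w : E.U (LC.of B)} {S : Set (E.U (LC.of B))}
        (_ : ∀ (m : ℕ) (I : Type) [Fintype I], EulerForm E.o ρb hk w S m I),
        ∃ P ∈ E.deg (LC.of B ⊗ X) (-((k + 1 : ℕ) * q : ℤ)),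
          (∀ b : B, ptRes E.toMultTheory (Y := LC.of B) b X P = ipow x k) ∧
          ∃ (T : Type) (_ : Fintype T) (x' : T → E.U X) (e : T → ℤ) (c : T → E.U (LC.of B)),
            (∀ t, x' t ∈ E.deg X (e t)) ∧ (∀ t, -(q : ℤ) < e t) ∧ (∀ t, c t ∈ S) ∧
            E.act (fstC (LC.of B) X) (w ^ N) P =
              E.cross (w ^ m) x + ∑ t, E.cross (c t) (x' t) := by
  obtain ⟨N, m, I, hI, hM, f, hf⟩ := E.rep hX.out hx
  refine ⟨N, m, by omega, ?_⟩
  intro B _ _ _ κ' _ _ hB k F hV ρb hk hρ c₀ hc hs w S H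
  classical
  haveI hG1 : E.Good (LC.of (Gr (Fintype.card (Fin N)) (Fin N))) := hGr _ _
  haveI hG2 : E.Good (LC.of (Gr m I)) := hGr _ _
  haveI h1 : E.Good (LC.of (Th m I)) := ⟨E.o.good_Th _ _⟩
  have hN : Fintype.card (Fin (k + 1)) * m = (k + 1) * m := by simp
  haveI h2 : E.Good (LC.of (Th ((k + 1) * m) (I × (Unit ⊕ κ')))) := ⟨E.o.good_Th _ _⟩
  obtain ⟨T, hT, g, d, c, hg, hd, hcS, h⟩ := H m I
  -- the class `P` in `U(X ⊗ B)`
  have hy : E.map (F.pow hN f) (E.o.tau ((k + 1) * m) (I × (Unit ⊕ κ'))) ∈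
      E.deg (X ⊗ (F.ρW (Fin N)).tot)
        (-((k + 1 : ℕ) * q : ℤ) + (((k + 1) * Fintype.card (Fin N) : ℕ) : ℤ)) := by
    have h3 : -((k + 1 : ℕ) * q : ℤ) + (((k + 1) * Fintype.card (Fin N) : ℕ) : ℤ) =
        (((k + 1) * m : ℕ) : ℤ) := by
      rw [Fintype.card_fin]
      push_cast
      have : (N : ℤ) = m + q := by omega
      rw [this]; ring
    rw [h3]
    exact map_deg _ (E.o.tau_deg _ _)
  obtain ⟨P, hPdeg, hP⟩ := exists_thomX E.o X (F.ρW (Fin N)) (isRank_ρW F) hy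
  -- the classes `x'`
  have hx1 : ∀ t, ∃ x' ∈ E.deg X (d t - q), E.cross x' (E.o.lin (Fin N)) =
      E.map f (E.act (grC m I) (g t) (E.o.tau m I)) := by
    intro t
    obtain ⟨x', hx'⟩ := (lin_bijective E.o (Fin N) X).2
      (E.map f (E.act (grC m I) (g t) (E.o.tau m I)))
    refine ⟨x', ?_, hx'⟩
    haveI h8 : E.Good (LC.of (Th (Fintype.card (Fin N)) (Fin N))) := ⟨E.o.good_Th _ _⟩
    have hlin : E.o.lin (Fin N) ∈ E.deg (Cpow (Fin N)) (N : ℤ) := by
      have := map_deg (linMap (Fin N)) (E.o.tau_deg (Fintype.card (Fin N)) (Fin N))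
      have h9 : ((Fintype.card (Fin N) : ℕ) : ℤ) = N := by rw [Fintype.card_fin]
      rw [h9] at this
      exact this
    have hinj : Function.Injective
        ((E.cross (X := X) (Y := Cpow (Fin N))).flip (E.o.lin (Fin N))) :=
      (lin_bijective E.o (Fin N) X).1
    refine mem_deg_of_injective (f := (E.cross (X := X) (Y := Cpow (Fin N))).flip
      (E.o.lin (Fin N))) (m := (N : ℤ)) (fun k x hx => cross_deg hx hlin) hinj ?_
    have h4 : (E.cross (X := X) (Y := Cpow (Fin N))).flip (E.o.lin (Fin N)) x' =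
      E.map f (E.act (grC m I) (g t) (E.o.tau m I)) := hx'
    rw [h4]
    have h5 : d t - (q : ℤ) + (N : ℤ) = d t + (m : ℤ) := by omega
    rw [h5]
    exact map_deg _ (act_deg _ (hg t) (E.o.tau_deg _ _))
  choose x' hx'deg hx' using hx1
  have key := power_identity E.o F hk E.deg_unit_pos hρ hc hs (H (Fintype.card (Fin N)) (Fin N)) hN
    h f hf hx' hP
  rw [Fintype.card_fin] at key
  refine ⟨E.map (β_ (LC.of B) X).hom P, map_deg _ hPdeg, ?_, T, hT, x', fun t => d t - q, c, hx'deg,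
    fun t => ?_, hcS, ?_⟩
  · intro b
    rw [← power_pt E.o F (fun Y _ => (lin_bijective E.o (Fin N) Y).1) hN f hf hP b]
    unfold ptRes
    rw [← MultTheory.map_comp]
    refine congrArg (fun k => E.map k P) ?_
    apply hom_ext
    intro y
    rfl
  · have := hd t
    change -(q : ℤ) < d t - q
    omega
  · have h6 : E.act (fstC (LC.of B) X) (w ^ N) (E.map (β_ (LC.of B) X).hom P) =
        E.map (β_ (LC.of B) X).hom (E.act (sndC X (LC.of B)) (w ^ N) P) := by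
      symm
      refine map_act _ _ _ ?_ _ _
      rintro ⟨b, y⟩ ⟨y', b'⟩ hh
      have h' : ((y, b) : X × B) = (y', b') := OnePoint.coe_injective hh
      rw [Prod.mk.injEq] at h'
      exact h'.2.symm
    rw [h6, key, map_add, map_sum, cross_comm]
    congr 1
    exact Finset.sum_congr rfl fun t _ => cross_comm _ _

end Vale.Agent.P251.Q
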