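import Vale.Agent.P251.Q.ClassPoly
import Vale.Agent.P251.Q.Symm

/-!
# P251, part Q: the algebra of `e(rhobar ⊗ gamma) = w ^ n + ∑ q_t(v) c' ^ t` (task Q4)

`R = U(B_k)`, `S₁ = U(B_k × Gr(n, ι))`, `S₂ = U(B_k × Gr(n, ι'))` (`ι'` large),
`S₃ = U(B_k × (CP^N)^n)`, `c₁`, `c₂` the classes `c'` of the tautological bundles, `x a` the Euler
classes of the line bundles, `y₁`, `y₂` the Euler classes of `rhobar ⊗ gamma`.
-/

open Finset MvPolynomial

namespace Vale.Agent.P251.Q

theorem q4_alg {C R S₁ S₂ S₃ : Type*} [CommRing C] [CommRing R] [CommRing S₁] [CommRing S₂]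
    [CommRing S₃] [Algebra C R] [Algebra C S₃] [Algebra R S₁] [Algebra R S₂] [Algebra R S₃]
    [IsScalarTower C R S₃] {ι : Type*} [Fintype ι] {n K m : ℕ} (hK : 2 ≤ K)
    (f : ℕ → ℕ → C) (h00 : f 0 0 = 0) (h10 : f 1 0 = 1) (h01 : f 0 1 = 1)
    (hf : ∀ k, k ≠ 1 → f k 0 = 0) (v : R) (u : ι → Polynomial C)
    (c₂ : Fin n → S₂) (y₂ : S₂) (P : MvPolynomial (Fin n) R) (hgen : y₂ = aeval c₂ P)
    (x : Fin n → S₃) (s : S₂ →ₐ[R] S₃) (hsc : ∀ i : Fin n, s (c₂ i) = cls K f x (n - 1 - i))
    (hsy : s y₂ = ∏ i, ∏ a, val₂ K f (algebraMap R S₃ (Polynomial.aeval v (u i))) (x a))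
    (hker : ∀ p : MvPolynomial (Fin n) R, aeval x p = 0 → p ∈ J R (fun _ => 1) m)
    (c₁ : Fin n → S₁) (y₁ : S₁) (r : S₂ →ₐ[R] S₁) (hrc : ∀ i, r (c₂ i) = c₁ i) (hry : r y₂ = y₁)
    (hnil : ∀ p ∈ J R (wt n) m, aeval c₁ p = 0) :
    ∃ (T : Finset (Fin n →₀ ℕ)) (q : (Fin n →₀ ℕ) → Polynomial C), 0 ∉ T ∧
      y₁ = algebraMap R S₁ ((∏ i, Polynomial.aeval v (u i)) ^ n) +
        ∑ t ∈ T, algebraMap R S₁ (Polynomial.aeval v (q t)) * ∏ i : Fin n, c₁ i ^ t i := by
  classical
  let _ : Algebra (Polynomial C) R := (Polynomial.aeval v : Polynomial C →ₐ[C] R).toAlgebra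
  have halg : ∀ q : Polynomial C, algebraMap (Polynomial C) R q = Polynomial.aeval v q :=
    fun _ => rfl
  have _ : IsScalarTower C (Polynomial C) R := by
    refine IsScalarTower.of_algebraMap_eq fun a => ?_
    rw [halg, Polynomial.algebraMap_eq, Polynomial.aeval_C]
  obtain ⟨Q, hQ0, hQ⟩ := exists_prod_val₂_eq (C := C) (D := Polynomial C)
    (S := MvPolynomial (Fin n) R) (σ := Fin n) (M := n) (by simp) hK f h10 hf u
  obtain ⟨Q', hQ'0, hQ'⟩ := exists_change_of_generators (R := R) (cpoly K f n)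
    (cpoly_isSymmetric K f n) (fun i => cpoly_sub_es_mem hK h00 h10 h01 n i) Q m
  -- the product as a polynomial over `R`
  have h1 : aeval (es R n) (MvPolynomial.map (algebraMap (Polynomial C) R) Q) =
      ∏ i, ∏ a, val₂ K f (algebraMap (Polynomial C) (MvPolynomial (Fin n) R) (u i))
        (MvPolynomial.X a : MvPolynomial (Fin n) R) := by
    rw [hQ MvPolynomial.X]
    rw [aeval_def, eval₂_map, aeval_def]
    have e1 : (algebraMap R (MvPolynomial (Fin n) R)).comp (algebraMap (Polynomial C) R) =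
        algebraMap (Polynomial C) (MvPolynomial (Fin n) R) :=
      (IsScalarTower.algebraMap_eq (Polynomial C) R (MvPolynomial (Fin n) R)).symm
    rw [e1]
    congr 1
    funext i
    simp only [es, esymm, map_sum, map_prod, aeval_X]
  have hxC : ∀ a : C, aeval x (algebraMap C (MvPolynomial (Fin n) R) a) = algebraMap C S₃ a := by
    intro a
    rw [IsScalarTower.algebraMap_apply C R (MvPolynomial (Fin n) R), AlgHom.commutes,
      ← IsScalarTower.algebraMap_apply]
  let φ : MvPolynomial (Fin n) R →ₐ[C] S₃ :=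
    { (aeval x : MvPolynomial (Fin n) R →ₐ[R] S₃).toRingHom with commutes' := hxC }
  have hφ : ∀ p, φ p = aeval x p := fun _ => rfl
  have h2 : aeval x (aeval (es R n) (MvPolynomial.map (algebraMap (Polynomial C) R) Q)) =
      s y₂ := by
    rw [h1, hsy, ← hφ]
    simp only [map_prod, map_val₂]
    refine prod_congr rfl fun i _ => prod_congr rfl fun a _ => ?_
    have e2 : φ (algebraMap (Polynomial C) (MvPolynomial (Fin n) R) (u i)) =
        algebraMap R S₃ (Polynomial.aeval v (u i)) := by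
      rw [hφ, IsScalarTower.algebraMap_apply (Polynomial C) R (MvPolynomial (Fin n) R),
        AlgHom.commutes, halg]
    rw [e2, hφ, aeval_X]
  have h3 : aeval x (aeval (fun i => MvPolynomial.map (algebraMap C R) (cpoly K f n i)) P) =
      s y₂ := by
    rw [hgen]
    have e3 : ∀ i, aeval x (MvPolynomial.map (algebraMap C R) (cpoly K f n i)) = s (c₂ i) := by
      intro i
      rw [hsc, ← aeval_cpoly, aeval_def, eval₂_map, aeval_def,
        ← IsScalarTower.algebraMap_eq]
    generalize P = P'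
    induction P' using MvPolynomial.induction_on with
    | C a => simp
    | add p q hp hq => simp only [map_add, hp, hq]
    | mul_X p i hp => simp only [map_mul, hp, aeval_X, e3]
  have h4 := hker (aeval (fun i => MvPolynomial.map (algebraMap C R) (cpoly K f n i)) P -
    aeval (es R n) (MvPolynomial.map (algebraMap (Polynomial C) R) Q)) (by
      rw [map_sub, h3, h2, sub_self])
  have h5 := hnil _ (hQ' P h4)
  have h6 : y₁ = aeval c₁ (MvPolynomial.map (algebraMap (Polynomial C) R) Q') := by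
    rw [map_sub, sub_eq_zero] at h5
    rw [← h5, ← hry, hgen]
    generalize P = P'
    induction P' using MvPolynomial.induction_on with
    | C a => simp
    | add p q hp hq => simp only [map_add, hp, hq]
    | mul_X p i hp => simp only [map_mul, hp, aeval_X, hrc]
  refine ⟨Q'.support.erase 0, fun t => coeff t Q', by simp, ?_⟩
  rw [h6, aeval_def, eval₂_map, eval₂_eq]
  have h7 : ∀ t : Fin n →₀ ℕ, (algebraMap R S₁).comp (algebraMap (Polynomial C) R)
      (coeff t Q') * ∏ i ∈ t.support, c₁ i ^ t i =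
      algebraMap R S₁ (Polynomial.aeval v (coeff t Q')) * ∏ i : Fin n, c₁ i ^ t i := by
    intro t
    rw [RingHom.comp_apply, halg]
    congr 1
    refine prod_subset (subset_univ _) fun i _ hi => ?_
    rw [Finsupp.notMem_support_iff.1 hi, pow_zero]
  rw [sum_congr rfl fun t _ => h7 t]
  have h8 : coeff 0 Q' = (∏ i, u i) ^ n := by
    rw [← constantCoeff_eq, hQ'0, hQ0]
  by_cases h0 : (0 : Fin n →₀ ℕ) ∈ Q'.support
  · rw [← add_sum_erase _ _ h0]
    congr 1
    rw [h8]
    simp
  · rw [erase_eq_of_notMem h0]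
    have h9 : (∏ i, Polynomial.aeval v (u i)) ^ n = 0 := by
      rw [← map_prod, ← map_pow, ← h8, notMem_support_iff.1 h0, map_zero]
    rw [h9, map_zero, zero_add]

end Vale.Agent.P251.Q
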