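import Vale.Agent.P251.Q.Q4Law
import Vale.Agent.P251.Q.Gen
import Vale.Agent.P251.Q.ProdCP
import Vale.Agent.P251.Q.BlockIsom
import Vale.Agent.P251.Q.TPowClass

/-!
# P251, part Q: classes of sums of line bundles (task Q4)

* `e_blockSum_tensor` : `e ((⊕ W a) ⊗ L) = ∏ F (e (W a), e L)`;
* `e_blockSum_tensor_sigma` : `e ((⊕ W a) ⊗ (⊕ V j)) = ∏ j, ∏ a, F (e (V j), e (W a))`;
* `cc_blk` : the classes `cc` of the sum of the tautological line bundles over `(CP^(N-1))^m`.
-/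

set_option linter.unusedSectionVars false
set_option linter.style.haveILetI false

open CategoryTheory MonoidalCategory OnePoint Topology Matrix
open Vale.Agent.P251.G Vale.Agent.P251.G.LC

universe v

noncomputable section

namespace Vale.Agent.P251.Q

open MultTheory

variable {E : MultTheory.{v}} (o : Orientation E)
variable {C : Type} [CommRing C] {D : CoeffData E C}

section tensor

variable {Z : LC} [CompactSpace Z] [hZ : GoodBase E Z] {m : ℕ} {I κ : Type} [Fintype I]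
  [Fintype κ]

/-- the coefficients of the law, in `E.A` -/
def lawA (D : CoeffData E C) (k l : ℕ) : E.A := D.φ (fcoef D.F k l)

theorem e_tensor_val₂ (hF : o.HasLaw (D.F.map D.φ)) {L : Bun Z I} {L' : Bun Z κ}
    (hL : L.IsRank 1) (hL' : L'.IsRank 1) (h : (L.tensor L').IsRank 1) {K : ℕ}
    (h1 : o.e L hL ^ K = 0) (h2 : o.e L' hL' ^ K = 0) :
    o.e (L.tensor L') h = val₂ K (lawA D) (o.e L hL) (o.e L' hL') := by
  rw [hF Z I κ L L' hL hL' h, map_toPowerSeries_eq_ser, nev_eq_val₂ h1 h2]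
  rfl

theorem e_blockSum_tensor (hF : o.HasLaw (D.F.map D.φ)) (W : Fin m → Bun Z I)
    (hW : ∀ a, (W a).IsRank 1) (S : Bun Z (I × Fin m)) (hS : S = Bun.blockSum W) (L : Bun Z κ)
    (hL : L.IsRank 1) (h : (S.tensor L).IsRank m) {K : ℕ}
    (h1 : ∀ a, o.e (W a) (hW a) ^ K = 0) (h2 : o.e L hL ^ K = 0) :
    o.e (S.tensor L) h =
      ∏ a, val₂ K (lawA D) (o.e (W a) (hW a)) (o.e L hL) := by
  subst hS
  have h3 : ∀ a, ((W a).tensor L).IsRank 1 := fun a => (hW a).tensor hL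
  let φ := Bun.Isom.blockSumTensor W L
  have hs : (∑ _a : Fin m, 1) = m := by simp
  have h4 : (Bun.sigma fun a => (W a).tensor L).IsRank m := φ.isRank h
  haveI := hZ.tot _ h
  haveI := hZ.tot _ h4
  rw [e_isom o φ h h4, e_congr_rank o hs.symm h4 (Bun.IsRank.sigma h3),
    e_sigma o _ (fun _ => 1) h3]
  exact Finset.prod_congr rfl fun a _ => e_tensor_val₂ o hF (hW a) hL (h3 a) (h1 a) h2

theorem e_blockSum_tensor_sigma (hF : o.HasLaw (D.F.map D.φ)) (W : Fin m → Bun Z I)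
    (hW : ∀ a, (W a).IsRank 1) (S : Bun Z (I × Fin m)) (hS : S = Bun.blockSum W)
    {q : ℕ} {κ : Fin q → Type} [∀ j, Fintype (κ j)]
    (V : ∀ j, Bun Z (κ j)) (hV : ∀ j, (V j).IsRank 1) (R : Bun Z (Σ j, κ j))
    (hR : R = Bun.sigma V) (h : (S.tensor R).IsRank (m * q)) {K : ℕ}
    (h1 : ∀ a, o.e (W a) (hW a) ^ K = 0) (h2 : ∀ j, o.e (V j) (hV j) ^ K = 0) :
    o.e (S.tensor R) h =
      ∏ j, ∏ a, val₂ K (lawA D) (o.e (V j) (hV j)) (o.e (W a) (hW a)) := by
  subst hS hR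
  have h3 : ∀ j a, ((V j).tensor (W a)).IsRank 1 := fun j a => (hV j).tensor (hW a)
  let φ := (Bun.Isom.tensorComm (Bun.blockSum W) (Bun.sigma V)).trans
    (Bun.Isom.sigmaTensorBlockSum V W)
  have hs : (∑ _j : Fin q, ∑ _a : Fin m, 1) = m * q := by simp [mul_comm]
  have h4 : (Bun.sigma fun j => Bun.sigma fun a => (V j).tensor (W a)).IsRank (m * q) :=
    φ.isRank h
  have h5 : ∀ j, (Bun.sigma fun a => (V j).tensor (W a)).IsRank (∑ _a : Fin m, 1) := fun j =>
    Bun.IsRank.sigma (h3 j)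
  haveI := hZ.tot _ h
  haveI := hZ.tot _ h4
  rw [e_isom o φ h h4, e_congr_rank o hs.symm h4 (Bun.IsRank.sigma h5),
    e_sigma o _ (fun _ => ∑ _a : Fin m, 1) h5]
  refine Finset.prod_congr rfl fun j _ => ?_
  rw [e_sigma o _ (fun _ => 1) (h3 j)]
  exact Finset.prod_congr rfl fun a _ =>
    e_tensor_val₂ o hF (hV j) (hW a) (h3 j a) (h2 j) (h1 a)

end tensor

/-! ### The product of projective spaces -/

section blk

/-- the product of `m` projective spaces -/
abbrev cpPow (N m : ℕ) : LC := powObj (LC.of (Gr 1 (Fin N))) (Fin m)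

/-- the sum of the tautological line bundles -/
def blk (N m : ℕ) : Bun (cpPow N m : LC) (Fin N × Fin m) :=
  Bun.blockSum (X := Fin m → Gr 1 (Fin N)) fun a : Fin m => Bun.lam (Fin N) a

theorem blk_isRank (N m : ℕ) : (blk N m).IsRank m := by
  have h := Bun.blockSum_isRank_one (X := Fin m → Gr 1 (Fin N))
    (V := fun a : Fin m => Bun.lam (Fin N) a) (fun a => Bun.lam_isRank a)
  rwa [Fintype.card_fin] at h

/-- the `a`-th coordinate class -/
def xcl (N m : ℕ) [E.GoodGr] (a : Fin m) : E.U (cpPow N m) :=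
  E.mapAlg (evalC (LC.of (Gr 1 (Fin N))) a) (o.z (Fin N))

variable [E.GoodGr]

theorem xcl_pow (N m : ℕ) {K : ℕ} (hK : N ≤ K) (a : Fin m) : xcl o N m a ^ K = 0 := by
  unfold xcl
  rw [← map_pow, z_pow_eq_zero o K (Fin N) (by simpa using hK), map_zero]

theorem e_lam (N m : ℕ) (a : Fin m) :
    o.e (B := cpPow N m) (Bun.lam (Fin N) a) (Bun.lam_isRank a) = xcl o N m a := by
  haveI h1 : GoodBase E (LC.of (Gr 1 (Fin N))) := inferInstance
  haveI h3 : GoodBase E (cpPow N m) := inferInstance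
  haveI : E.Good (Bun.tot (X := (LC.of (Gr 1 (Fin N)) : LC)) (taut 1 (Fin N))) :=
    h1.tot _ (taut_isRank 1 (Fin N))
  haveI : E.Good (Bun.tot (X := (cpPow N m : LC)) (Bun.lam (Fin N) a)) :=
    h3.tot _ (Bun.lam_isRank a)
  haveI : E.Good (Bun.tot (X := (cpPow N m : LC))
      ((taut 1 (Fin N)).pullback (evalC (LC.of (Gr 1 (Fin N))) a))) :=
    h3.tot _ (Bun.lam_isRank a)
  unfold xcl
  rw [← e_taut_z]
  exact e_pullback_alg o (B := LC.of (Gr 1 (Fin N))) (evalC (LC.of (Gr 1 (Fin N))) a)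
    (taut 1 (Fin N)) (taut_isRank 1 (Fin N)) (Bun.lam_isRank a)

theorem e_pull {X Y : LC} [CompactSpace X] [CompactSpace Y] [hX : GoodBase E X]
    [hY : GoodBase E Y] {I : Type} [Fintype I] {n : ℕ} (f : C(Y, X)) (V : Bun X I)
    (hV : V.IsRank n) (hV' : (V.pullback f).IsRank n) :
    o.e (V.pullback f) hV' = E.mapAlg f (o.e V hV) := by
  haveI := hX.tot _ hV
  haveI := hY.tot _ hV'
  exact e_pullback_alg o f V hV hV'

theorem pullback_blk (N m : ℕ) {Y : LC} (f : C(Y, cpPow N m)) :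
    (blk N m).pullback f =
      Bun.blockSum (fun a : Fin m => (Bun.lam (Fin N) a).pullback f) := rfl

/-- The classes of the sum of the tautological line bundles over the product of projective
spaces. -/
theorem cc_blk (hF : o.HasLaw (D.F.map D.φ)) (N m : ℕ) {K M : ℕ} (hK : N ≤ K) (hM : M + 1 ≤ K)
    {j : ℕ} (hj : j ≤ M) :
    o.cc (X := cpPow N m) (blk N m) (blk_isRank N m) j = cls K (lawA D) (xcl o N m) j := by
  refine o.cc_eq (N := M) (a := cls K (lawA D) (xcl o N m)) ?_ hj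
  haveI h1 : GoodBase E (cpPow N m) := inferInstance
  haveI h2 : GoodBase E (CPn M) := inferInstance
  haveI h3 : GoodBase E (cpPow N m ⊗ CPn M) := inferInstance
  have hz : o.zc M ^ (M + 1) = 0 := o.zc_pow_eq_zero (Nat.lt_succ_self M)
  have hlam : ∀ a : Fin m, Bun.IsRank (X := (cpPow N m ⊗ CPn M : LC))
      ((Bun.lam (Fin N) a).pullback (fstC (cpPow N m) (CPn M))) 1 :=
    fun a => (Bun.lam_isRank a).pullback _
  have htau : Bun.IsRank (X := (cpPow N m ⊗ CPn M : LC))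
      ((taut 1 (Fin (M + 1))).pullback (sndC (cpPow N m) (CPn M))) 1 :=
    (taut_isRank 1 (Fin (M + 1))).pullback _
  have e1 : ∀ a, o.e (B := cpPow N m ⊗ CPn M) _ (hlam a) =
      E.mapAlg (fstC (cpPow N m) (CPn M)) (xcl o N m a) := fun a => by
    rw [← e_lam]
    exact e_pull o (X := cpPow N m) _ _ _ _
  have e2 : o.e (B := cpPow N m ⊗ CPn M) _ htau =
      E.mapAlg (sndC (cpPow N m) (CPn M)) (o.zc M) := by
    unfold Orientation.zc
    rw [← e_taut_z]
    exact e_pull o (X := CPn M) _ _ _ _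
  have hrank := Orientation.isRank_tb M (blk_isRank N m)
  have h4 : o.eT M (blk N m) (blk_isRank N m) = o.e (B := cpPow N m ⊗ CPn M) _ hrank := by
    haveI := h3.tot _ hrank
    exact o.eu_eq_e (X := cpPow N m ⊗ CPn M) _ hrank
  have hz2 : E.mapAlg (sndC (cpPow N m) (CPn M)) (o.zc M) ^ (M + 1) = 0 := by
    rw [← map_pow, hz, map_zero]
  have h5 := e_blockSum_tensor o hF (Z := cpPow N m ⊗ CPn M) (m := m) _ hlam _
    (pullback_blk N m _) _ htau hrank (K := K)
    (fun a => by rw [e1, ← map_pow, xcl_pow o N m hK, map_zero])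
    (by rw [e2]; exact pow_eq_zero_of_le hM hz2)
  unfold Orientation.IsExp
  rw [h4]
  refine h5.trans ?_
  simp only [e1, e2]
  rw [prod_val₂_alg K (lawA D) (xcl o N m) (E.mapAlg (fstC (cpPow N m) (CPn M))) hz2]
  refine Finset.sum_congr rfl fun i _ => ?_
  rw [cross_eq_mul, map_pow]

end blk

end Vale.Agent.P251.Q
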