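import Vale.Agent.P251.Q.Q4Ring
import Vale.Agent.P251.Q.FGLAlg

/-!
# P251, part Q: algebra for the formula for `e(γ ⊗ ρ̄)` (task Q4)

* `fcoef F k l` : the coefficients of a formal group law; `fcoef_zero_right`;
* `prod_val₂_eq` : `∏ a, F(x a, z) = ∑ j, cls K f x j * z ^ j`.
-/

open Finset

namespace Vale.Agent.P251.Q

/-- the coefficients of a formal group law -/
noncomputable def fcoef {C : Type*} [CommRing C] (F : FormalGroup C) (k l : ℕ) : C :=
  MvPowerSeries.coeff (Finsupp.single (0 : Fin 2) k + Finsupp.single (1 : Fin 2) l)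
    F.toPowerSeries

section fcoef

variable {C : Type*} [CommRing C] (F : FormalGroup C)

theorem fcoef_zero_zero : fcoef F 0 0 = 0 := by
  have h := F.zero_constantCoeff
  unfold fcoef
  rw [Finsupp.single_zero, Finsupp.single_zero, add_zero,
    MvPowerSeries.coeff_zero_eq_constantCoeff_apply, h]

theorem fcoef_one_zero : fcoef F 1 0 = 1 := by
  unfold fcoef
  rw [Finsupp.single_zero, add_zero]
  exact F.lin_coeff_X

theorem fcoef_zero_one : fcoef F 0 1 = 1 := by
  unfold fcoef
  rw [Finsupp.single_zero, zero_add]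
  exact F.lin_coeff_Y

theorem coeff_Xzero (k : ℕ) : PowerSeries.coeff k F.Xzero = fcoef F k 0 := by
  unfold fcoef
  rw [Finsupp.single_zero, add_zero, PowerSeries.coeff, FormalGroup.Xzero,
    MvPowerSeries.coeff_subst, finsum_eq_single _ (Finsupp.single 0 k)]
  · rw [Finsupp.prod_single_index (by simp)]
    simp only [Matrix.cons_val_zero]
    have h1 : MvPowerSeries.coeff (Finsupp.single () k) ((PowerSeries.X : PowerSeries C) ^ k) =
        1 := by
      have := PowerSeries.coeff_X_pow (R := C) k k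
      rw [if_pos rfl] at this
      exact this
    rw [h1, smul_eq_mul, mul_one]
  · intro d hd
    by_cases hd₁ : d 1 = 0
    · have h2 : d = Finsupp.single 0 (d 0) := by
        ext i
        fin_cases i
        · simp
        · simpa using hd₁
      have h3 : d 0 ≠ k := fun h => hd (by rw [h2, h])
      rw [h2, Finsupp.prod_single_index (by simp)]
      simp only [Matrix.cons_val_zero]
      have h1 : MvPowerSeries.coeff (Finsupp.single () k)
          ((PowerSeries.X : PowerSeries C) ^ (d 0)) = 0 := by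
        have := PowerSeries.coeff_X_pow (R := C) k (d 0)
        rw [if_neg (Ne.symm h3)] at this
        exact this
      rw [h1, smul_zero]
    · rw [Finsupp.prod_fintype _ _ (by simp), Fin.prod_univ_two]
      simp [hd₁]
  · exact MvPowerSeries.HasSubst.X_zero

theorem fcoef_zero_right {k : ℕ} (hk : k ≠ 1) : fcoef F k 0 = 0 := by
  rw [← coeff_Xzero, F.Xzero_eq_X, PowerSeries.coeff_X, if_neg hk]

theorem toPowerSeries_eq_ser : F.toPowerSeries = ser (fcoef F) := by
  ext d
  rw [coeff_ser]
  unfold fcoef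
  congr 2
  ext i
  fin_cases i <;> simp

theorem map_toPowerSeries_eq_ser {C' : Type*} [CommRing C'] (φ : C →+* C') :
    (F.map φ).toPowerSeries = ser (fun k l => φ (fcoef F k l)) := by
  ext d
  rw [coeff_ser, FormalGroup.map_toPowerSeries, MvPowerSeries.coeff_map]
  congr 1
  conv_lhs => rw [toPowerSeries_eq_ser]
  rw [coeff_ser]

end fcoef

section prod

variable {C A S : Type*} [CommRing C] [CommRing A] [CommRing S] [Algebra C A] [Algebra C S]

theorem eval₂_Fpoly (K : ℕ) (f : ℕ → ℕ → C) (x : A) (φ : A →+* S)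
    (hφ : ∀ a : C, φ (algebraMap C A a) = algebraMap C S a) (z : S) :
    (Fpoly K f x).eval₂ φ z = val₂ K f (φ x) z := by
  have hs : ∀ (a : C) (y : A), φ (a • y) = a • φ y := by
    intro a y
    rw [Algebra.smul_def, Algebra.smul_def, map_mul, hφ]
  unfold Fpoly val₂
  rw [Polynomial.eval₂_finsetSum]
  refine Finset.sum_congr rfl fun k _ => ?_
  rw [Polynomial.eval₂_finsetSum]
  refine Finset.sum_congr rfl fun l _ => ?_
  rw [Polynomial.eval₂_mul, Polynomial.eval₂_C, Polynomial.eval₂_pow, Polynomial.eval₂_X, hs,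
    map_pow, smul_mul_assoc]

/-- `∏ a, F(x a, z)` as a polynomial in the nilpotent element `z`. -/
theorem prod_val₂_eq (K : ℕ) (f : ℕ → ℕ → C) {n : ℕ} (x : Fin n → A) (φ : A →+* S)
    (hφ : ∀ a : C, φ (algebraMap C A a) = algebraMap C S a) {z : S} {M : ℕ}
    (hz : z ^ M = 0) :
    ∏ a, val₂ K f (φ (x a)) z = ∑ j ∈ range M, φ (cls K f x j) * z ^ j := by
  have h1 : ∏ a, val₂ K f (φ (x a)) z = (∏ a, Fpoly K f (x a)).eval₂ φ z := by
    rw [Polynomial.eval₂_finsetProd]
    exact Finset.prod_congr rfl fun a _ => (eval₂_Fpoly K f (x a) φ hφ z).symm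
  set P := ∏ a, Fpoly K f (x a) with hP
  rw [h1, Polynomial.eval₂_eq_sum_range' φ (n := max (P.natDegree + 1) M) (by omega)]
  symm
  refine Finset.sum_subset (range_mono (le_max_right _ _)) ?_
  intro j _ hj
  rw [mem_range, not_lt] at hj
  rw [pow_eq_zero_of_le hj hz, mul_zero]

theorem prod_val₂_alg (K : ℕ) (f : ℕ → ℕ → C) {n : ℕ} (x : Fin n → A) (φ : A →ₐ[C] S) {z : S}
    {M : ℕ} (hz : z ^ M = 0) :
    ∏ a, val₂ K f (φ (x a)) z = ∑ j ∈ range M, φ (cls K f x j) * z ^ j :=
  prod_val₂_eq K f x (φ : A →+* S) φ.commutes hz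

end prod

end Vale.Agent.P251.Q
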