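import Vale.Agent.P251.Q.Weight

/-!
# P251, part Q: the hypotheses `hker` and `hnil` of `q4_alg` (task Q4)
-/

open Finset MvPolynomial

namespace Vale.Agent.P251.Q

section nil

variable {R S : Type*} [CommRing R] [CommRing S] [Algebra R S] {n : ℕ}

/-- If the `c i` are nilpotent then they kill all polynomials of high weight. -/
theorem aeval_eq_zero_of_mem_J (c : Fin n → S) {K : ℕ} (hc : ∀ i, c i ^ K = 0) {m : ℕ}
    (hm : n * (n * K) < m) {p : MvPolynomial (Fin n) R} (hp : p ∈ J R (wt n) m) :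
    aeval c p = 0 := by
  rw [aeval_def, eval₂_eq]
  refine sum_eq_zero fun t ht => ?_
  have h1 := hp t (mem_support_iff.1 ht)
  obtain ⟨i, hi, hi'⟩ : ∃ i ∈ t.support, K ≤ t i := by
    by_contra hcon
    push Not at hcon
    have h2 : Finsupp.weight (wt n) t ≤ ∑ i ∈ t.support, n * K := by
      rw [Finsupp.weight_apply, Finsupp.sum]
      refine sum_le_sum fun i hi => ?_
      rw [smul_eq_mul, mul_comm]
      exact Nat.mul_le_mul i.2 (hcon i hi).le
    rw [sum_const, smul_eq_mul] at h2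
    have h3 : t.support.card ≤ n := by
      calc t.support.card ≤ (univ : Finset (Fin n)).card := card_le_card (subset_univ _)
        _ = n := by simp
    have h4 := Nat.mul_le_mul_right (n * K) h3
    omega
  have h5 : c i ^ t i = 0 := by
    rw [← Nat.sub_add_cancel hi', pow_add, hc, mul_zero]
  rw [prod_eq_zero hi h5, mul_zero]

/-- Freeness on the monomials with exponents `≤ N` bounds the kernel of the evaluation. -/
theorem mem_J_of_aeval_eq_zero (x : Fin n → S) {N : ℕ} (hx : ∀ a, x a ^ (N + 1) = 0)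
    (hfree : ∀ r : (Fin n → Fin (N + 1)) → R,
      ∑ t, algebraMap R S (r t) * ∏ a, x a ^ (t a : ℕ) = 0 → r = 0)
    {p : MvPolynomial (Fin n) R} (hp : aeval x p = 0) : p ∈ J R (fun _ => 1) (N + 1) := by
  classical
  have h1 : ∀ t : Fin n →₀ ℕ, (¬ ∀ a, t a < N + 1) → ∏ a, x a ^ t a = 0 := by
    intro t ht
    push Not at ht
    obtain ⟨a, ha⟩ := ht
    refine prod_eq_zero (mem_univ a) ?_
    rw [← Nat.sub_add_cancel ha, pow_add, hx, mul_zero]
  let ext : (Fin n → Fin (N + 1)) → (Fin n →₀ ℕ) := fun t =>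
    Finsupp.equivFunOnFinite.symm fun a => (t a : ℕ)
  have hext : ∀ t a, ext t a = (t a : ℕ) := fun t a => rfl
  have hinj : Function.Injective ext := by
    intro t t' h
    funext a
    apply Fin.ext
    rw [← hext, ← hext, h]
  have h2 : ∑ t : Fin n → Fin (N + 1), algebraMap R S (coeff (ext t) p) *
      ∏ a, x a ^ (t a : ℕ) = 0 := by
    rw [aeval_def, eval₂_eq'] at hp
    rw [← hp]
    have h3 : ∀ t : Fin n → Fin (N + 1), algebraMap R S (coeff (ext t) p) *
      ∏ a, x a ^ (t a : ℕ) = (fun u : Fin n →₀ ℕ => algebraMap R S (coeff u p) *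
        ∏ a, x a ^ u a) (ext t) := fun t => rfl
    have h4 := sum_map univ (⟨ext, hinj⟩ : (Fin n → Fin (N + 1)) ↪ (Fin n →₀ ℕ))
      (fun u : Fin n →₀ ℕ => algebraMap R S (coeff u p) * ∏ a, x a ^ u a)
    rw [sum_congr rfl fun t _ => h3 t]
    refine h4.symm.trans ?_
    have h5 : ∀ s : Finset (Fin n →₀ ℕ), p.support ⊆ s →
        (univ.map (⟨ext, hinj⟩ : (Fin n → Fin (N + 1)) ↪ (Fin n →₀ ℕ))) ⊆ s →
        ∑ u ∈ univ.map (⟨ext, hinj⟩ : (Fin n → Fin (N + 1)) ↪ (Fin n →₀ ℕ)),
          algebraMap R S (coeff u p) * ∏ a, x a ^ u a =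
        ∑ u ∈ p.support, algebraMap R S (coeff u p) * ∏ a, x a ^ u a := by
      intro s hs1 hs2
      rw [sum_subset hs1, sum_subset hs2]
      · intro u _ hu
        rw [h1 u, mul_zero]
        intro hcon
        apply hu
        rw [mem_map]
        exact ⟨fun a => ⟨u a, hcon a⟩, mem_univ _, by ext a; rfl⟩
      · intro u _ hu
        rw [notMem_support_iff.1 hu, map_zero, zero_mul]
    exact h5 _ subset_union_left subset_union_right
  have h3 := hfree _ h2
  rw [mem_J']
  intro u hu
  have h4 : ∀ a, u a < N + 1 := by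
    intro a
    refine lt_of_le_of_lt ?_ hu
    rw [Finsupp.weight_apply, Finsupp.sum]
    by_cases ha : a ∈ u.support
    · refine le_trans ?_ (single_le_sum (f := fun i => u i • 1) (fun _ _ => Nat.zero_le _) ha)
      simp
    · rw [Finsupp.notMem_support_iff.1 ha]
      exact Nat.zero_le _
  have h5 := congrFun h3 (fun a => ⟨u a, h4 a⟩)
  have h6 : ext (fun a => ⟨u a, h4 a⟩) = u := by ext a; rfl
  rw [h6] at h5
  exact h5

end nil

end Vale.Agent.P251.Q
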