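import Vale.Agent.P251.Q.Q4Alg
import Vale.Agent.P251.Q.Q4Nil

/-!
# P251, part Q: `q4_alg` in terms of ring homomorphisms (task Q4)
-/

open Finset MvPolynomial

namespace Vale.Agent.P251.Q

theorem q4_ring {C R S₁ S₂ S₃ : Type*} [CommRing C] [CommRing R] [CommRing S₁] [CommRing S₂]
    [CommRing S₃] [Algebra C R] [Algebra C S₃] (φ₁ : R →+* S₁) (φ₂ : R →+* S₂) (φ₃ : R →+* S₃)
    (hφC : ∀ a : C, φ₃ (algebraMap C R a) = algebraMap C S₃ a)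
    {ι : Type*} [Fintype ι] {n K m : ℕ} (hK : 2 ≤ K)
    (f : ℕ → ℕ → C) (h00 : f 0 0 = 0) (h10 : f 1 0 = 1) (h01 : f 0 1 = 1)
    (hf : ∀ k, k ≠ 1 → f k 0 = 0) (v : R) (u : ι → Polynomial C)
    (c₂ : Fin n → S₂) (y₂ : S₂) (P : MvPolynomial (Fin n) R) (hgen : y₂ = P.eval₂ φ₂ c₂)
    (x : Fin n → S₃) (s : S₂ →+* S₃) (hs : s.comp φ₂ = φ₃)
    (hsc : ∀ i : Fin n, s (c₂ i) = cls K f x (n - 1 - i))
    (hsy : s y₂ = ∏ i, ∏ a, val₂ K f (φ₃ (Polynomial.aeval v (u i))) (x a))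
    (hker : ∀ p : MvPolynomial (Fin n) R, p.eval₂ φ₃ x = 0 → p ∈ J R (fun _ => 1) m)
    (c₁ : Fin n → S₁) (y₁ : S₁) (r : S₂ →+* S₁) (hr : r.comp φ₂ = φ₁)
    (hrc : ∀ i, r (c₂ i) = c₁ i) (hry : r y₂ = y₁)
    {L : ℕ} (hnil : ∀ i, c₁ i ^ L = 0) (hm : n * (n * L) < m) :
    ∃ (T : Finset (Fin n →₀ ℕ)) (q : (Fin n →₀ ℕ) → Polynomial C), 0 ∉ T ∧
      y₁ = φ₁ ((∏ i, Polynomial.aeval v (u i)) ^ n) +
        ∑ t ∈ T, φ₁ (Polynomial.aeval v (q t)) * ∏ i : Fin n, c₁ i ^ t i := by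
  let _ : Algebra R S₁ := φ₁.toAlgebra
  let _ : Algebra R S₂ := φ₂.toAlgebra
  let _ : Algebra R S₃ := φ₃.toAlgebra
  have _ : IsScalarTower C R S₃ := IsScalarTower.of_algebraMap_eq fun a => (hφC a).symm
  let s' : S₂ →ₐ[R] S₃ := { s with commutes' := fun a => RingHom.congr_fun hs a }
  let r' : S₂ →ₐ[R] S₁ := { r with commutes' := fun a => RingHom.congr_fun hr a }
  exact q4_alg hK f h00 h10 h01 hf v u c₂ y₂ P hgen x s' hsc hsy hker c₁ y₁ r' hrc hry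
    (fun p hp => aeval_eq_zero_of_mem_J c₁ hnil hm hp)

end Vale.Agent.P251.Q
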