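import Vale.Agent.P251.Q.BlockIsom
import Vale.Agent.P251.G.TPow

/-!
# P251, part Q: tensor powers of bundles up to isomorphism

`Bun.Isom.tpowSucc V n : (V.tpow (n + 1)).Isom ((V.tpow n).tensor V)`,
`Bun.Isom.tpowZero V : (V.tpow 0).Isom (triv X Unit)`, `Bun.Isom.tpowOne V : (V.tpow 1).Isom V`.
-/

open Matrix Filter Topology CategoryTheory

namespace Vale.Agent.P251.G

variable {X Y : Type} [TopologicalSpace X] [TopologicalSpace Y]
variable {ι κ μ ν : Type} [Fintype ι] [Fintype κ] [Fintype μ] [Fintype ν]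

/-- a tuple of length `n + 1` is a tuple of length `n` and a last element -/
def snocE (ι : Type) (n : ℕ) : (Fin (n + 1) → ι) ≃ (Fin n → ι) × ι where
  toFun t := (fun a => t a.castSucc, t (Fin.last n))
  invFun q := Fin.snoc (α := fun _ => ι) q.1 q.2
  left_inv t := Fin.snoc_init_self (α := fun _ => ι) t
  right_inv q := by
    refine Prod.ext ?_ ?_
    · funext a
      exact Fin.snoc_castSucc (α := fun _ => ι) q.2 q.1 a
    · exact Fin.snoc_last (α := fun _ => ι) q.2 q.1

omit [Fintype ι] [Fintype κ] in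
theorem tpow_succ_apply (A : Matrix ι κ ℂ) (n : ℕ) (s : Fin (n + 1) → ι) (t : Fin (n + 1) → κ) :
    tpow (n + 1) A s t = tpow n A (snocE ι n s).1 (snocE κ n t).1 *
      A (snocE ι n s).2 (snocE κ n t).2 := by
  rw [tpow_apply, Fin.prod_univ_castSucc]
  rfl

namespace Bun

theorem tpow_reindex_snoc (V : Bun X ι) (n : ℕ) :
    (V.tpow (n + 1)).reindex (snocE ι n) = (V.tpow n).tensor V := by
  refine Bun.ext ?_
  funext x
  ext s t
  rw [reindex_P, submatrix_apply, tpow_P, tpow_succ_apply, Equiv.apply_symm_apply,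
    Equiv.apply_symm_apply, tensor_P, kroneckerMap_apply, tpow_P]

namespace Isom

/-- `V^{⊗(n+1)} = V^{⊗n} ⊗ V` -/
def tpowSucc (V : Bun X ι) (n : ℕ) : (V.tpow (n + 1)).Isom ((V.tpow n).tensor V) :=
  (reindex (V.tpow (n + 1)) (snocE ι n)).trans (ofEq fun x => by rw [tpow_reindex_snoc])

/-- `V^{⊗0} = 1` -/
def tpowZero (V : Bun X ι) : (V.tpow 0).Isom (triv X Unit) :=
  (reindex (V.tpow 0) (Equiv.ofUnique (Fin 0 → ι) Unit)).trans (ofEq fun x => by
    ext s t
    rw [reindex_P, submatrix_apply, tpow_P, tpow_apply, triv_P, Subsingleton.elim s t,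
      Matrix.one_apply_eq]
    simp)

/-- `V^{⊗1} = V` -/
def tpowOne (V : Bun X ι) : (V.tpow 1).Isom V :=
  (reindex (V.tpow 1) (Equiv.funUnique (Fin 1) ι)).trans (ofEq fun x => by
    ext s t
    rw [reindex_P, submatrix_apply, tpow_P, tpow_apply]
    simp)

end Isom

end Bun

end Vale.Agent.P251.G
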