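import Vale.Agent.P251.Q.Euler
import Vale.Agent.P251.G.GrHtpy

/-!
# P251, part Q: the Thom isomorphism over a compact base times a space; the tautological case

* `o.thomL X V hV : U (X ⊗ B) →+ U (X ⊗ V.tot)`, `u ↦ (thL X V)^* (u × t_V)`, bijective,
  raising degrees by `n`;
* `o.thomR V hV X : U (B ⊗ X) →+ U (V.tot ⊗ X)`, `u ↦ (thR V X)^* (t_V × u)`, the same;
* `o.tautL`, `o.tautR`: the same for the tautological bundle and `τ ∈ U (Th n I)`.
-/

open CategoryTheory MonoidalCategory OnePoint Matrix Topology Filter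
open Vale.Agent.P251.G Vale.Agent.P251.G.LC Vale.Agent.P251.G.Bun

universe v

set_option linter.unusedSectionVars false
set_option linter.style.haveILetI false

noncomputable section

namespace Vale.Agent.P251.Q

open MultTheory

section compact

variable {B : LC} [CompactSpace B] {ι : Type} [Fintype ι] {n : ℕ}
variable {E : MultTheory.{v}} (o : Orientation E)

/-- `(x, e) ↦ ((x, base e), e)` -/
def thL (X : LC) (V : Bun B ι) : X ⊗ V.tot ⟶ (X ⊗ B) ⊗ V.tot :=
  (X ◁ graph (tcb V)) ≫ (α_ X B V.tot).inv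

/-- `(e, x) ↦ (e, (base e, x))` -/
def thR (V : Bun B ι) (X : LC) : V.tot ⊗ X ⟶ V.tot ⊗ (B ⊗ X) :=
  ((graph (tcb V) ≫ (β_ B V.tot).hom) ▷ X) ≫ (α_ V.tot B X).hom

/-- The Thom homomorphism, the base on the right. -/
def _root_.Vale.Agent.P251.Q.Orientation.thomL (X : LC) (V : Bun B ι) (hV : V.IsRank n) :
    E.U (X ⊗ B) →+ E.U (X ⊗ V.tot) :=
  (E.map (thL X V)).comp ((E.cross (X := (X ⊗ B : LC)) (Y := V.tot)).flip (o.thom V hV))

/-- The Thom homomorphism, the base on the left. -/
def _root_.Vale.Agent.P251.Q.Orientation.thomR (V : Bun B ι) (hV : V.IsRank n) (X : LC) :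
    E.U (B ⊗ X) →+ E.U (V.tot ⊗ X) :=
  (E.map (thR V X)).comp (E.cross (X := V.tot) (Y := (B ⊗ X : LC)) (o.thom V hV))

theorem thomL_apply (X : LC) (V : Bun B ι) (hV : V.IsRank n) (u : E.U (X ⊗ B)) :
    o.thomL X V hV u = E.map (thL X V) (E.cross u (o.thom V hV)) := rfl

theorem thomR_apply (X : LC) (V : Bun B ι) (hV : V.IsRank n) (u : E.U (B ⊗ X)) :
    o.thomR V hV X u = E.map (thR V X) (E.cross (o.thom V hV) u) := rfl

theorem thomL_eq [E.Good B] (X : LC) [E.Good X] (V : Bun B ι) [E.Good V.tot] (hV : V.IsRank n)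
    (u : E.U (X ⊗ B)) :
    o.thomL X V hV u = E.map (sndTIso X V).inv (o.phi (pullSnd X V) (isRank_pullS hV) u) := by
  haveI := o.goodTh
  rw [thomL_apply, thom_eq, cross_map_right, phi_apply, ← MultTheory.map_comp,
    ← MultTheory.map_comp]
  refine congrArg (fun k => E.map k _) ?_
  apply LC.hom_ext
  intro p
  rfl

theorem thomR_eq [E.Good B] (X : LC) [E.Good X] (V : Bun B ι) [E.Good V.tot] (hV : V.IsRank n)
    (u : E.U (B ⊗ X)) :
    o.thomR V hV X u = E.map (fstTIso X V).inv (o.phi (pullFst X V) (isRank_pullF hV) u) := by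
  haveI := o.goodTh
  rw [thomR_apply, thom_eq, cross_map_left, phi_apply, ← MultTheory.map_comp,
    ← cross_comm u (o.tau n ι), ← MultTheory.map_comp, ← MultTheory.map_comp]
  refine congrArg (fun k => E.map k _) ?_
  apply LC.hom_ext
  intro p
  rfl

theorem map_iso_inv_bijective {A C : LC} [E.Good A] [E.Good C] (e : A ≅ C) :
    Function.Bijective (E.map e.inv) :=
  ⟨fun a b hab => by rw [← map_hom_inv e a, ← map_hom_inv e b, hab],
    fun y => ⟨E.map e.hom y, map_inv_hom e y⟩⟩

/-- **Thom isomorphism**, base on the right. -/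
theorem thomL_bijective [E.Good B] (X : LC) [E.Good X] (V : Bun B ι) [E.Good V.tot]
    (hV : V.IsRank n) : Function.Bijective (o.thomL X V hV) := by
  have h : ⇑(o.thomL X V hV) =
      E.map (sndTIso X V).inv ∘ o.phi (pullSnd X V) (isRank_pullS hV) :=
    funext fun u => thomL_eq o X V hV u
  rw [h]
  exact (map_iso_inv_bijective _).comp (phi_bijective o _ _)

/-- **Thom isomorphism**, base on the left. -/
theorem thomR_bijective [E.Good B] (X : LC) [E.Good X] (V : Bun B ι) [E.Good V.tot]
    (hV : V.IsRank n) : Function.Bijective (o.thomR V hV X) := by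
  have h : ⇑(o.thomR V hV X) =
      E.map (fstTIso X V).inv ∘ o.phi (pullFst X V) (isRank_pullF hV) :=
    funext fun u => thomR_eq o X V hV u
  rw [h]
  exact (map_iso_inv_bijective _).comp (phi_bijective o _ _)

theorem thomL_deg [E.Good B] (X : LC) [E.Good X] (V : Bun B ι) [E.Good V.tot]
    (hV : V.IsRank n) {i : ℤ} {u : E.U (X ⊗ B)} (hu : u ∈ E.deg _ i) :
    o.thomL X V hV u ∈ E.deg _ (i + n) :=
  map_deg _ (cross_deg hu (thom_deg o V hV))

theorem thomR_deg [E.Good B] (X : LC) [E.Good X] (V : Bun B ι) [E.Good V.tot]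
    (hV : V.IsRank n) {i : ℤ} {u : E.U (B ⊗ X)} (hu : u ∈ E.deg _ i) :
    o.thomR V hV X u ∈ E.deg _ (i + n) := by
  have h := map_deg (thR V X) (cross_deg (thom_deg o V hV) hu)
  rwa [add_comm (n : ℤ) i] at h

/-- Naturality in `X`. -/
theorem map_thomL [E.Good B] {X X' : LC} [E.Good X] [E.Good X'] (f : X ⟶ X') (V : Bun B ι)
    [E.Good V.tot] (hV : V.IsRank n) (u : E.U (X' ⊗ B)) :
    E.map (f ▷ V.tot) (o.thomL X' V hV u) = o.thomL X V hV (E.map (f ▷ B) u) := by
  have h1 : (f ▷ V.tot) ≫ thL X' V = thL X V ≫ (f ▷ B) ▷ V.tot := by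
    simp only [thL, Category.assoc, ← whisker_exchange_assoc, associator_inv_naturality_left]
  rw [thomL_apply, thomL_apply, cross_map_left, ← MultTheory.map_comp, ← MultTheory.map_comp, h1]

theorem map_thomR [E.Good B] {X X' : LC} [E.Good X] [E.Good X'] (f : X ⟶ X') (V : Bun B ι)
    [E.Good V.tot] (hV : V.IsRank n) (u : E.U (B ⊗ X')) :
    E.map (V.tot ◁ f) (o.thomR V hV X' u) = o.thomR V hV X (E.map (B ◁ f) u) := by
  have h1 : (V.tot ◁ f) ≫ thR V X' = thR V X ≫ V.tot ◁ (B ◁ f) := by
    simp only [thR, Category.assoc, whisker_exchange_assoc, ← associator_naturality_right]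
  rw [thomR_apply, thomR_apply, cross_map_right, ← MultTheory.map_comp, ← MultTheory.map_comp, h1]

/-- restriction to the zero section: multiplication by the Euler class -/
theorem map_zeroMor_thomL [E.Good B] (X : LC) [E.Good X] (V : Bun B ι) [E.Good V.tot]
    (hV : V.IsRank n) (u : E.U (X ⊗ B)) :
    E.map (X ◁ zeroMor V) (o.thomL X V hV u) = E.act (sndC X B) (o.e V hV) u := by
  rw [thomL_eq, ← MultTheory.map_comp]
  have h1 : (X ◁ zeroMor V) ≫ (sndTIso X V).inv = zeroMor (pullSnd X V) := by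
    apply LC.hom_ext
    intro p
    rfl
  rw [h1]
  exact euler_pullback o (sndC X B) V hV (isRank_pullS hV) u

theorem map_zeroMor_thomR [E.Good B] (X : LC) [E.Good X] (V : Bun B ι) [E.Good V.tot]
    (hV : V.IsRank n) (u : E.U (B ⊗ X)) :
    E.map (zeroMor V ▷ X) (o.thomR V hV X u) = E.act (fstC B X) (o.e V hV) u := by
  rw [thomR_eq, ← MultTheory.map_comp]
  have h1 : (zeroMor V ▷ X) ≫ (fstTIso X V).inv = zeroMor (pullFst X V) := by
    apply LC.hom_ext
    intro p
    rfl
  rw [h1]
  exact euler_pullback o (fstC B X) V hV (isRank_pullF hV) u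

end compact

section taut

variable (n : ℕ) (I : Type) [Fintype I]
variable {E : MultTheory.{v}} (o : Orientation E)

/-- the Grassmannian as an object -/
abbrev GrO : LC := LC.of (Gr n I)

/-- the total space of the tautological bundle -/
def tautIso : (Bun.tot (X := GrO n I) (taut n I)) ≅ ThO n I :=
  ofHomeo (X := Bun.tot (X := GrO n I) (taut n I)) (Y := ThO n I) (tautHomeo n I)

theorem toThHom_taut :
    toThHom (B := GrO n I) (taut n I) (taut_isRank n I) = (tautIso n I).hom := by
  apply LC.hom_ext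
  intro p
  rfl

include o in
theorem good_taut : E.Good (Bun.tot (X := GrO n I) (taut n I)) := by
  haveI := o.goodTh (n := n) (I := I)
  exact MultTheory.Good.of_iso E (tautIso n I).symm

theorem thom_taut [E.Good (GrO n I)] :
    o.thom (B := GrO n I) (taut n I) (taut_isRank n I) = E.map (tautIso n I).hom (o.tau n I) := by
  haveI := good_taut n I o
  rw [thom_eq, toThHom_taut]

/-- `((P, v), x) ↦ ((P, v), (P, x))` -/
def tautPairR (X : LC) : ThO n I ⊗ X ⟶ ThO n I ⊗ (GrO n I ⊗ X) :=
  ((Th.delta (n := n) (I := I) ≫ (β_ (GrO n I) (ThO n I)).hom) ▷ X) ≫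
    (α_ (ThO n I) (GrO n I) X).hom

/-- `(x, (P, v)) ↦ ((x, P), (P, v))` -/
def tautPairL (X : LC) : X ⊗ ThO n I ⟶ (X ⊗ GrO n I) ⊗ ThO n I :=
  (X ◁ Th.delta (n := n) (I := I)) ≫ (α_ X (GrO n I) (ThO n I)).inv

theorem tautR_eq [E.Good (GrO n I)] (X : LC) [E.Good X] (u : E.U (GrO n I ⊗ X)) :
    E.map (tautPairR n I X) (E.cross (o.tau n I) u) =
      E.map ((tautIso n I).inv ▷ X)
        (o.thomR (B := GrO n I) (taut n I) (taut_isRank n I) X u) := by
  haveI := o.goodTh (n := n) (I := I)
  haveI := good_taut n I o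
  rw [thomR_apply, thom_taut, cross_map_left, ← MultTheory.map_comp, ← MultTheory.map_comp]
  refine congrArg (fun k => E.map k _) ?_
  apply LC.hom_ext
  intro p
  rfl

theorem tautL_eq [E.Good (GrO n I)] (X : LC) [E.Good X] (u : E.U (X ⊗ GrO n I)) :
    E.map (tautPairL n I X) (E.cross u (o.tau n I)) =
      E.map (X ◁ (tautIso n I).inv)
        (o.thomL (B := GrO n I) X (taut n I) (taut_isRank n I) u) := by
  haveI := o.goodTh (n := n) (I := I)
  haveI := good_taut n I o
  rw [thomL_apply, thom_taut, cross_map_right, ← MultTheory.map_comp, ← MultTheory.map_comp]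
  refine congrArg (fun k => E.map k _) ?_
  apply LC.hom_ext
  intro p
  rfl

/-- **Thom isomorphism** for the tautological bundle. -/
theorem tautR_bijective [E.Good (GrO n I)] (X : LC) [E.Good X] :
    Function.Bijective fun u : E.U (GrO n I ⊗ X) =>
      E.map (tautPairR n I X) (E.cross (o.tau n I) u) := by
  haveI := o.goodTh (n := n) (I := I)
  haveI := good_taut n I o
  have h : (fun u : E.U (GrO n I ⊗ X) => E.map (tautPairR n I X) (E.cross (o.tau n I) u)) =
      E.map (whiskerRightIso (tautIso n I) X).inv ∘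
        o.thomR (B := GrO n I) (taut n I) (taut_isRank n I) X :=
    funext fun u => tautR_eq n I o X u
  rw [h]
  exact (map_iso_inv_bijective _).comp (thomR_bijective o X _ _)

/-- **Thom isomorphism** for the tautological bundle. -/
theorem tautL_bijective [E.Good (GrO n I)] (X : LC) [E.Good X] :
    Function.Bijective fun u : E.U (X ⊗ GrO n I) =>
      E.map (tautPairL n I X) (E.cross u (o.tau n I)) := by
  haveI := o.goodTh (n := n) (I := I)
  haveI := good_taut n I o
  have h : (fun u : E.U (X ⊗ GrO n I) => E.map (tautPairL n I X) (E.cross u (o.tau n I))) =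
      E.map (whiskerLeftIso X (tautIso n I)).inv ∘
        o.thomL (B := GrO n I) X (taut n I) (taut_isRank n I) :=
    funext fun u => tautL_eq n I o X u
  rw [h]
  exact (map_iso_inv_bijective _).comp (thomL_bijective o X _ _)

/-- The Euler class of the tautological bundle. -/
theorem e_taut [E.Good (GrO n I)] :
    o.e (B := GrO n I) (taut n I) (taut_isRank n I) = E.map Gr.zeroHom (o.tau n I) := by
  haveI := o.goodTh (n := n) (I := I)
  haveI := good_taut n I o
  rw [← map_zeroMor_thom, thom_taut, ← MultTheory.map_comp]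
  refine congrArg (fun k => E.map k _) ?_
  apply LC.hom_ext
  intro p
  rfl

theorem map_zeroHom_tautR [E.Good (GrO n I)] (X : LC) [E.Good X] (u : E.U (GrO n I ⊗ X)) :
    E.map (Gr.zeroHom ▷ X) (E.map (tautPairR n I X) (E.cross (o.tau n I) u)) =
      E.act (fstC (GrO n I) X) (o.e (B := GrO n I) (taut n I) (taut_isRank n I)) u := by
  haveI := o.goodTh (n := n) (I := I)
  haveI := good_taut n I o
  rw [tautR_eq, ← map_zeroMor_thomR, ← MultTheory.map_comp]
  refine congrArg (fun k => E.map k _) ?_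
  apply LC.hom_ext
  intro p
  rfl

theorem map_zeroHom_tautL [E.Good (GrO n I)] (X : LC) [E.Good X] (u : E.U (X ⊗ GrO n I)) :
    E.map (X ◁ Gr.zeroHom) (E.map (tautPairL n I X) (E.cross u (o.tau n I))) =
      E.act (sndC X (GrO n I)) (o.e (B := GrO n I) (taut n I) (taut_isRank n I)) u := by
  haveI := o.goodTh (n := n) (I := I)
  haveI := good_taut n I o
  rw [tautL_eq, ← map_zeroMor_thomL, ← MultTheory.map_comp]
  refine congrArg (fun k => E.map k _) ?_
  apply LC.hom_ext
  intro p
  rfl

end taut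

end Vale.Agent.P251.Q
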