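import Vale.Agent.P251.G.Gr
import Vale.Agent.P251.G.Homotopy

/-!
# P251, part Q: geometry of the Thom map

* `LC.liftClosed`: factor a morphism through a closed subspace;
* `LC.homotopic_of_leftInverse`: homotopies of closed embeddings;
* `thomMor V hV : V.tot ⟶ Z ⊗ Th n ι`, `(z, v) ↦ (z, (V.P z, v))`, for a bundle `V` of rank `n` over
  an arbitrary object `Z` of `LC`;
* `totMap f V V' h : V.tot ⟶ V'.tot` for a morphism `f : Z ⟶ Z'` of `LC` compatible with `V`, `V'`.
-/

open CategoryTheory MonoidalCategory Filter Topology OnePoint Matrix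

namespace Vale.Agent.P251.G

namespace LC

theorem isClosedEmbedding_app_ofClosed {X Y : LC} (f : X → Y) (hf : IsClosedEmbedding f) :
    IsClosedEmbedding (app (ofClosed f hf)) := by
  refine (continuous_app _).isClosedEmbedding ?_
  intro a b h
  induction a using OnePoint.rec with
  | infty =>
    induction b using OnePoint.rec with
    | infty => rfl
    | coe b =>
      rw [app_infty, app_ofClosed_coe] at h
      exact absurd h.symm (OnePoint.coe_ne_infty _)
  | coe a =>
    induction b using OnePoint.rec with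
    | infty =>
      rw [app_infty, app_ofClosed_coe] at h
      exact absurd h (OnePoint.coe_ne_infty _)
    | coe b =>
      rw [app_ofClosed_coe, app_ofClosed_coe] at h
      rw [hf.injective (OnePoint.coe_injective h)]

open scoped Classical in
/-- the function underlying `liftClosed` -/
noncomputable def liftClosedFun {X Y A : LC} (f : X ⟶ Y) (i : A → Y) (x : OnePoint X) :
    OnePoint A :=
  if h : ∃ a : A, app f x = (i a : OnePoint Y) then (h.choose : OnePoint A) else ∞

/-- Factor a morphism through a closed subspace. -/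
noncomputable def liftClosed {X Y A : LC} (f : X ⟶ Y) (i : A → Y) (hi : IsClosedEmbedding i)
    (h : ∀ x : X, app f (x : OnePoint X) = ∞ ∨ ∃ a : A, app f x = (i a : OnePoint Y)) : X ⟶ A :=
  have key : ∀ x, app (ofClosed i hi) (liftClosedFun f i x) = app f x := by
    intro x
    unfold liftClosedFun
    by_cases hx : ∃ a : A, app f x = (i a : OnePoint Y)
    · rw [dif_pos hx, app_ofClosed_coe]
      exact hx.choose_spec.symm
    · rw [dif_neg hx, app_infty]
      induction x using OnePoint.rec with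
      | infty => exact (app_infty f).symm
      | coe x =>
        rcases h x with h' | h'
        · exact h'.symm
        · exact absurd h' hx
  ⟨⟨liftClosedFun f i, by
    rw [(isClosedEmbedding_app_ofClosed i hi).isInducing.continuous_iff]
    exact (continuous_app f).congr fun x => (key x).symm⟩, by
    apply (isClosedEmbedding_app_ofClosed i hi).injective
    change app (ofClosed i hi) (liftClosedFun f i ∞) = _
    rw [key, app_infty, app_infty]⟩

@[reassoc (attr := simp)]
theorem liftClosed_comp {X Y A : LC} (f : X ⟶ Y) (i : A → Y) (hi : IsClosedEmbedding i)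
    (h : ∀ x : X, app f (x : OnePoint X) = ∞ ∨ ∃ a : A, app f x = (i a : OnePoint Y)) :
    liftClosed f i hi h ≫ ofClosed i hi = f := by
  ext x
  rw [app_comp]
  change app (ofClosed i hi) (liftClosedFun f i x) = _
  unfold liftClosedFun
  by_cases hx : ∃ a : A, app f x = (i a : OnePoint Y)
  · rw [dif_pos hx, app_ofClosed_coe]
    exact hx.choose_spec.symm
  · rw [dif_neg hx, app_infty]
    rcases h x with h' | h'
    · exact h'.symm
    · exact absurd h' hx

theorem ofClosed_cancel {X Y A : LC} {f g : X ⟶ A} (i : A → Y) (hi : IsClosedEmbedding i)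
    (h : f ≫ ofClosed i hi = g ≫ ofClosed i hi) : f = g := by
  ext x
  apply (isClosedEmbedding_app_ofClosed i hi).injective
  have := congrArg (fun k => app k (x : OnePoint X)) h
  simpa using this

theorem app_liftClosed_coe {X Y A : LC} (f : X ⟶ Y) (i : A → Y) (hi : IsClosedEmbedding i)
    (h : ∀ x : X, app f (x : OnePoint X) = ∞ ∨ ∃ a : A, app f x = (i a : OnePoint Y))
    (x : OnePoint X) (a : A) (ha : app f x = (i a : OnePoint Y)) :
    app (liftClosed f i hi h) x = (a : OnePoint A) := by
  apply (isClosedEmbedding_app_ofClosed i hi).injective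
  rw [← app_comp, liftClosed_comp, ha, app_ofClosed_coe]

theorem app_liftClosed_infty {X Y A : LC} (f : X ⟶ Y) (i : A → Y) (hi : IsClosedEmbedding i)
    (h : ∀ x : X, app f (x : OnePoint X) = ∞ ∨ ∃ a : A, app f x = (i a : OnePoint Y))
    (x : OnePoint X) (ha : app f x = ∞) :
    app (liftClosed f i hi h) x = ∞ := by
  apply (isClosedEmbedding_app_ofClosed i hi).injective
  rw [← app_comp, liftClosed_comp, ha, app_infty]

/-- A homotopy through closed embeddings, given by a continuous family of left inverses. -/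
theorem homotopic_of_leftInverse {X Y : LC} (F : X × unitInterval → Y) (hF : Continuous F)
    (G : Y × unitInterval → X) (hG : Continuous G) (hGF : ∀ x t, G (F (x, t), t) = x)
    {f g : X ⟶ Y} (hf : ∀ x : X, app f (x : OnePoint X) = (F (x, 0) : OnePoint Y))
    (hg : ∀ x : X, app g (x : OnePoint X) = (F (x, 1) : OnePoint Y)) : Homotopic f g := by
  have hcl : IsClosedEmbedding (fun p : X × unitInterval => (F p, p.2)) := by
    refine Function.LeftInverse.isClosedEmbedding
      (f := fun q : Y × unitInterval => (G q, q.2)) ?_ (hG.prodMk continuous_snd)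
      (hF.prodMk continuous_snd)
    rintro ⟨x, t⟩
    simp only [hGF]
  refine ⟨ofProper (X := LC.of (X × unitInterval)) F hF
    (tendsto_fst_cocompact.comp hcl.tendsto_cocompact), ?_, ?_⟩
  · ext x
    rw [app_comp, app_incl, hf]
    rfl
  · ext x
    rw [app_comp, app_incl, hg]
    rfl

end LC

/-- the Thom space as an object of `LC` -/
abbrev ThO (n : ℕ) (ι : Type) [Fintype ι] : LC := LC.of (Th n ι)

/-- the vector space `ℂ^ι` as an object of `LC` -/
noncomputable abbrev VecO (ι : Type) [Fintype ι] : LC := LC.of (ι → ℂ)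

section thomMor

open Bun

variable {Z Z' : LC} {ι κ : Type} [Fintype ι] [Fintype κ] {n m : ℕ}

theorem Bun.isProj (V : Bun Z ι) (hV : V.IsRank n) (z : Z) : IsProj n (V.P z) :=
  ⟨V.idem z, V.herm z, hV z⟩

/-- the classifying map on total spaces -/
noncomputable def Bun.toTh (V : Bun Z ι) (hV : V.IsRank n) (p : V.E) : Th n ι :=
  Th.mk (V.P (base p)) (vec p) (V.isProj hV _) (P_vec p)

theorem Bun.continuous_toTh (V : Bun Z ι) (hV : V.IsRank n) : Continuous (V.toTh hV) :=
  ((V.cont.comp continuous_base).prodMk continuous_vec).subtype_mk _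

theorem isClosedEmbedding_thom (V : Bun Z ι) (hV : V.IsRank n) :
    IsClosedEmbedding (fun p : V.E => (base p, V.toTh hV p)) := by
  refine Function.LeftInverse.isClosedEmbedding
    (f := fun q : Z × Th n ι => V.ofVec q.1 q.2.v) ?_ ?_
    (continuous_base.prodMk (V.continuous_toTh hV))
  · intro p
    exact E_ext rfl (P_vec p)
  · exact V.continuous_ofVec.comp (continuous_fst.prodMk (Th.continuous_v.comp continuous_snd))

/-- The Thom morphism `V.tot ⟶ Z ⊗ Th n ι`, `(z, v) ↦ (z, (V.P z, v))`. -/
noncomputable def thomMor (V : Bun Z ι) (hV : V.IsRank n) : V.tot ⟶ Z ⊗ ThO n ι :=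
  LC.ofClosed (Y := LC.of (Z × Th n ι)) (fun p : V.E => (base p, V.toTh hV p))
    (isClosedEmbedding_thom V hV)

theorem app_thomMor (V : Bun Z ι) (hV : V.IsRank n) (p : V.E) :
    LC.app (thomMor V hV) (p : OnePoint V.E) =
      LC.smash ((base p : Z) : OnePoint Z) (V.toTh hV p : OnePoint (Th n ι)) := rfl

/-- Compatibility of bundles with a morphism of `LC`. -/
def Bun.Over (f : Z ⟶ Z') (V : Bun Z ι) (V' : Bun Z' ι) : Prop :=
  ∀ (z : Z) (z' : Z'), LC.app f (z : OnePoint Z) = (z' : OnePoint Z') → V.P z = V'.P z'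

theorem totMap_aux (f : Z ⟶ Z') {V : Bun Z ι} {V' : Bun Z' ι} (h : Over f V V') (p : V.E) :
    LC.app ((LC.ofClosed (Y := LC.of (Z × (ι → ℂ))) Subtype.val V.isClosedEmbedding_val :
      V.tot ⟶ Z ⊗ VecO ι) ≫ f ▷ VecO ι) (p : OnePoint V.E) = ∞ ∨
    ∃ q : V'.E, LC.app ((LC.ofClosed (Y := LC.of (Z × (ι → ℂ))) Subtype.val V.isClosedEmbedding_val :
      V.tot ⟶ Z ⊗ VecO ι) ≫ f ▷ VecO ι) (p : OnePoint V.E) =
        ((q.1 : Z' × (ι → ℂ)) : OnePoint (Z' × (ι → ℂ))) := by
  have h1 : LC.app ((LC.ofClosed (Y := LC.of (Z × (ι → ℂ))) Subtype.val V.isClosedEmbedding_val :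
      V.tot ⟶ Z ⊗ VecO ι) ≫ f ▷ VecO ι) (p : OnePoint V.E) =
      LC.smash (LC.app f ((base p : Z) : OnePoint Z)) ((vec p : ι → ℂ) : OnePoint (ι → ℂ)) :=
    LC.app_whiskerRight_smash f (VecO ι) ((base p : Z) : OnePoint Z) ((vec p : ι → ℂ) : OnePoint (ι → ℂ))
  rcases hz : LC.app f ((base p : Z) : OnePoint Z) with _ | z'
  · left
    rw [h1]
    change LC.smash (LC.app f ((base p : Z) : OnePoint Z)) _ = _
    rw [hz]
    rfl
  · right
    refine ⟨mkE _ z' (vec p) ?_, ?_⟩
    · rw [← h (base p) z' hz]; exact P_vec p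
    · rw [h1, hz]; rfl

/-- The morphism of total spaces over a morphism `f` of `LC` compatible with the bundles. -/
noncomputable def totMap (f : Z ⟶ Z') {V : Bun Z ι} {V' : Bun Z' ι} (h : Over f V V') :
    V.tot ⟶ V'.tot :=
  LC.liftClosed (Y := LC.of (Z' × (ι → ℂ)))
    ((LC.ofClosed (Y := LC.of (Z × (ι → ℂ))) Subtype.val V.isClosedEmbedding_val :
      V.tot ⟶ Z ⊗ VecO ι) ≫ f ▷ VecO ι) Subtype.val V'.isClosedEmbedding_val (totMap_aux f h)

theorem app_totMap_of_coe (f : Z ⟶ Z') {V : Bun Z ι} {V' : Bun Z' ι} (h : Over f V V')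
    (p : V.E) (z' : Z') (hz : LC.app f ((base p : Z) : OnePoint Z) = (z' : OnePoint Z')) :
    LC.app (totMap f h) (p : OnePoint V.E) =
      (mkE V' z' (vec p) (by rw [← h (base p) z' hz]; exact P_vec p) : OnePoint V'.E) := by
  apply LC.app_liftClosed_coe
  rw [LC.app_comp]
  change LC.app (f ▷ VecO ι) (LC.smash ((base p : Z) : OnePoint Z)
    ((vec p : ι → ℂ) : OnePoint (ι → ℂ))) = _
  rw [LC.app_whiskerRight_smash, hz]
  rfl

theorem app_totMap_of_infty (f : Z ⟶ Z') {V : Bun Z ι} {V' : Bun Z' ι} (h : Over f V V')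
    (p : V.E) (hz : LC.app f ((base p : Z) : OnePoint Z) = ∞) :
    LC.app (totMap f h) (p : OnePoint V.E) = ∞ := by
  apply LC.app_liftClosed_infty
  rw [LC.app_comp]
  change LC.app (f ▷ VecO ι) (LC.smash ((base p : Z) : OnePoint Z)
    ((vec p : ι → ℂ) : OnePoint (ι → ℂ))) = _
  rw [LC.app_whiskerRight_smash, hz]
  rfl

/-- Naturality of the Thom morphism. -/
@[reassoc]
theorem totMap_thomMor (f : Z ⟶ Z') {V : Bun Z ι} {V' : Bun Z' ι} (h : Over f V V')
    (hV : V.IsRank n) (hV' : V'.IsRank n) :
    totMap f h ≫ thomMor V' hV' = thomMor V hV ≫ f ▷ ThO n ι := by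
  apply LC.hom_ext
  intro p
  rw [LC.app_comp, LC.app_comp, app_thomMor, LC.app_whiskerRight_smash]
  rcases hz : LC.app f ((base p : Z) : OnePoint Z) with _ | z'
  · rw [app_totMap_of_infty f h p hz]
    rfl
  · rw [app_totMap_of_coe f h p z' hz]
    have h1 : V'.toTh hV' (mkE V' z' (vec p) (by rw [← h (base p) z' hz]; exact P_vec p)) =
        V.toTh hV p := Th.ext (h (base p) z' hz).symm rfl
    exact congrArg (fun a : Th n ι => LC.smash (z' : OnePoint Z') (a : OnePoint (Th n ι))) h1

end thomMor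

end Vale.Agent.P251.G
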