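import Vale.Agent.P251.Q.ThomGeom
import Vale.Agent.P251.G.BundleMap
import Vale.Agent.P251.Q.Defs
import Mathlib.Data.Matrix.ColumnRowPartitioned

/-!
# P251, part Q: isometric isomorphisms of bundles and the Thom morphism

`Bun.Isom V V'`: a continuous family of isometric isomorphisms.  `Isom.homotopic`: after
stabilisation the Thom morphisms of `V` and `V'` agree up to homotopy.
-/

open CategoryTheory MonoidalCategory Filter Topology OnePoint Matrix

namespace Vale.Agent.P251.G

section rot

/-- `cos (π t / 2)` -/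
noncomputable def cT (t : unitInterval) : ℂ := (Real.cos (Real.pi / 2 * t) : ℝ)
/-- `sin (π t / 2)` -/
noncomputable def sT (t : unitInterval) : ℂ := (Real.sin (Real.pi / 2 * t) : ℝ)

@[simp] theorem cT_zero : cT 0 = 1 := by simp [cT]
@[simp] theorem cT_one : cT 1 = 0 := by simp [cT]
@[simp] theorem sT_zero : sT 0 = 0 := by simp [sT]
@[simp] theorem sT_one : sT 1 = 1 := by simp [sT]
@[simp] theorem star_cT (t : unitInterval) : star (cT t) = cT t := Complex.conj_ofReal _
@[simp] theorem star_sT (t : unitInterval) : star (sT t) = sT t := Complex.conj_ofReal _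

theorem cT_sq_add_sT_sq (t : unitInterval) : cT t * cT t + sT t * sT t = 1 := by
  unfold cT sT
  rw [← Complex.ofReal_mul, ← Complex.ofReal_mul, ← Complex.ofReal_add, ← sq, ← sq,
    Real.cos_sq_add_sin_sq, Complex.ofReal_one]

@[fun_prop] theorem continuous_cT : Continuous cT := by unfold cT; fun_prop
@[fun_prop] theorem continuous_sT : Continuous sT := by unfold sT; fun_prop

end rot

variable {ι κ μ ν : Type} [Fintype ι] [Fintype κ] [Fintype μ] [Fintype ν]

/-- An isometric isomorphism of bundles over the same base. -/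
structure Bun.Isom {X : Type} [TopologicalSpace X] (V : Bun X ι) (V' : Bun X κ) where
  /-- the matrices -/
  u : X → Matrix κ ι ℂ
  cont : Continuous u
  left : ∀ x, (u x)ᴴ * u x = V.P x
  right : ∀ x, u x * (u x)ᴴ = V'.P x

namespace Bun.Isom

section basic

variable {X Y : Type} [TopologicalSpace X] [TopologicalSpace Y] {V : Bun X ι} {V' : Bun X κ}
  {V'' : Bun X μ}

theorem u_mul_P (φ : V.Isom V') (x : X) : φ.u x * V.P x = φ.u x :=
  mul_of_isometry (φ.left x) (V.herm x) (V.idem x)

theorem P_mul_u (φ : V.Isom V') (x : X) : V'.P x * φ.u x = φ.u x := by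
  rw [← φ.right, Matrix.mul_assoc, φ.left, φ.u_mul_P]

theorem isRank (φ : V.Isom V') {n : ℕ} (hV : V.IsRank n) : V'.IsRank n := by
  intro x
  rw [← φ.right, trace_mul_comm, φ.left]
  exact hV x

/-- the inverse -/
@[simps] def symm (φ : V.Isom V') : V'.Isom V where
  u x := (φ.u x)ᴴ
  cont := φ.cont.matrix_conjTranspose
  left x := by rw [conjTranspose_conjTranspose, φ.right]
  right x := by rw [conjTranspose_conjTranspose, φ.left]

/-- the identity -/
@[simps] def refl (V : Bun X ι) : V.Isom V where
  u := V.P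
  cont := V.cont
  left x := by rw [V.herm, V.idem]
  right x := by rw [V.herm, V.idem]

/-- the composition -/
@[simps] def trans (φ : V.Isom V') (ψ : V'.Isom V'') : V.Isom V'' where
  u x := ψ.u x * φ.u x
  cont := ψ.cont.matrix_mul φ.cont
  left x := by
    rw [conjTranspose_mul, Matrix.mul_assoc, ← Matrix.mul_assoc (ψ.u x)ᴴ, ψ.left,
      φ.P_mul_u, φ.left]
  right x := by
    rw [conjTranspose_mul, Matrix.mul_assoc, ← Matrix.mul_assoc (φ.u x), φ.right,
      ← Matrix.mul_assoc, ψ.u_mul_P, ψ.right]

/-- pull back -/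
@[simps] def pullback (φ : V.Isom V') (f : C(Y, X)) : (V.pullback f).Isom (V'.pullback f) where
  u y := φ.u (f y)
  cont := φ.cont.comp f.continuous
  left _ := φ.left _
  right _ := φ.right _

/-- from an equality of projections -/
@[simps] def ofEq {V V' : Bun X ι} (h : ∀ x, V.P x = V'.P x) : V.Isom V' where
  u := V.P
  cont := V.cont
  left x := by rw [V.herm, V.idem]
  right x := by rw [V.herm, V.idem, h]

/-- the map of total spaces -/
def toFun (φ : V.Isom V') (p : V.E) : V'.E :=
  mkE V' (base p) (φ.u (base p) *ᵥ vec p) (by rw [mulVec_mulVec, φ.P_mul_u])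

theorem continuous_toFun (φ : V.Isom V') : Continuous φ.toFun :=
  continuous_mkE continuous_base
    ((φ.cont.comp continuous_base).matrix_mulVec continuous_vec) _

theorem symm_toFun_toFun (φ : V.Isom V') (p : V.E) : φ.symm.toFun (φ.toFun p) = p := by
  refine E_ext rfl ?_
  change (φ.u (base p))ᴴ *ᵥ (φ.u (base p) *ᵥ vec p) = vec p
  rw [mulVec_mulVec, φ.left, P_vec]

theorem toFun_symm_toFun (φ : V.Isom V') (p : V'.E) : φ.toFun (φ.symm.toFun p) = p := by
  refine E_ext rfl ?_
  change φ.u (base p) *ᵥ ((φ.u (base p))ᴴ *ᵥ vec p) = vec p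
  rw [mulVec_mulVec, φ.right, P_vec]

/-- the homeomorphism of total spaces -/
def homeo (φ : V.Isom V') : V.E ≃ₜ V'.E where
  toFun := φ.toFun
  invFun := φ.symm.toFun
  left_inv := φ.symm_toFun_toFun
  right_inv := φ.toFun_symm_toFun
  continuous_toFun := φ.continuous_toFun
  continuous_invFun := φ.symm.continuous_toFun

@[simp] theorem base_homeo (φ : V.Isom V') (p : V.E) : base (φ.homeo p) = base p := rfl
@[simp] theorem vec_homeo (φ : V.Isom V') (p : V.E) :
    vec (φ.homeo p) = φ.u (base p) *ᵥ vec p := rfl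

/-- `V` and its complement give the trivial bundle. -/
@[simps] def sumCompl [DecidableEq ι] (V : Bun X ι) : (V.sum V.compl).Isom (triv X ι) where
  u x := fromCols (V.P x) (1 - V.P x)
  cont := by
    refine continuous_matrix fun i j => ?_
    rcases j with j | j
    · exact V.cont.matrix_elem i j
    · exact (continuous_const.sub V.cont).matrix_elem i j
  left x := by
    have h1 : (1 - V.P x)ᴴ = 1 - V.P x := V.compl.herm x
    rw [conjTranspose_fromCols_eq_fromRows_conjTranspose, fromRows_mul_fromCols, V.herm, h1]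
    simp [V.idem, mul_sub, sub_mul]
  right x := by
    have h1 : (1 - V.P x)ᴴ = 1 - V.P x := V.compl.herm x
    rw [conjTranspose_fromCols_eq_fromRows_conjTranspose, fromCols_mul_fromRows, V.herm, h1]
    have h2 : (1 - V.P x) * (1 - V.P x) = 1 - V.P x := V.compl.idem x
    rw [h2, V.idem]
    simp

/-- commutativity of the direct sum -/
@[simps] def sumComm (V : Bun X ι) (W : Bun X κ) : (V.sum W).Isom (W.sum V) where
  u x := fromBlocks 0 (W.P x) (V.P x) 0
  cont := continuous_const.matrix_fromBlocks W.cont V.cont continuous_const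
  left x := by
    rw [fromBlocks_conjTranspose, fromBlocks_multiply]
    simp [V.herm, W.herm, V.idem, W.idem]
  right x := by
    rw [fromBlocks_conjTranspose, fromBlocks_multiply]
    simp [V.herm, W.herm, V.idem, W.idem]

/-- direct sum of isomorphisms -/
@[simps] def sum {W : Bun X μ} {W' : Bun X ν} (φ : V.Isom V') (ψ : W.Isom W') :
    (V.sum W).Isom (V'.sum W') where
  u x := fromBlocks (φ.u x) 0 0 (ψ.u x)
  cont := φ.cont.matrix_fromBlocks continuous_const continuous_const ψ.cont
  left x := by
    rw [fromBlocks_conjTranspose, fromBlocks_multiply]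
    simp [φ.left, ψ.left]
  right x := by
    rw [fromBlocks_conjTranspose, fromBlocks_multiply]
    simp [φ.right, ψ.right]

end basic

section homotopy

variable {Z : LC} {n : ℕ}

/-- the isomorphism of total spaces in `LC` -/
noncomputable def iso {V : Bun Z ι} {V' : Bun Z κ} (φ : V.Isom V') : V.tot ≅ V'.tot :=
  LC.ofHomeo (X := V.tot) (Y := V'.tot) φ.homeo

theorem app_iso_hom_coe {V : Bun Z ι} {V' : Bun Z κ} (φ : V.Isom V') (p : V.E) :
    LC.app φ.iso.hom (p : OnePoint V.E) = (φ.homeo p : OnePoint V'.E) := rfl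

end homotopy

end Bun.Isom

section

variable {Z : LC} {n : ℕ}

open Bun

/-- The rotation homotopy: the Thom morphisms of isometrically isomorphic bundles agree up to
homotopy after stabilisation by two orthogonal isometries. -/
theorem Bun.Isom.homotopic [DecidableEq ι] [DecidableEq κ] {V : Bun Z ι} {V' : Bun Z κ}
    (φ : V.Isom V') (hV : V.IsRank n)
    (hV' : V'.IsRank n) {a : Matrix μ ι ℂ} {b : Matrix μ κ ℂ} (ha : aᴴ * a = 1) (hb : bᴴ * b = 1)
    (hab : aᴴ * b = 0) {A : ThO n ι ⟶ ThO n μ} {B : ThO n κ ⟶ ThO n μ} (hA : Q.IsIsomMap a A)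
    (hB : Q.IsIsomMap b B) :
    LC.Homotopic (thomMor V hV ≫ Z ◁ A) (φ.iso.hom ≫ thomMor V' hV' ≫ Z ◁ B) := by
  -- the family of isometries
  let W : Z × unitInterval → Matrix μ ι ℂ := fun q => cT q.2 • a + sT q.2 • (b * φ.u q.1)
  have hWc : Continuous W := by
    have h1 : Continuous fun q : Z × unitInterval => φ.u q.1 := φ.cont.comp continuous_fst
    exact ((continuous_cT.comp continuous_snd).smul continuous_const).add
      ((continuous_sT.comp continuous_snd).smul (continuous_const.matrix_mul h1))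
  have hba : bᴴ * a = 0 := by
    have := congrArg conjTranspose hab
    rwa [conjTranspose_mul, conjTranspose_conjTranspose, conjTranspose_zero] at this
  have hWW : ∀ q, (W q)ᴴ * W q = (cT q.2 * cT q.2) • (1 : Matrix ι ι ℂ) +
      (sT q.2 * sT q.2) • V.P q.1 := by
    intro q
    have e1 : aᴴ * (b * φ.u q.1) = 0 := by rw [← Matrix.mul_assoc, hab, Matrix.zero_mul]
    have e2 : (b * φ.u q.1)ᴴ * a = 0 := by
      rw [conjTranspose_mul, Matrix.mul_assoc, hba, Matrix.mul_zero]
    have e3 : (b * φ.u q.1)ᴴ * (b * φ.u q.1) = V.P q.1 := by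
      rw [conjTranspose_mul, Matrix.mul_assoc, ← Matrix.mul_assoc bᴴ, hb, Matrix.one_mul, φ.left]
    simp only [W]
    rw [conjTranspose_add, conjTranspose_smul, conjTranspose_smul, star_cT, star_sT,
      Matrix.add_mul, Matrix.mul_add, Matrix.mul_add, Matrix.smul_mul, Matrix.smul_mul,
      Matrix.smul_mul, Matrix.smul_mul, Matrix.mul_smul, Matrix.mul_smul, Matrix.mul_smul,
      Matrix.mul_smul, e1, e2, e3, ha]
    simp only [smul_zero, add_zero, zero_add, smul_smul]
  have hWP : ∀ q, (W q)ᴴ * W q * V.P q.1 = V.P q.1 := by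
    intro q
    rw [hWW, Matrix.add_mul, Matrix.smul_mul, Matrix.smul_mul, Matrix.one_mul, V.idem, ← add_smul,
      cT_sq_add_sT_sq, one_smul]
  have hWv : ∀ q (v : ι → ℂ), V.P q.1 *ᵥ v = v → (W q)ᴴ *ᵥ (W q *ᵥ v) = v := by
    intro q v hv
    conv_lhs => rw [← hv]
    rw [mulVec_mulVec, mulVec_mulVec, hWP, hv]
  have hproj : ∀ q, IsProj n (W q * V.P q.1 * (W q)ᴴ) := fun q =>
    (V.isProj hV q.1).conj (hWP q)
  let F : V.E × unitInterval → Z × Th n μ := fun r =>
    (base r.1, Th.mk (W (base r.1, r.2) * V.P (base r.1) * (W (base r.1, r.2))ᴴ)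
      (W (base r.1, r.2) *ᵥ vec r.1) (hproj _)
      ((V.isProj hV (base r.1)).conj_mulVec (hWP (base r.1, r.2)) (P_vec r.1)))
  have hq : Continuous fun r : V.E × unitInterval => ((base r.1, r.2) : Z × unitInterval) :=
    (continuous_base.comp continuous_fst).prodMk continuous_snd
  have hFc : Continuous F := by
    refine (continuous_base.comp continuous_fst).prodMk (Continuous.subtype_mk
      (Continuous.prodMk ?_ ?_) _)
    · exact ((hWc.comp hq).matrix_mul (V.cont.comp (continuous_base.comp continuous_fst))).matrix_mul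
        (hWc.comp hq).matrix_conjTranspose
    · exact (hWc.comp hq).matrix_mulVec (continuous_vec.comp continuous_fst)
  refine LC.homotopic_of_leftInverse (X := V.tot) (Y := Z ⊗ ThO n μ) F hFc
    (fun r => V.ofVec r.1.1 ((W (r.1.1, r.2))ᴴ *ᵥ r.1.2.v)) ?_ ?_ ?_ ?_
  · refine V.continuous_ofVec.comp (Continuous.prodMk (continuous_fst.comp continuous_fst) ?_)
    have h1 : Continuous fun r : (Z × Th n μ) × unitInterval =>
        ((r.1.1, r.2) : Z × unitInterval) :=
      (continuous_fst.comp continuous_fst).prodMk continuous_snd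
    exact (hWc.comp h1).matrix_conjTranspose.matrix_mulVec
      (Th.continuous_v.comp (continuous_snd.comp continuous_fst))
  · intro p t
    refine E_ext rfl ?_
    change V.P (base p) *ᵥ ((W (base p, t))ᴴ *ᵥ (W (base p, t) *ᵥ vec p)) = vec p
    rw [hWv (base p, t) (vec p) (P_vec p), P_vec]
  · intro p
    obtain ⟨y, hy, hyP, hyv⟩ := hA (V.toTh hV p)
    rw [LC.app_comp, app_thomMor, LC.app_whiskerLeft_smash, hy]
    have h1 : y = (F (p, 0)).2 := by
      apply Th.ext
      · rw [hyP]
        change a * V.P (base p) * aᴴ = (cT 0 • a + sT 0 • (b * φ.u (base p))) * V.P (base p) *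
          (cT 0 • a + sT 0 • (b * φ.u (base p)))ᴴ
        simp
      · rw [hyv]
        change a *ᵥ vec p = (cT 0 • a + sT 0 • (b * φ.u (base p))) *ᵥ vec p
        simp
    rw [h1]
    rfl
  · intro p
    obtain ⟨y, hy, hyP, hyv⟩ := hB (V'.toTh hV' (φ.homeo p))
    rw [LC.app_comp, Bun.Isom.app_iso_hom_coe, LC.app_comp, app_thomMor,
      LC.app_whiskerLeft_smash, hy]
    have h1 : y = (F (p, 1)).2 := by
      apply Th.ext
      · rw [hyP]
        change b * V'.P (base p) * bᴴ = (cT 1 • a + sT 1 • (b * φ.u (base p))) * V.P (base p) *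
          (cT 1 • a + sT 1 • (b * φ.u (base p)))ᴴ
        rw [cT_one, sT_one, zero_smul, one_smul, zero_add, conjTranspose_mul,
          Matrix.mul_assoc b (φ.u (base p)) (V.P (base p)), φ.u_mul_P, ← φ.right]
        simp only [Matrix.mul_assoc]
      · rw [hyv]
        change b *ᵥ (φ.u (base p) *ᵥ vec p) =
          (cT 1 • a + sT 1 • (b * φ.u (base p))) *ᵥ vec p
        rw [cT_one, sT_one, zero_smul, one_smul, zero_add, mulVec_mulVec]
    rw [h1]
    rfl

end

end Vale.Agent.P251.G
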