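import Vale.Agent.P251.Q.Weight

/-!
# P251, part Q: unipotent substitutions (task Q4)

If `c i = e_(i+1) + (higher degree)` are symmetric polynomials, then modulo high degree the
polynomials in the `c i` and the polynomials in the elementary symmetric functions `e i` are the
same, with the same constant term and coefficients in the same ring.
-/

open Finset MvPolynomial

namespace Vale.Agent.P251.Q

section unip

variable {R : Type*} [CommRing R] {σ : Type*} {w : σ → ℕ}

theorem aeval_sub_self_mem_J {G : σ → MvPolynomial σ R}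
    (hG : ∀ i, G i - X i ∈ J R w (w i + 1)) {m : ℕ} {P : MvPolynomial σ R} (hP : P ∈ J R w m) :
    aeval G P - P ∈ J R w (m + 1) := by
  have h1 : ∀ i, G i ∈ J R w (w i) := by
    intro i
    have : G i = (G i - X i) + X i := by ring
    rw [this]
    exact add_mem (J_antitone (Nat.le_succ _) (hG i)) (X_mem_J i)
  have h2 := eval₂_sub_mem_J (RingHom.id R) G X h1 X_mem_J hG hP
  rw [RingHom.comp_id, eval₂_eta] at h2
  rwa [aeval_def, MvPolynomial.algebraMap_eq]

theorem mem_J_of_aeval_unip {G : σ → MvPolynomial σ R}
    (hG : ∀ i, G i - X i ∈ J R w (w i + 1)) {m : ℕ} {P : MvPolynomial σ R}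
    (hP : aeval G P ∈ J R w m) : P ∈ J R w m := by
  have h : ∀ k ≤ m, P ∈ J R w k := by
    intro k
    induction k with
    | zero => intro _; exact mem_J_zero P
    | succ k ih =>
      intro hk
      have h1 := aeval_sub_self_mem_J hG (ih (Nat.le_of_succ_le hk))
      have h2 : P = aeval G P - (aeval G P - P) := by ring
      rw [h2]
      exact sub_mem (J_antitone hk hP) h1
  exact h m le_rfl

theorem constantCoeff_eq_zero_of_mem_J {m : ℕ} (hm : 1 ≤ m) {P : MvPolynomial σ R}
    (hP : P ∈ J R w m) : constantCoeff P = 0 := by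
  rw [constantCoeff_eq]
  exact mem_J'.1 hP 0 (by rw [map_zero]; omega)

theorem exists_aeval_unip {G : σ → MvPolynomial σ R}
    (hG : ∀ i, G i - X i ∈ J R w (w i + 1)) (Q : MvPolynomial σ R) (m : ℕ) :
    ∃ Q' : MvPolynomial σ R, constantCoeff Q' = constantCoeff Q ∧ aeval G Q' - Q ∈ J R w m := by
  induction m with
  | zero => exact ⟨Q, rfl, mem_J_zero _⟩
  | succ m ih =>
    rcases Nat.eq_zero_or_pos m with rfl | hm
    · exact ⟨Q, rfl, aeval_sub_self_mem_J hG (mem_J_zero Q)⟩
    · obtain ⟨Q', h1, h2⟩ := ih
      refine ⟨Q' - (aeval G Q' - Q), ?_, ?_⟩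
      · rw [map_sub, constantCoeff_eq_zero_of_mem_J hm h2, sub_zero, h1]
      · rw [map_sub (aeval G) Q' (aeval G Q' - Q)]
        have h3 : aeval G Q' - aeval G (aeval G Q' - Q) - Q =
            -(aeval G (aeval G Q' - Q) - (aeval G Q' - Q)) := by ring
        rw [h3]
        exact neg_mem (aeval_sub_self_mem_J hG h2)

end unip

theorem map_mem_J {R R' : Type*} [CommRing R] [CommRing R'] {σ : Type*} {w : σ → ℕ}
    (f : R →+* R') {m : ℕ} {P : MvPolynomial σ R} (hP : P ∈ J R w m) :
    map f P ∈ J R' w m := by
  rw [mem_J'] at hP ⊢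
  intro t ht
  rw [coeff_map, hP t ht, map_zero]

section base

variable {C D R : Type*} [CommRing C] [CommRing D] [CommRing R] [Algebra C D] [Algebra C R]
  [Algebra D R] [IsScalarTower C D R] {n : ℕ}

theorem map_unip {G : Fin n → MvPolynomial (Fin n) C}
    (hGX : ∀ i, G i - X i ∈ J C (wt n) (wt n i + 1)) (R : Type*) [CommRing R] [Algebra C R]
    (i : Fin n) : MvPolynomial.map (algebraMap C R) (G i) - X i ∈ J R (wt n) (wt n i + 1) := by
  have := map_mem_J (algebraMap C R) (hGX i)
  rwa [map_sub, map_X] at this

theorem map_aeval_map (G : Fin n → MvPolynomial (Fin n) C) (P : MvPolynomial (Fin n) D) :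
    MvPolynomial.map (algebraMap D R)
      (aeval (fun i => MvPolynomial.map (algebraMap C D) (G i)) P) =
      aeval (fun i => MvPolynomial.map (algebraMap C R) (G i))
        (MvPolynomial.map (algebraMap D R) P) := by
  induction P using MvPolynomial.induction_on with
  | C a => simp
  | add p q hp hq => simp only [map_add, hp, hq]
  | mul_X p i hp =>
    simp only [map_mul, hp, aeval_X, map_X]
    rw [MvPolynomial.map_map, ← IsScalarTower.algebraMap_eq]

theorem aeval_es_map (P : MvPolynomial (Fin n) C) :
    aeval (es R n) (MvPolynomial.map (algebraMap C R) P) =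
      MvPolynomial.map (algebraMap C R) (aeval (es C n) P) := by
  induction P using MvPolynomial.induction_on with
  | C a => simp
  | add p q hp hq => simp only [map_add, hp, hq]
  | mul_X p i hp =>
    simp only [map_mul, hp, aeval_X, map_X]
    rw [map_esymm]

theorem aeval_aeval (G : Fin n → MvPolynomial (Fin n) R) (H : Fin n → MvPolynomial (Fin n) R)
    (P : MvPolynomial (Fin n) R) :
    aeval H (aeval G P) = aeval (fun i => aeval H (G i)) P := by
  induction P using MvPolynomial.induction_on with
  | C a => simp
  | add p q hp hq => simp only [map_add, hp, hq]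
  | mul_X p i hp => simp only [map_mul, hp, aeval_X]

end base

/-- Modulo terms of high degree, a polynomial in symmetric functions `c i = e_(i+1) + ...` which is
a polynomial in the elementary symmetric functions with coefficients in `D` has its coefficients
in `D`, and the same constant term. -/
theorem exists_change_of_generators {C D R : Type*} [CommRing C] [CommRing D] [CommRing R]
    [Algebra C D] [Algebra C R] [Algebra D R] [IsScalarTower C D R]
    {n : ℕ} (c : Fin n → MvPolynomial (Fin n) C) (hsymm : ∀ i, (c i).IsSymmetric)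
    (hc : ∀ i : Fin n, c i - es C n i ∈ J C (fun _ => 1) ((i : ℕ) + 2))
    (Q : MvPolynomial (Fin n) D) (m : ℕ) :
    ∃ Q' : MvPolynomial (Fin n) D, constantCoeff Q' = constantCoeff Q ∧
      ∀ P : MvPolynomial (Fin n) R,
        aeval (fun i => MvPolynomial.map (algebraMap C R) (c i)) P -
          aeval (es R n) (MvPolynomial.map (algebraMap D R) Q) ∈ J R (fun _ => 1) m →
        P - MvPolynomial.map (algebraMap D R) Q' ∈ J R (wt n) m := by
  choose G hG using fun i => MvPolynomial.esymmAlgHom_surjective (σ := Fin n) (n := n) C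
    (by simp) ⟨c i, hsymm i⟩
  have hG' : ∀ i, aeval (es C n) (G i) = c i := by
    intro i
    have := congrArg Subtype.val (hG i)
    rwa [esymmAlgHom_apply] at this
  have hGX : ∀ i, G i - X i ∈ J C (wt n) (wt n i + 1) := by
    intro i
    apply mem_J_of_aeval_es
    rw [map_sub, hG', aeval_X]
    exact hc i
  obtain ⟨Q', h1, h2⟩ := exists_aeval_unip (map_unip hGX D) Q m
  refine ⟨Q', h1, fun P hP => ?_⟩
  have hes : ∀ i, aeval (es R n) (MvPolynomial.map (algebraMap C R) (G i)) =
      MvPolynomial.map (algebraMap C R) (c i) := by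
    intro i
    rw [aeval_es_map, hG' i]
  have hcomp : aeval (es R n)
      (aeval (fun i => MvPolynomial.map (algebraMap C R) (G i)) P) =
      aeval (fun i => MvPolynomial.map (algebraMap C R) (c i)) P := by
    rw [aeval_aeval]
    simp only [hes]
  rw [← hcomp, ← map_sub] at hP
  have h3 := mem_J_of_aeval_es hP
  have h4 := map_mem_J (algebraMap D R) h2
  rw [map_sub, map_aeval_map] at h4
  have h5 := sub_mem h3 h4
  rw [sub_sub_sub_cancel_right, ← map_sub] at h5
  exact mem_J_of_aeval_unip (map_unip hGX R) h5

end Vale.Agent.P251.Q
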